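-- KEEP
import Claimed.Agent.R252.Remez.Misc

/-! PACKED FILE (unit S8c = P8.2, architect helper54; CLOSED, FROZEN, 0 sorry): parts S8c.Triple, S8c.Resample, S8c.PathDef, S8c.PathM, S8c.PathM2, S8c.Fail, S8c.Cap, S8c.Heavy, S8c.Sim, S8c.Core.  Each part is wrapped in its own `section`. -/

section PkS8cTriple

/-!
# ROW 252 (S0492), unit S8c = P8.2 critical-rate improvement (08-critical-rates.tex l.74-330), sub-architect helper54.   File 1: THE THREE TRAVERSALS, Lebesgue part.   PAPER-FREE, 0 sorry.   Prefix `k8c`.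

* `k8cStep x c τ'` : one exact horizontal traversal `Z' = c`, `Y' = -Z + t c` from the base point `x = (τ, Z, Y)` to the time `τ'`.
* `k8c_step3` : three traversals = the endpoint formulas (a07:critical-endpoint) `k8cZ`, `k8cY`.
* `k8cSet x c1 c2 c3 κ ω ts zs ys` : time triples `(τ1, τ2, τ3)` with `|τ2 - τ1| ≥ κ` whose endpoint lies within `ω` of `(ts, zs, ys)`.
* `k8c_triple_lintegral`, `k8c_triple_volume` : its measure is `≤ 8 ω³ / κ³` if `|c2 - c1|, |c3 - c2| ≥ κ`  (l.255-290; no area formula: at fixed `τ3` substitute `u = D1 τ1 + D2 τ2`, then `rmz_quad_sublevel` in `τ2`, derivative `2 D2 (τ1 - τ2)`).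
-/

set_option autoImplicit false

namespace Claimed.Agent.R252

open MeasureTheory
open scoped ENNReal BigOperators

noncomputable section

/-- one exact horizontal traversal with velocity `c` from the base point `(τ, Z, Y)` to the time `τ'` : `Z' = c`, `Y' = -Z + t c` (constant along the traversal) -/
def k8cStep (x : ℝ × ℝ × ℝ) (c τ' : ℝ) : ℝ × ℝ × ℝ :=
  (τ', x.2.1 + c * (τ' - x.1), x.2.2 + (-x.2.1 + x.1 * c) * (τ' - x.1))

/-- `Z_f` of (a07:critical-endpoint) -/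
def k8cZ (x : ℝ × ℝ × ℝ) (c1 c2 c3 τ1 τ2 τ3 : ℝ) : ℝ :=
  x.2.1 + c1 * (τ3 - x.1) + (c2 - c1) * (τ3 - τ1) + (c3 - c2) * (τ3 - τ2)

/-- `Y_f` of (a07:critical-endpoint) -/
def k8cY (x : ℝ × ℝ × ℝ) (c1 c2 c3 τ1 τ2 τ3 : ℝ) : ℝ :=
  x.2.2 + (-x.2.1 + x.1 * c1) * (τ3 - x.1) + (c2 - c1) * τ1 * (τ3 - τ1) + (c3 - c2) * τ2 * (τ3 - τ2)

/-- exact integration of three traversals -/
theorem k8c_step3 (x : ℝ × ℝ × ℝ) (c1 c2 c3 τ1 τ2 τ3 : ℝ) :
    k8cStep (k8cStep (k8cStep x c1 τ1) c2 τ2) c3 τ3 = (τ3, k8cZ x c1 c2 c3 τ1 τ2 τ3, k8cY x c1 c2 c3 τ1 τ2 τ3) := by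
  unfold k8cStep k8cZ k8cY
  refine Prod.ext rfl (Prod.ext ?_ ?_)
  · simp only
    ring
  · simp only
    ring

/-- the regular time triples whose endpoint lies in the cell of half-side `ω` around `(ts, zs, ys)` -/
def k8cSet (x : ℝ × ℝ × ℝ) (c1 c2 c3 κ ω ts zs ys : ℝ) : Set (ℝ × ℝ × ℝ) :=
  {p | κ ≤ |p.2.1 - p.1| ∧ |p.2.2 - ts| ≤ ω ∧ |k8cZ x c1 c2 c3 p.1 p.2.1 p.2.2 - zs| ≤ ω ∧ |k8cY x c1 c2 c3 p.1 p.2.1 p.2.2 - ys| ≤ ω}

theorem k8c_set_meas (x : ℝ × ℝ × ℝ) (c1 c2 c3 κ ω ts zs ys : ℝ) : MeasurableSet (k8cSet x c1 c2 c3 κ ω ts zs ys) := by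
  unfold k8cSet k8cZ k8cY
  simp only [Set.ofPred_and]
  refine MeasurableSet.inter ?_ (MeasurableSet.inter ?_ (MeasurableSet.inter ?_ ?_))
  · exact measurableSet_le measurable_const (by fun_prop)
  · exact measurableSet_le (by fun_prop) measurable_const
  · exact measurableSet_le (by fun_prop) measurable_const
  · exact measurableSet_le (by fun_prop) measurable_const

/-- affine substitution in a `lintegral` over `ℝ` -/
theorem k8c_lintegral_affine (f : ℝ → ℝ≥0∞) (hf : Measurable f) (a b : ℝ) (ha : a ≠ 0) :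
    ∫⁻ t, f t = ENNReal.ofReal |a⁻¹| * ∫⁻ u, f ((u - b) / a) := by
  have h1 : ∫⁻ u, f ((u - b) / a) = ∫⁻ u, f (u / a) := by
    have := lintegral_sub_right_eq_self (μ := (volume : Measure ℝ)) (fun u => f (u / a)) b
    exact this
  have h2 : ∫⁻ u, f (u / a) = ENNReal.ofReal |a| * ∫⁻ t, f t := by
    have hm : Measure.map (fun u : ℝ => a⁻¹ * u) volume = ENNReal.ofReal |a⁻¹⁻¹| • volume :=
      Real.map_volume_mul_left (inv_ne_zero ha)
    have e : ∫⁻ u, f (u / a) = ∫⁻ t, f t ∂(Measure.map (fun u : ℝ => a⁻¹ * u) volume) := by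
      rw [lintegral_map hf (by fun_prop)]
      refine lintegral_congr fun u => ?_
      rw [div_eq_inv_mul]
    rw [e, hm, lintegral_smul_measure, inv_inv]
    rfl
  rw [h1, h2, ← mul_assoc, ← ENNReal.ofReal_mul (abs_nonneg _), ← abs_mul, inv_mul_cancel₀ ha]
  simp

/-- the planar section at fixed `τ3` -/
theorem k8c_section (x : ℝ × ℝ × ℝ) (c1 c2 c3 κ ω zs ys τ3 : ℝ) (hκ : 0 < κ) (hω : 0 ≤ ω)
    (h1 : κ ≤ |c2 - c1|) (h2 : κ ≤ |c3 - c2|) :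
    ∫⁻ τ2, ∫⁻ τ1, Set.indicator {p : ℝ × ℝ | κ ≤ |p.2 - p.1| ∧ |k8cZ x c1 c2 c3 p.1 p.2 τ3 - zs| ≤ ω ∧ |k8cY x c1 c2 c3 p.1 p.2 τ3 - ys| ≤ ω}
        (fun _ => (1 : ℝ≥0∞)) (τ1, τ2)
      ≤ ENNReal.ofReal (4 * ω ^ 2 / κ ^ 3) := by
  set D1 := c2 - c1 with hD1
  set D2 := c3 - c2 with hD2
  have hD1n : D1 ≠ 0 := by
    intro h
    rw [h, abs_zero] at h1
    linarith
  set S : Set (ℝ × ℝ) := {p : ℝ × ℝ | κ ≤ |p.2 - p.1| ∧ |k8cZ x c1 c2 c3 p.1 p.2 τ3 - zs| ≤ ω ∧ |k8cY x c1 c2 c3 p.1 p.2 τ3 - ys| ≤ ω} with hS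
  have hSm : MeasurableSet S := by
    rw [hS]
    unfold k8cZ k8cY
    simp only [Set.ofPred_and]
    refine MeasurableSet.inter ?_ (MeasurableSet.inter ?_ ?_)
    · exact measurableSet_le measurable_const (by fun_prop)
    · exact measurableSet_le (by fun_prop) measurable_const
    · exact measurableSet_le (by fun_prop) measurable_const
  have hF : Measurable (Set.indicator S (fun _ => (1 : ℝ≥0∞))) := measurable_const.indicator hSm
  -- substitution `u = D1 τ1 + D2 τ2`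
  have e1 : ∀ τ2 : ℝ, ∫⁻ τ1, Set.indicator S (fun _ => (1 : ℝ≥0∞)) (τ1, τ2)
      = ENNReal.ofReal |D1⁻¹| * ∫⁻ u, Set.indicator S (fun _ => (1 : ℝ≥0∞)) ((u - D2 * τ2) / D1, τ2) := fun τ2 =>
    k8c_lintegral_affine (fun τ1 => Set.indicator S (fun _ => (1 : ℝ≥0∞)) (τ1, τ2)) (hF.comp (by fun_prop)) D1 (D2 * τ2) hD1n
  simp only [e1]
  have hG : Measurable (fun q : ℝ × ℝ => Set.indicator S (fun _ => (1 : ℝ≥0∞)) ((q.2 - D2 * q.1) / D1, q.1)) :=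
    hF.comp (by fun_prop)
  rw [lintegral_const_mul' _ _ ENNReal.ofReal_ne_top,
    lintegral_lintegral_swap (f := fun τ2 u => Set.indicator S (fun _ => (1 : ℝ≥0∞)) ((u - D2 * τ2) / D1, τ2)) hG.aemeasurable]
  -- the constant `A0` with `Z_f = A0 - u`
  set A0 : ℝ := x.2.1 + c1 * (τ3 - x.1) + D1 * τ3 + D2 * τ3 with hA0
  set E0 : ℝ := x.2.2 + (-x.2.1 + x.1 * c1) * (τ3 - x.1) with hE0
  have key : ∀ u : ℝ, ∫⁻ τ2, Set.indicator S (fun _ => (1 : ℝ≥0∞)) ((u - D2 * τ2) / D1, τ2)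
      ≤ Set.indicator (Set.Icc (A0 - zs - ω) (A0 - zs + ω)) (fun _ => ENNReal.ofReal (4 * ω / (2 * κ ^ 2))) u := by
    intro u
    by_cases hu : u ∈ Set.Icc (A0 - zs - ω) (A0 - zs + ω)
    · rw [Set.indicator_of_mem hu]
      have hsub : ∀ τ2 : ℝ, Set.indicator S (fun _ => (1 : ℝ≥0∞)) ((u - D2 * τ2) / D1, τ2)
          ≤ Set.indicator {w : ℝ | |(-(D2 * (D2 + D1) / D1)) * w ^ 2 + (2 * u * D2 / D1) * w + (E0 + u * τ3 - u ^ 2 / D1 - ys)| ≤ ω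
              ∧ 2 * κ ^ 2 ≤ |2 * (-(D2 * (D2 + D1) / D1)) * w + (2 * u * D2 / D1)|} (fun _ => (1 : ℝ≥0∞)) τ2 := by
        intro τ2
        by_cases hp : ((u - D2 * τ2) / D1, τ2) ∈ S
        · have hmem : τ2 ∈ {w : ℝ | |(-(D2 * (D2 + D1) / D1)) * w ^ 2 + (2 * u * D2 / D1) * w + (E0 + u * τ3 - u ^ 2 / D1 - ys)| ≤ ω
              ∧ 2 * κ ^ 2 ≤ |2 * (-(D2 * (D2 + D1) / D1)) * w + (2 * u * D2 / D1)|} := by
            obtain ⟨p1, -, p3⟩ := hp
            simp only at p1 p3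
            constructor
            · have e : (-(D2 * (D2 + D1) / D1)) * τ2 ^ 2 + (2 * u * D2 / D1) * τ2 + (E0 + u * τ3 - u ^ 2 / D1 - ys)
                  = k8cY x c1 c2 c3 ((u - D2 * τ2) / D1) τ2 τ3 - ys := by
                unfold k8cY
                rw [← hD1, ← hD2, hE0]
                field_simp
                ring
              rw [e]
              exact p3
            · have e : 2 * (-(D2 * (D2 + D1) / D1)) * τ2 + (2 * u * D2 / D1) = -(2 * D2 * (τ2 - (u - D2 * τ2) / D1)) := by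
                field_simp
                ring
              rw [e, abs_neg, abs_mul, abs_mul]
              have : (0 : ℝ) ≤ |D2| := abs_nonneg _
              have h3 : κ * κ ≤ |D2| * |τ2 - (u - D2 * τ2) / D1| := mul_le_mul h2 p1 hκ.le this
              rw [abs_of_pos (by norm_num : (0 : ℝ) < 2)]
              nlinarith
          rw [Set.indicator_of_mem hp, Set.indicator_of_mem hmem]
        · rw [Set.indicator_of_notMem hp]
          exact zero_le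
      refine (lintegral_mono hsub).trans ?_
      have hm : MeasurableSet {w : ℝ | |(-(D2 * (D2 + D1) / D1)) * w ^ 2 + (2 * u * D2 / D1) * w + (E0 + u * τ3 - u ^ 2 / D1 - ys)| ≤ ω
              ∧ 2 * κ ^ 2 ≤ |2 * (-(D2 * (D2 + D1) / D1)) * w + (2 * u * D2 / D1)|} := by
        simp only [Set.ofPred_and]
        exact (measurableSet_le (by fun_prop) measurable_const).inter (measurableSet_le measurable_const (by fun_prop))
      rw [lintegral_indicator hm, lintegral_const, one_mul, Measure.restrict_apply MeasurableSet.univ, Set.univ_inter]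
      exact rmz_quad_sublevel _ _ _ ω (2 * κ ^ 2) hω (by positivity)
    · rw [Set.indicator_of_notMem hu]
      refine le_of_eq ?_
      have hz : ∀ τ2 : ℝ, Set.indicator S (fun _ => (1 : ℝ≥0∞)) ((u - D2 * τ2) / D1, τ2) = 0 := by
       intro τ2
       have hp : ((u - D2 * τ2) / D1, τ2) ∉ S := by
        rintro ⟨-, p2, -⟩
        simp only at p2
        apply hu
        have e : k8cZ x c1 c2 c3 ((u - D2 * τ2) / D1) τ2 τ3 = A0 - u := by
          unfold k8cZ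
          rw [← hD1, ← hD2, hA0]
          field_simp
          ring
        rw [e] at p2
        have := abs_le.1 p2
        exact ⟨by linarith [this.2], by linarith [this.1]⟩
       exact Set.indicator_of_notMem hp _
      simp only [hz, lintegral_zero]
  refine (mul_le_mul' le_rfl (lintegral_mono key)).trans ?_
  rw [lintegral_indicator measurableSet_Icc, lintegral_const, Measure.restrict_apply MeasurableSet.univ, Set.univ_inter,
    Real.volume_Icc, ← ENNReal.ofReal_mul (by positivity), ← ENNReal.ofReal_mul (abs_nonneg _)]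
  apply ENNReal.ofReal_le_ofReal
  have e : A0 - zs + ω - (A0 - zs - ω) = 2 * ω := by ring
  rw [e, abs_inv]
  have h3 : |D1|⁻¹ ≤ κ⁻¹ := inv_anti₀ hκ h1
  have h4 : 0 ≤ 4 * ω / (2 * κ ^ 2) * (2 * ω) := by positivity
  calc |D1|⁻¹ * (4 * ω / (2 * κ ^ 2) * (2 * ω)) ≤ κ⁻¹ * (4 * ω / (2 * κ ^ 2) * (2 * ω)) := mul_le_mul_of_nonneg_right h3 h4
    _ = 4 * ω ^ 2 / κ ^ 3 := by
        field_simp

/-- **(a07:critical-cell-cap), the Lebesgue part.**  The regular time triples with endpoint in a cell of half-side `ω`, in the order in which the path law produces them -/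
theorem k8c_triple_lintegral (x : ℝ × ℝ × ℝ) (c1 c2 c3 κ ω ts zs ys : ℝ) (hκ : 0 < κ) (hω : 0 ≤ ω)
    (h1 : κ ≤ |c2 - c1|) (h2 : κ ≤ |c3 - c2|) :
    ∫⁻ τ1, ∫⁻ τ2, ∫⁻ τ3, Set.indicator (k8cSet x c1 c2 c3 κ ω ts zs ys) (fun _ => (1 : ℝ≥0∞)) (τ1, τ2, τ3)
      ≤ ENNReal.ofReal (8 * ω ^ 3 / κ ^ 3) := by
  have hF : Measurable (Set.indicator (k8cSet x c1 c2 c3 κ ω ts zs ys) (fun _ => (1 : ℝ≥0∞))) :=
    measurable_const.indicator (k8c_set_meas x c1 c2 c3 κ ω ts zs ys)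
  -- bring `τ3` outside
  have s1 : ∀ τ1 : ℝ, ∫⁻ τ2, ∫⁻ τ3, Set.indicator (k8cSet x c1 c2 c3 κ ω ts zs ys) (fun _ => (1 : ℝ≥0∞)) (τ1, τ2, τ3)
      = ∫⁻ τ3, ∫⁻ τ2, Set.indicator (k8cSet x c1 c2 c3 κ ω ts zs ys) (fun _ => (1 : ℝ≥0∞)) (τ1, τ2, τ3) := fun τ1 =>
    lintegral_lintegral_swap (f := fun τ2 τ3 => Set.indicator (k8cSet x c1 c2 c3 κ ω ts zs ys) (fun _ => (1 : ℝ≥0∞)) (τ1, τ2, τ3))
      (hF.comp (by fun_prop)).aemeasurable
  simp only [s1]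
  have hG : Measurable (fun q : ℝ × ℝ => ∫⁻ τ2, Set.indicator (k8cSet x c1 c2 c3 κ ω ts zs ys) (fun _ => (1 : ℝ≥0∞)) (q.1, τ2, q.2)) :=
    Measurable.lintegral_prod_right' (f := fun r : (ℝ × ℝ) × ℝ =>
      Set.indicator (k8cSet x c1 c2 c3 κ ω ts zs ys) (fun _ => (1 : ℝ≥0∞)) (r.1.1, r.2, r.1.2)) (hF.comp (by fun_prop))
  rw [lintegral_lintegral_swap (f := fun τ1 τ3 => ∫⁻ τ2, Set.indicator (k8cSet x c1 c2 c3 κ ω ts zs ys) (fun _ => (1 : ℝ≥0∞)) (τ1, τ2, τ3))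
    hG.aemeasurable]
  have s2 : ∀ τ3 : ℝ, ∫⁻ τ1, ∫⁻ τ2, Set.indicator (k8cSet x c1 c2 c3 κ ω ts zs ys) (fun _ => (1 : ℝ≥0∞)) (τ1, τ2, τ3)
      = ∫⁻ τ2, ∫⁻ τ1, Set.indicator (k8cSet x c1 c2 c3 κ ω ts zs ys) (fun _ => (1 : ℝ≥0∞)) (τ1, τ2, τ3) := fun τ3 =>
    lintegral_lintegral_swap (f := fun τ1 τ2 => Set.indicator (k8cSet x c1 c2 c3 κ ω ts zs ys) (fun _ => (1 : ℝ≥0∞)) (τ1, τ2, τ3))
      (hF.comp (by fun_prop)).aemeasurable
  simp only [s2]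
  have key : ∀ τ3 : ℝ, ∫⁻ τ2, ∫⁻ τ1, Set.indicator (k8cSet x c1 c2 c3 κ ω ts zs ys) (fun _ => (1 : ℝ≥0∞)) (τ1, τ2, τ3)
      ≤ Set.indicator (Set.Icc (ts - ω) (ts + ω)) (fun _ => ENNReal.ofReal (4 * ω ^ 2 / κ ^ 3)) τ3 := by
    intro τ3
    by_cases ht : τ3 ∈ Set.Icc (ts - ω) (ts + ω)
    · rw [Set.indicator_of_mem ht]
      refine le_trans (lintegral_mono fun τ2 => lintegral_mono fun τ1 => ?_) (k8c_section x c1 c2 c3 κ ω zs ys τ3 hκ hω h1 h2)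
      by_cases hp : (τ1, τ2, τ3) ∈ k8cSet x c1 c2 c3 κ ω ts zs ys
      · have hq : (τ1, τ2) ∈ {p : ℝ × ℝ | κ ≤ |p.2 - p.1| ∧ |k8cZ x c1 c2 c3 p.1 p.2 τ3 - zs| ≤ ω ∧ |k8cY x c1 c2 c3 p.1 p.2 τ3 - ys| ≤ ω} :=
          ⟨hp.1, hp.2.2.1, hp.2.2.2⟩
        rw [Set.indicator_of_mem hp, Set.indicator_of_mem hq]
      · rw [Set.indicator_of_notMem hp]
        exact zero_le
    · rw [Set.indicator_of_notMem ht]
      have hz : ∀ τ2 τ1 : ℝ, Set.indicator (k8cSet x c1 c2 c3 κ ω ts zs ys) (fun _ => (1 : ℝ≥0∞)) (τ1, τ2, τ3) = 0 := by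
        intro τ2 τ1
        refine Set.indicator_of_notMem (fun hp => ht ?_) _
        have := abs_le.1 hp.2.1
        simp only at this
        exact ⟨by linarith [this.1], by linarith [this.2]⟩
      simp only [hz, lintegral_zero, le_refl]
  refine (lintegral_mono key).trans ?_
  rw [lintegral_indicator measurableSet_Icc, lintegral_const, Measure.restrict_apply MeasurableSet.univ, Set.univ_inter,
    Real.volume_Icc, ← ENNReal.ofReal_mul (by positivity)]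
  apply ENNReal.ofReal_le_ofReal
  refine le_of_eq ?_
  field_simp
  ring

/-- the same as a volume in `ℝ³` -/
theorem k8c_triple_volume (x : ℝ × ℝ × ℝ) (c1 c2 c3 κ ω ts zs ys : ℝ) (hκ : 0 < κ) (hω : 0 ≤ ω)
    (h1 : κ ≤ |c2 - c1|) (h2 : κ ≤ |c3 - c2|) :
    volume (k8cSet x c1 c2 c3 κ ω ts zs ys) ≤ ENNReal.ofReal (8 * ω ^ 3 / κ ^ 3) := by
  have hm := k8c_set_meas x c1 c2 c3 κ ω ts zs ys
  have hF : Measurable (Set.indicator (k8cSet x c1 c2 c3 κ ω ts zs ys) (fun _ => (1 : ℝ≥0∞))) := measurable_const.indicator hm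
  have e : volume (k8cSet x c1 c2 c3 κ ω ts zs ys)
      = ∫⁻ τ1, ∫⁻ τ2, ∫⁻ τ3, Set.indicator (k8cSet x c1 c2 c3 κ ω ts zs ys) (fun _ => (1 : ℝ≥0∞)) (τ1, τ2, τ3) := by
    rw [← lintegral_indicator_one hm]
    have e0 : (Set.indicator (k8cSet x c1 c2 c3 κ ω ts zs ys) (1 : ℝ × ℝ × ℝ → ℝ≥0∞))
        = Set.indicator (k8cSet x c1 c2 c3 κ ω ts zs ys) (fun _ => (1 : ℝ≥0∞)) := rfl
    rw [e0, Measure.volume_eq_prod, lintegral_prod _ hF.aemeasurable]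
    refine lintegral_congr fun τ1 => ?_
    have hq : Measurable (fun y : ℝ × ℝ => Set.indicator (k8cSet x c1 c2 c3 κ ω ts zs ys) (fun _ => (1 : ℝ≥0∞)) (τ1, y)) :=
      hF.comp (by fun_prop)
    rw [Measure.volume_eq_prod, lintegral_prod _ hq.aemeasurable]
  rw [e]
  exact k8c_triple_lintegral x c1 c2 c3 κ ω ts zs ys hκ hω h1 h2

end

end Claimed.Agent.R252

end PkS8cTriple

section PkS8cResample

/-
Row 252, unit S8c (P8.2 critical-rate improvement, 08-critical-rates.tex l.190-300).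
One traversal of the three-fold resampling: a fresh event conditional on the switching state,
then a new time on the fresh trajectory.  Everything is written with explicit densities:
events are pairs (trajectory, time), the current law has density `ρ` for `ν x Lebesgue`.
Proved here: stationarity (with a weight which is a function of the state and of the
trajectory), support-aware monotonicity, and the ceiling `Kc π x K1 K0 dτ` of the subkernel of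
(velocity bin, new time) on good fresh trajectories.  No sorry.
-/

set_option autoImplicit false
set_option linter.unusedSectionVars false

namespace Claimed.Agent.R252

open MeasureTheory
open scoped ENNReal BigOperators

noncomputable section

variable {Lam : Type*} [MeasurableSpace Lam] {S : Type*}

/-- the current law: density `ρ` with respect to (trajectory prior) x (Lebesgue time) -/
def k8cMu (ν : Measure Lam) (ρ : Lam × ℝ → ℝ≥0∞) : Measure (Lam × ℝ) := (ν.prod volume).withDensity ρ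

/-- the marginal density of a trajectory -/
def k8cBar (ρ : Lam × ℝ → ℝ≥0∞) (l : Lam) : ℝ≥0∞ := ∫⁻ t, ρ (l, t)

/-- the part of the marginal density of `l` in the state `s` -/
def k8cW (ρ : Lam × ℝ → ℝ≥0∞) (σ : Lam × ℝ → S) (s : S) (l : Lam) : ℝ≥0∞ := ∫⁻ t, Set.indicator (σ ⁻¹' {s}) ρ (l, t)

/-- a new time on the trajectory `l` : conditional expectation of `h (l, ·)` -/
def k8cT (ρ : Lam × ℝ → ℝ≥0∞) (h : Lam × ℝ → ℝ≥0∞) (l : Lam) : ℝ≥0∞ := (k8cBar ρ l)⁻¹ * ∫⁻ τ, h (l, τ) * ρ (l, τ)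

/-- **one traversal from the state `s`**: a fresh event conditional on the state `s`, then a new time on its trajectory; expectation of `h` at the new event -/
def k8cK (ν : Measure Lam) (ρ : Lam × ℝ → ℝ≥0∞) (σ : Lam × ℝ → S) (h : Lam × ℝ → ℝ≥0∞) (s : S) : ℝ≥0∞ :=
  (k8cMu ν ρ (σ ⁻¹' {s}))⁻¹ * ∫⁻ l, k8cW ρ σ s l * k8cT ρ h l ∂ν

/-- one traversal from the event `x` -/
def k8cQ (ν : Measure Lam) (ρ : Lam × ℝ → ℝ≥0∞) (σ : Lam × ℝ → S) (h : Lam × ℝ → ℝ≥0∞) (x : Lam × ℝ) : ℝ≥0∞ := k8cK ν ρ σ h (σ x)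

/-- standing assumptions -/
structure K8cOk (ν : Measure Lam) (ρ : Lam × ℝ → ℝ≥0∞) (σ : Lam × ℝ → S) : Prop where
  sf : SFinite ν
  rho : Measurable ρ
  lab : ∀ s, MeasurableSet (σ ⁻¹' {s})
  bar : ∀ l, k8cBar ρ l ≠ ⊤
  prob : k8cMu ν ρ Set.univ = 1

section basic

variable {ν : Measure Lam} {ρ : Lam × ℝ → ℝ≥0∞} {σ : Lam × ℝ → S}

theorem k8c_mu_lintegral [SFinite ν] (hρ : Measurable ρ) (f : Lam × ℝ → ℝ≥0∞) (hf : Measurable f) :
    ∫⁻ x, f x ∂(k8cMu ν ρ) = ∫⁻ l, (∫⁻ t, f (l, t) * ρ (l, t)) ∂ν := by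
  unfold k8cMu
  rw [lintegral_withDensity_eq_lintegral_mul _ hρ hf, lintegral_prod _ (hρ.mul hf).aemeasurable]
  refine lintegral_congr fun l => lintegral_congr fun t => ?_
  simp only [Pi.mul_apply]
  rw [mul_comm]

theorem k8c_bar_meas (hρ : Measurable ρ) : Measurable (k8cBar ρ) := hρ.lintegral_prod_right'

theorem k8c_W_meas (hρ : Measurable ρ) (hσ : ∀ s, MeasurableSet (σ ⁻¹' {s})) (s : S) : Measurable (k8cW ρ σ s) :=
  (hρ.indicator (hσ s)).lintegral_prod_right'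

theorem k8c_T_meas (hρ : Measurable ρ) {h : Lam × ℝ → ℝ≥0∞} (hh : Measurable h) : Measurable (k8cT ρ h) :=
  (k8c_bar_meas hρ).inv.mul (hh.mul hρ).lintegral_prod_right'

theorem k8c_mu_state [SFinite ν] (hρ : Measurable ρ) (hσ : ∀ s, MeasurableSet (σ ⁻¹' {s})) (s : S) :
    k8cMu ν ρ (σ ⁻¹' {s}) = ∫⁻ l, k8cW ρ σ s l ∂ν := by
  rw [← lintegral_indicator_one (hσ s), k8c_mu_lintegral hρ _ (measurable_one.indicator (hσ s))]
  refine lintegral_congr fun l => lintegral_congr fun t => ?_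
  by_cases hx : (l, t) ∈ σ ⁻¹' {s}
  · rw [Set.indicator_of_mem hx, Set.indicator_of_mem hx]
    simp
  · rw [Set.indicator_of_notMem hx, Set.indicator_of_notMem hx, zero_mul]

theorem k8c_W_sum [Fintype S] (hρ : Measurable ρ) (hσ : ∀ s, MeasurableSet (σ ⁻¹' {s})) (l : Lam) :
    ∑ s, k8cW ρ σ s l = k8cBar ρ l := by
  classical
  unfold k8cW k8cBar
  have hm : ∀ s ∈ (Finset.univ : Finset S), Measurable fun t : ℝ => Set.indicator (σ ⁻¹' {s}) ρ (l, t) :=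
    fun s _ => (hρ.indicator (hσ s)).comp measurable_prodMk_left
  rw [← lintegral_finsetSum _ hm]
  refine lintegral_congr fun t => ?_
  rw [Finset.sum_eq_single (σ (l, t))]
  · exact Set.indicator_of_mem (show (l, t) ∈ σ ⁻¹' {σ (l, t)} from rfl) ρ
  · intro s _ hs
    exact Set.indicator_of_notMem (show (l, t) ∉ σ ⁻¹' {s} from fun h => hs (Eq.symm h)) ρ
  · intro h
    exact absurd (Finset.mem_univ _) h

theorem k8c_W_le (s : S) (l : Lam) : k8cW ρ σ s l ≤ k8cBar ρ l :=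
  lintegral_mono fun _ => Set.indicator_le_self _ _ _

/-- a trajectory which occurs in the state `s` has an event in that state -/
theorem k8c_W_ne_zero {s : S} {l : Lam} (h : k8cW ρ σ s l ≠ 0) : ∃ t, σ (l, t) = s ∧ ρ (l, t) ≠ 0 := by
  by_contra hc
  simp only [not_exists, not_and, not_not] at hc
  apply h
  unfold k8cW
  have : ∀ t, Set.indicator (σ ⁻¹' {s}) ρ (l, t) = 0 := by
    intro t
    by_cases hx : (l, t) ∈ σ ⁻¹' {s}
    · rw [Set.indicator_of_mem hx]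
      exact hc t hx
    · exact Set.indicator_of_notMem hx _
  simp only [this, lintegral_zero]

/-- integrals of functions of a finite label -/
theorem k8c_lintegral_label [Fintype S] (μ : Measure (Lam × ℝ)) (hσ : ∀ s, MeasurableSet (σ ⁻¹' {s})) (φ : S → ℝ≥0∞) :
    ∫⁻ x, φ (σ x) ∂μ = ∑ s, φ s * μ (σ ⁻¹' {s}) := by
  classical
  have e : ∀ x, φ (σ x) = ∑ s, Set.indicator (σ ⁻¹' {s}) (fun _ => φ s) x := by
    intro x
    rw [Finset.sum_eq_single (σ x)]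
    · exact (Set.indicator_of_mem (show x ∈ σ ⁻¹' {σ x} from rfl) (fun _ => φ (σ x))).symm
    · intro s _ hs
      exact Set.indicator_of_notMem (show x ∉ σ ⁻¹' {s} from fun h => hs (Eq.symm h)) (fun _ => φ s)
    · intro h
      exact absurd (Finset.mem_univ _) h
  simp only [e]
  rw [lintegral_finsetSum _ fun s _ => measurable_const.indicator (hσ s)]
  refine Finset.sum_congr rfl fun s _ => ?_
  rw [lintegral_indicator (hσ s), lintegral_const, Measure.restrict_apply MeasurableSet.univ, Set.univ_inter]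

/-- monotonicity on the support of the traversal -/
theorem k8c_K_mono (ν : Measure Lam) (ρ : Lam × ℝ → ℝ≥0∞) (σ : Lam × ℝ → S) {h h' : Lam × ℝ → ℝ≥0∞} (s : S)
    (hle : ∀ l τ, k8cW ρ σ s l ≠ 0 → ρ (l, τ) ≠ 0 → h (l, τ) ≤ h' (l, τ)) : k8cK ν ρ σ h s ≤ k8cK ν ρ σ h' s := by
  unfold k8cK
  refine mul_le_mul' le_rfl (lintegral_mono fun l => ?_)
  by_cases hW : k8cW ρ σ s l = 0
  · simp only [hW, zero_mul, le_refl]
  · refine mul_le_mul' le_rfl ?_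
    unfold k8cT
    refine mul_le_mul' le_rfl (lintegral_mono fun τ => ?_)
    by_cases hr : ρ (l, τ) = 0
    · simp only [hr, mul_zero, le_refl]
    · exact mul_le_mul' (hle l τ hW hr) le_rfl

theorem k8c_T_const_le (ρ : Lam × ℝ → ℝ≥0∞) (g : Lam → ℝ≥0∞) (l : Lam) : k8cT ρ (fun x => g x.1) l ≤ g l := by
  unfold k8cT
  by_cases hg : g l = ⊤
  · rw [hg]
    exact le_top
  · rw [lintegral_const_mul' _ _ hg, ← mul_assoc, mul_comm _ (g l), mul_assoc]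
    calc g l * ((k8cBar ρ l)⁻¹ * ∫⁻ τ, ρ (l, τ)) ≤ g l * 1 := mul_le_mul' le_rfl (ENNReal.inv_mul_le_one _)
      _ = g l := mul_one _

theorem k8c_mu_le_one (ok : K8cOk ν ρ σ) (A : Set (Lam × ℝ)) : k8cMu ν ρ A ≤ 1 := by
  rw [← ok.prob]
  exact measure_mono (Set.subset_univ _)

theorem k8c_bar_mul_T (hρ : Measurable ρ) (hbar : ∀ l, k8cBar ρ l ≠ ⊤) (h : Lam × ℝ → ℝ≥0∞) (l : Lam) :
    k8cBar ρ l * k8cT ρ h l = ∫⁻ τ, h (l, τ) * ρ (l, τ) := by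
  unfold k8cT
  by_cases h0 : k8cBar ρ l = 0
  · rw [h0, zero_mul]
    have hm : Measurable fun t : ℝ => ρ (l, t) := hρ.comp measurable_prodMk_left
    have hae : (fun t : ℝ => ρ (l, t)) =ᵐ[volume] 0 := (lintegral_eq_zero_iff hm).1 h0
    symm
    rw [lintegral_congr_ae (g := fun _ => 0) (hae.mono fun t ht => by
      simp only [Pi.zero_apply] at ht
      simp only [ht, mul_zero])]
    exact lintegral_zero
  · rw [← mul_assoc, ENNReal.mul_inv_cancel h0 (hbar l), one_mul]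

/-- `μ_s⁻¹ μ_s I_s = I_s` -/
theorem k8c_K_mul_state (ok : K8cOk ν ρ σ) (h : Lam × ℝ → ℝ≥0∞) (s : S) :
    k8cK ν ρ σ h s * k8cMu ν ρ (σ ⁻¹' {s}) = ∫⁻ l, k8cW ρ σ s l * k8cT ρ h l ∂ν := by
  have := ok.sf
  unfold k8cK
  by_cases h0 : k8cMu ν ρ (σ ⁻¹' {s}) = 0
  · rw [h0, mul_zero]
    rw [k8c_mu_state ok.rho ok.lab s] at h0
    have hae : k8cW ρ σ s =ᵐ[ν] 0 := (lintegral_eq_zero_iff (k8c_W_meas ok.rho ok.lab s)).1 h0
    symm
    rw [lintegral_congr_ae (g := fun _ => 0) (hae.mono fun l hl => by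
      simp only [Pi.zero_apply] at hl
      simp only [hl, zero_mul])]
    exact lintegral_zero
  · have htop : k8cMu ν ρ (σ ⁻¹' {s}) ≠ ⊤ := ne_top_of_le_ne_top ENNReal.one_ne_top (k8c_mu_le_one ok _)
    rw [mul_comm, ← mul_assoc, ENNReal.mul_inv_cancel h0 htop, one_mul]

/-- **stationarity of one traversal**, with a weight which is both a function of the state and of the trajectory -/
theorem k8c_Q_stat [Fintype S] (ok : K8cOk ν ρ σ) (a : S → ℝ≥0∞) (b : Lam → ℝ≥0∞) (hb : Measurable b) (hab : ∀ x, a (σ x) = b x.1)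
    (h : Lam × ℝ → ℝ≥0∞) (hh : Measurable h) :
    ∫⁻ x, a (σ x) * k8cQ ν ρ σ h x ∂(k8cMu ν ρ) = ∫⁻ x, a (σ x) * h x ∂(k8cMu ν ρ) := by
  have := ok.sf
  have hT := k8c_T_meas ok.rho hh
  have hW := k8c_W_meas ok.rho ok.lab
  unfold k8cQ
  rw [k8c_lintegral_label (k8cMu ν ρ) ok.lab (fun s => a s * k8cK ν ρ σ h s)]
  simp only [mul_assoc, k8c_K_mul_state ok h]
  have e1 : ∀ s, a s * ∫⁻ l, k8cW ρ σ s l * k8cT ρ h l ∂ν = ∫⁻ l, k8cW ρ σ s l * (b l * k8cT ρ h l) ∂ν := by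
    intro s
    have hm : Measurable fun l => k8cW ρ σ s l * k8cT ρ h l := (hW s).mul hT
    rw [← lintegral_const_mul _ hm]
    refine lintegral_congr fun l => ?_
    by_cases h0 : k8cW ρ σ s l = 0
    · simp only [h0, zero_mul, mul_zero]
    · obtain ⟨t, ht, -⟩ := k8c_W_ne_zero h0
      have : a s = b l := by
        rw [← ht]
        exact hab (l, t)
      rw [this]
      ring
  simp only [e1]
  have hm2 : ∀ s ∈ (Finset.univ : Finset S), Measurable fun l => k8cW ρ σ s l * (b l * k8cT ρ h l) :=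
    fun s _ => (hW s).mul (hb.mul hT)
  rw [← lintegral_finsetSum _ hm2]
  simp only [← Finset.sum_mul, k8c_W_sum ok.rho ok.lab]
  simp only [hab]
  have hm3 : Measurable fun x : Lam × ℝ => b x.1 * h x := (hb.comp measurable_fst).mul hh
  rw [k8c_mu_lintegral ok.rho _ hm3]
  refine lintegral_congr fun l => ?_
  rw [mul_left_comm, k8c_bar_mul_T ok.rho ok.bar]
  simp only [mul_assoc]
  have hm4 : Measurable fun t : ℝ => h (l, t) * ρ (l, t) := (hh.mul ok.rho).comp measurable_prodMk_left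
  rw [lintegral_const_mul _ hm4]

/-- the fresh trajectory: conditional ceiling of its velocity bin -/
theorem k8c_R_dom {ι : Type*} [Fintype ι] (ok : K8cOk ν ρ σ) (Kc : ℝ≥0∞) (c : Lam → ι) (hc : ∀ b, MeasurableSet (c ⁻¹' {b})) (π : ι → ℝ≥0∞)
    (hcond : ∀ s b, k8cMu ν ρ (σ ⁻¹' {s} ∩ (fun x : Lam × ℝ => c x.1) ⁻¹' {b}) ≤ Kc * π b * k8cMu ν ρ (σ ⁻¹' {s}))
    (φ : ι → ℝ≥0∞) (s : S) :
    (k8cMu ν ρ (σ ⁻¹' {s}))⁻¹ * ∫⁻ l, k8cW ρ σ s l * φ (c l) ∂ν ≤ Kc * ∑ b, π b * φ b := by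
  classical
  have := ok.sf
  have hW := k8c_W_meas ok.rho ok.lab s
  have e0 : ∀ l, k8cW ρ σ s l * φ (c l) = ∑ b, φ b * Set.indicator (c ⁻¹' {b}) (k8cW ρ σ s) l := by
    intro l
    rw [Finset.sum_eq_single (c l)]
    · rw [Set.indicator_of_mem (show l ∈ c ⁻¹' {c l} from rfl), mul_comm]
    · intro b _ hb
      rw [Set.indicator_of_notMem (show l ∉ c ⁻¹' {b} from fun h => hb (Eq.symm h)), mul_zero]
    · intro h
      exact absurd (Finset.mem_univ _) h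
  simp only [e0]
  rw [lintegral_finsetSum _ fun b _ => (hW.indicator (hc b)).const_mul _]
  have e1 : ∀ b, ∫⁻ l, φ b * Set.indicator (c ⁻¹' {b}) (k8cW ρ σ s) l ∂ν
      = φ b * k8cMu ν ρ (σ ⁻¹' {s} ∩ (fun x : Lam × ℝ => c x.1) ⁻¹' {b}) := by
    intro b
    rw [lintegral_const_mul _ (hW.indicator (hc b))]
    congr 1
    have hm : MeasurableSet (σ ⁻¹' {s} ∩ (fun x : Lam × ℝ => c x.1) ⁻¹' {b}) := (ok.lab s).inter (measurable_fst (hc b))
    rw [← lintegral_indicator_one hm, k8c_mu_lintegral ok.rho _ (measurable_one.indicator hm)]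
    refine lintegral_congr fun l => ?_
    by_cases hl : l ∈ c ⁻¹' {b}
    · rw [Set.indicator_of_mem hl]
      unfold k8cW
      refine lintegral_congr fun t => ?_
      by_cases hx : (l, t) ∈ σ ⁻¹' {s}
      · rw [Set.indicator_of_mem hx, Set.indicator_of_mem (show (l, t) ∈ σ ⁻¹' {s} ∩ (fun x : Lam × ℝ => c x.1) ⁻¹' {b} from ⟨hx, hl⟩)]
        simp
      · rw [Set.indicator_of_notMem hx, Set.indicator_of_notMem (fun h => hx h.1), zero_mul]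
    · rw [Set.indicator_of_notMem hl]
      have : ∀ t : ℝ, Set.indicator (σ ⁻¹' {s} ∩ (fun x : Lam × ℝ => c x.1) ⁻¹' {b}) (1 : Lam × ℝ → ℝ≥0∞) (l, t) * ρ (l, t) = 0 := by
        intro t
        rw [Set.indicator_of_notMem (fun h => hl h.2), zero_mul]
      simp only [this, lintegral_zero]
  simp only [e1]
  calc (k8cMu ν ρ (σ ⁻¹' {s}))⁻¹ * ∑ b, φ b * k8cMu ν ρ (σ ⁻¹' {s} ∩ (fun x : Lam × ℝ => c x.1) ⁻¹' {b})
      ≤ (k8cMu ν ρ (σ ⁻¹' {s}))⁻¹ * ∑ b, φ b * (Kc * π b * k8cMu ν ρ (σ ⁻¹' {s})) :=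
        mul_le_mul' le_rfl (Finset.sum_le_sum fun b _ => mul_le_mul' le_rfl (hcond s b))
    _ = ((k8cMu ν ρ (σ ⁻¹' {s}))⁻¹ * k8cMu ν ρ (σ ⁻¹' {s})) * (Kc * ∑ b, π b * φ b) := by
        rw [Finset.mul_sum, Finset.mul_sum, Finset.mul_sum]
        refine Finset.sum_congr rfl fun b _ => ?_
        ring
    _ ≤ 1 * (Kc * ∑ b, π b * φ b) := mul_le_mul' (ENNReal.inv_mul_le_one _) le_rfl
    _ = _ := one_mul _

theorem k8c_K_dom_vel {ι : Type*} [Fintype ι] (ok : K8cOk ν ρ σ) (Kc : ℝ≥0∞) (c : Lam → ι) (hc : ∀ b, MeasurableSet (c ⁻¹' {b})) (π : ι → ℝ≥0∞)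
    (hcond : ∀ s b, k8cMu ν ρ (σ ⁻¹' {s} ∩ (fun x : Lam × ℝ => c x.1) ⁻¹' {b}) ≤ Kc * π b * k8cMu ν ρ (σ ⁻¹' {s}))
    (φ : ι → ℝ≥0∞) (s : S) : k8cK ν ρ σ (fun x => φ (c x.1)) s ≤ Kc * ∑ b, π b * φ b := by
  refine le_trans ?_ (k8c_R_dom ok Kc c hc π hcond φ s)
  unfold k8cK
  exact mul_le_mul' le_rfl (lintegral_mono fun l => mul_le_mul' le_rfl (k8c_T_const_le ρ (fun l => φ (c l)) l))

/-- **the subkernel of (velocity bin, new time) on good fresh trajectories is at most `K π ⊗ dτ`** -/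
theorem k8c_K_dom {ι : Type*} [Fintype ι] (ok : K8cOk ν ρ σ) (K0 K1 Kc : ℝ≥0∞) (hK0t : K0 ≠ ⊤) (hK0 : ∀ x, ρ x ≤ K0)
    (good : Set Lam) (hgood : ∀ l ∈ good, 1 ≤ K1 * k8cBar ρ l)
    (c : Lam → ι) (hc : ∀ b, MeasurableSet (c ⁻¹' {b})) (π : ι → ℝ≥0∞)
    (hcond : ∀ s b, k8cMu ν ρ (σ ⁻¹' {s} ∩ (fun x : Lam × ℝ => c x.1) ⁻¹' {b}) ≤ Kc * π b * k8cMu ν ρ (σ ⁻¹' {s}))
    (G : ι → ℝ → ℝ≥0∞) (s : S) :
    k8cK ν ρ σ (fun x => Set.indicator good (fun _ => (1 : ℝ≥0∞)) x.1 * G (c x.1) x.2) s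
      ≤ Kc * ∑ b, π b * (K1 * K0 * ∫⁻ τ, G b τ) := by
  refine le_trans ?_ (k8c_R_dom ok Kc c hc π hcond (fun b => K1 * K0 * ∫⁻ τ, G b τ) s)
  unfold k8cK
  refine mul_le_mul' le_rfl (lintegral_mono fun l => mul_le_mul' le_rfl ?_)
  unfold k8cT
  by_cases hl : l ∈ good
  · simp only [Set.indicator_of_mem hl, one_mul]
    have h1 : (k8cBar ρ l)⁻¹ ≤ K1 := by
      have h2 := hgood l hl
      by_cases h0 : k8cBar ρ l = 0
      · rw [h0, mul_zero] at h2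
        exact absurd h2 (by simp)
      · calc (k8cBar ρ l)⁻¹ = 1 * (k8cBar ρ l)⁻¹ := (one_mul _).symm
          _ ≤ K1 * k8cBar ρ l * (k8cBar ρ l)⁻¹ := mul_le_mul' h2 le_rfl
          _ = K1 := by rw [mul_assoc, ENNReal.mul_inv_cancel h0 (ok.bar l), mul_one]
    have h3 : ∫⁻ τ, G (c l) τ * ρ (l, τ) ≤ K0 * ∫⁻ τ, G (c l) τ := by
      calc ∫⁻ τ, G (c l) τ * ρ (l, τ) ≤ ∫⁻ τ, G (c l) τ * K0 := lintegral_mono fun τ => mul_le_mul' le_rfl (hK0 _)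
        _ = (∫⁻ τ, G (c l) τ) * K0 := lintegral_mul_const' _ _ hK0t
        _ = _ := mul_comm _ _
    calc (k8cBar ρ l)⁻¹ * ∫⁻ τ, G (c l) τ * ρ (l, τ) ≤ K1 * (K0 * ∫⁻ τ, G (c l) τ) := mul_le_mul' h1 h3
      _ = _ := by rw [mul_assoc]
  · simp only [Set.indicator_of_notMem hl, zero_mul, lintegral_zero, mul_zero]
    exact zero_le

end basic

end

end Claimed.Agent.R252

end PkS8cResample

section PkS8cPathDef

/-
Row 252, unit S8c (P8.2 critical-rate improvement, 08-critical-rates.tex l.190-300), architect helper54.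
Definitions: three traversals `k8cP3`, control data `K8cCtl`, regular paths `k8cReg`.  No sorry.
-/

set_option autoImplicit false
set_option linter.unusedSectionVars false

namespace Claimed.Agent.R252

open MeasureTheory
open scoped ENNReal BigOperators

noncomputable section

variable {Lam : Type*} [MeasurableSpace Lam] {S : Type*}
variable {ν : Measure Lam} {ρ : Lam × ℝ → ℝ≥0∞} {σ : Lam × ℝ → S}

/-- three traversals from the state `s0`: expectation of `F x1 x2 x3` (`x_i` = the event after the `i`-th traversal) -/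
def k8cP3 (ν : Measure Lam) (ρ : Lam × ℝ → ℝ≥0∞) (σ : Lam × ℝ → S) (F : Lam × ℝ → Lam × ℝ → Lam × ℝ → ℝ≥0∞) (s0 : S) : ℝ≥0∞ :=
  k8cK ν ρ σ (fun x1 => k8cK ν ρ σ (fun x2 => k8cK ν ρ σ (fun x3 => F x1 x2 x3) (σ x2)) (σ x1)) s0

theorem k8c_P3_mono (F F' : Lam × ℝ → Lam × ℝ → Lam × ℝ → ℝ≥0∞) (s0 : S)
    (hle : ∀ l1 τ1 l2 τ2 l3 τ3, k8cW ρ σ s0 l1 ≠ 0 → ρ (l1, τ1) ≠ 0 → k8cW ρ σ (σ (l1, τ1)) l2 ≠ 0 → ρ (l2, τ2) ≠ 0 →
      k8cW ρ σ (σ (l2, τ2)) l3 ≠ 0 → ρ (l3, τ3) ≠ 0 → F (l1, τ1) (l2, τ2) (l3, τ3) ≤ F' (l1, τ1) (l2, τ2) (l3, τ3)) :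
    k8cP3 ν ρ σ F s0 ≤ k8cP3 ν ρ σ F' s0 := by
  unfold k8cP3
  refine k8c_K_mono ν ρ σ s0 fun l1 τ1 h1 h1' => ?_
  refine k8c_K_mono ν ρ σ _ fun l2 τ2 h2 h2' => ?_
  exact k8c_K_mono ν ρ σ _ fun l3 τ3 h3 h3' => hle l1 τ1 l2 τ2 l3 τ3 h1 h1' h2 h2' h3 h3'

/-- the ceilings used for the traversals: density ceiling `K0`, good trajectories (marginal density at least `1/K1`),
conditional ceiling `Kc π` of the velocity bin given the state -/
structure K8cCtl {ι : Type*} (ν : Measure Lam) (ρ : Lam × ℝ → ℝ≥0∞) (σ : Lam × ℝ → S) (c : Lam → ι) (π : ι → ℝ≥0∞)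
    (K0 K1 Kc : ℝ≥0∞) (good : Set Lam) : Prop where
  ok : K8cOk ν ρ σ
  K0t : K0 ≠ ⊤
  K0 : ∀ x, ρ x ≤ K0
  goodm : MeasurableSet good
  good : ∀ l ∈ good, 1 ≤ K1 * k8cBar ρ l
  cm : ∀ b, MeasurableSet (c ⁻¹' {b})
  cond : ∀ s b, k8cMu ν ρ (σ ⁻¹' {s} ∩ (fun x : Lam × ℝ => c x.1) ⁻¹' {b}) ≤ Kc * π b * k8cMu ν ρ (σ ⁻¹' {s})

/-- regular paths -/
def k8cReg {ι : Type*} (good : Set Lam) (c : Lam → ι) (cv : ι → ℝ) (κ : ℝ) : Set ((Lam × ℝ) × (Lam × ℝ) × (Lam × ℝ)) :=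
  {p | p.1.1 ∈ good ∧ p.2.1.1 ∈ good ∧ p.2.2.1 ∈ good ∧ κ ≤ |cv (c p.2.1.1) - cv (c p.1.1)| ∧
    κ ≤ |cv (c p.2.2.1) - cv (c p.2.1.1)| ∧ κ ≤ |p.2.1.2 - p.1.2|}


theorem k8c_reg_iff {ι : Type*} (good : Set Lam) (c : Lam → ι) (cv : ι → ℝ) (κ : ℝ) (x1 x2 x3 : Lam × ℝ) :
    (x1, x2, x3) ∈ k8cReg good c cv κ ↔ x1.1 ∈ good ∧ x2.1 ∈ good ∧ x3.1 ∈ good ∧ κ ≤ |cv (c x2.1) - cv (c x1.1)| ∧
      κ ≤ |cv (c x3.1) - cv (c x2.1)| ∧ κ ≤ |x2.2 - x1.2| := by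
  unfold k8cReg
  exact Iff.rfl

end

end Claimed.Agent.R252

end PkS8cPathDef

section PkS8cPathM

/-
PROVED (leaf L-252-S8c-M1, helper65).  Row 252, unit S8c (P8.2 critical-rate improvement, 08-critical-rates.tex l.190-300), architect helper54.
Measurability with parameters, additivity and the constant bound of one traversal.
-/

set_option autoImplicit false
set_option linter.unusedSectionVars false

namespace Claimed.Agent.R252

open MeasureTheory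
open scoped ENNReal BigOperators

noncomputable section

variable {Lam : Type*} [MeasurableSpace Lam] {S : Type*}
variable {ν : Measure Lam} {ρ : Lam × ℝ → ℝ≥0∞} {σ : Lam × ℝ → S}

/-- a function of a finite label and of the point -/
theorem k8c_label_meas [Fintype S] {P : Type*} [MeasurableSpace P] (τ : P → S) (hτ : ∀ s, MeasurableSet (τ ⁻¹' {s}))
    (g : S → P → ℝ≥0∞) (hg : ∀ s, Measurable (g s)) : Measurable fun p => g (τ p) p := by
  classical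
  have e : (fun p => g (τ p) p) = fun p => ∑ s, Set.indicator (τ ⁻¹' {s}) (g s) p := by
    funext p
    rw [Finset.sum_eq_single (τ p)]
    · exact (Set.indicator_of_mem (show p ∈ τ ⁻¹' {τ p} from rfl) (g (τ p))).symm
    · intro s _ hs
      exact Set.indicator_of_notMem (show p ∉ τ ⁻¹' {s} from fun h => hs (Eq.symm h)) (g s)
    · intro h
      exact absurd (Finset.mem_univ _) h
  rw [e]
  exact Finset.measurable_fun_sum _ fun s _ => (hg s).indicator (hτ s)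

theorem k8c_K_meas_param (ok : K8cOk ν ρ σ) {P : Type*} [MeasurableSpace P] (h : P → Lam × ℝ → ℝ≥0∞)
    (hh : Measurable fun q : P × (Lam × ℝ) => h q.1 q.2) (s : S) : Measurable fun p => k8cK ν ρ σ (h p) s := by
  have := ok.sf
  unfold k8cK
  refine Measurable.const_mul ?_ _
  have hin : Measurable fun q : (P × Lam) × ℝ => h q.1.1 (q.1.2, q.2) * ρ (q.1.2, q.2) :=
    (hh.comp (measurable_fst.fst.prodMk (measurable_fst.snd.prodMk measurable_snd))).mul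
      (ok.rho.comp (measurable_fst.snd.prodMk measurable_snd))
  have hT : Measurable fun q : P × Lam => k8cT ρ (h q.1) q.2 := by
    unfold k8cT
    exact ((k8c_bar_meas ok.rho).inv.comp measurable_snd).mul hin.lintegral_prod_right'
  have hF : Measurable fun q : P × Lam => k8cW ρ σ s q.2 * k8cT ρ (h q.1) q.2 :=
    ((k8c_W_meas ok.rho ok.lab s).comp measurable_snd).mul hT
  exact hF.lintegral_prod_right'

theorem k8c_K_add (ok : K8cOk ν ρ σ) (h h' : Lam × ℝ → ℝ≥0∞) (hh : Measurable h) (hh' : Measurable h') (s : S) :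
    k8cK ν ρ σ (fun x => h x + h' x) s = k8cK ν ρ σ h s + k8cK ν ρ σ h' s := by
  have := ok.sf
  have hT : ∀ l, k8cT ρ (fun x => h x + h' x) l = k8cT ρ h l + k8cT ρ h' l := by
    intro l
    unfold k8cT
    have hm : Measurable fun τ : ℝ => h (l, τ) * ρ (l, τ) := (hh.mul ok.rho).comp measurable_prodMk_left
    rw [← mul_add, ← lintegral_add_left hm]
    congr 1
    refine lintegral_congr fun τ => ?_
    rw [add_mul]
  unfold k8cK
  have hm : Measurable fun l => k8cW ρ σ s l * k8cT ρ h l := (k8c_W_meas ok.rho ok.lab s).mul (k8c_T_meas ok.rho hh)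
  rw [← mul_add, ← lintegral_add_left hm]
  congr 1
  refine lintegral_congr fun l => ?_
  rw [hT, mul_add]

theorem k8c_K_const_le (ok : K8cOk ν ρ σ) (a : ℝ≥0∞) (s : S) : k8cK ν ρ σ (fun _ => a) s ≤ a := by
  have := ok.sf
  have hT : ∀ l, k8cT ρ (fun _ => a) l ≤ a := by
    intro l
    unfold k8cT
    have hm : Measurable fun τ : ℝ => ρ (l, τ) := ok.rho.comp measurable_prodMk_left
    have e : ∫⁻ τ : ℝ, (fun _ : Lam × ℝ => a) (l, τ) * ρ (l, τ) = a * k8cBar ρ l := lintegral_const_mul a hm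
    rw [e]
    calc (k8cBar ρ l)⁻¹ * (a * k8cBar ρ l) = ((k8cBar ρ l)⁻¹ * k8cBar ρ l) * a := by ring
      _ ≤ 1 * a := mul_le_mul' (ENNReal.inv_mul_le_one _) le_rfl
      _ = a := one_mul a
  unfold k8cK
  calc (k8cMu ν ρ (σ ⁻¹' {s}))⁻¹ * ∫⁻ l, k8cW ρ σ s l * k8cT ρ (fun _ => a) l ∂ν
      ≤ (k8cMu ν ρ (σ ⁻¹' {s}))⁻¹ * ∫⁻ l, k8cW ρ σ s l * a ∂ν :=
        mul_le_mul' le_rfl (lintegral_mono fun l => mul_le_mul' le_rfl (hT l))
    _ = (k8cMu ν ρ (σ ⁻¹' {s}))⁻¹ * (k8cMu ν ρ (σ ⁻¹' {s}) * a) := by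
        rw [lintegral_mul_const a (k8c_W_meas ok.rho ok.lab s), ← k8c_mu_state ok.rho ok.lab s]
    _ = ((k8cMu ν ρ (σ ⁻¹' {s}))⁻¹ * k8cMu ν ρ (σ ⁻¹' {s})) * a := by ring
    _ ≤ 1 * a := mul_le_mul' (ENNReal.inv_mul_le_one _) le_rfl
    _ = a := one_mul a

end

end Claimed.Agent.R252

end PkS8cPathM

section PkS8cPathM2

/-
CONTRACT (leaf L-252-S8c-M2).  Row 252, unit S8c (P8.2 critical-rate improvement, 08-critical-rates.tex l.190-300), architect helper54.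
Additivity and stationarity of three traversals; measurability of the regular paths; mass of the bad trajectories.
-/

set_option autoImplicit false
set_option linter.unusedSectionVars false

namespace Claimed.Agent.R252

open MeasureTheory
open scoped ENNReal BigOperators

noncomputable section

variable {Lam : Type*} [MeasurableSpace Lam] {S : Type*}
variable {ν : Measure Lam} {ρ : Lam × ℝ → ℝ≥0∞} {σ : Lam × ℝ → S}

/-- the second level of three traversals is jointly measurable -/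
theorem k8c_P3_meas2 [Fintype S] (ok : K8cOk ν ρ σ) (F : Lam × ℝ → Lam × ℝ → Lam × ℝ → ℝ≥0∞)
    (hF : Measurable fun p : (Lam × ℝ) × (Lam × ℝ) × (Lam × ℝ) => F p.1 p.2.1 p.2.2) :
    Measurable fun q : (Lam × ℝ) × (Lam × ℝ) => k8cK ν ρ σ (fun x3 => F q.1 q.2 x3) (σ q.2) := by
  refine k8c_label_meas (fun q : (Lam × ℝ) × (Lam × ℝ) => σ q.2) (fun s => measurable_snd (ok.lab s))
    (fun s q => k8cK ν ρ σ (fun x3 => F q.1 q.2 x3) s) fun s => ?_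
  refine k8c_K_meas_param ok (fun (q : (Lam × ℝ) × (Lam × ℝ)) x3 => F q.1 q.2 x3) ?_ s
  exact hF.comp ((measurable_fst.comp measurable_fst).prodMk ((measurable_snd.comp measurable_fst).prodMk measurable_snd))

/-- the first level of three traversals is measurable -/
theorem k8c_P3_meas1 [Fintype S] (ok : K8cOk ν ρ σ) (F : Lam × ℝ → Lam × ℝ → Lam × ℝ → ℝ≥0∞)
    (hF : Measurable fun p : (Lam × ℝ) × (Lam × ℝ) × (Lam × ℝ) => F p.1 p.2.1 p.2.2) :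
    Measurable fun x1 : Lam × ℝ => k8cK ν ρ σ (fun x2 => k8cK ν ρ σ (fun x3 => F x1 x2 x3) (σ x2)) (σ x1) := by
  refine k8c_label_meas σ ok.lab (fun s x1 => k8cK ν ρ σ (fun x2 => k8cK ν ρ σ (fun x3 => F x1 x2 x3) (σ x2)) s) fun s => ?_
  exact k8c_K_meas_param ok (fun x1 x2 => k8cK ν ρ σ (fun x3 => F x1 x2 x3) (σ x2)) (k8c_P3_meas2 ok F hF) s

/-- one traversal from an event is a measurable function of the event -/
theorem k8c_Q_meas [Fintype S] (ok : K8cOk ν ρ σ) (h : Lam × ℝ → ℝ≥0∞) : Measurable (k8cQ ν ρ σ h) :=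
  k8c_label_meas σ ok.lab (fun s _ => k8cK ν ρ σ h s) fun _ => measurable_const

theorem k8c_P3_add [Fintype S] (ok : K8cOk ν ρ σ) (F F' : Lam × ℝ → Lam × ℝ → Lam × ℝ → ℝ≥0∞)
    (hF : Measurable fun p : (Lam × ℝ) × (Lam × ℝ) × (Lam × ℝ) => F p.1 p.2.1 p.2.2)
    (hF' : Measurable fun p : (Lam × ℝ) × (Lam × ℝ) × (Lam × ℝ) => F' p.1 p.2.1 p.2.2) (s0 : S) :
    k8cP3 ν ρ σ (fun x1 x2 x3 => F x1 x2 x3 + F' x1 x2 x3) s0 = k8cP3 ν ρ σ F s0 + k8cP3 ν ρ σ F' s0 := by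
  unfold k8cP3
  have h3 : ∀ x1 x2 : Lam × ℝ, k8cK ν ρ σ (fun x3 => F x1 x2 x3 + F' x1 x2 x3) (σ x2)
      = k8cK ν ρ σ (fun x3 => F x1 x2 x3) (σ x2) + k8cK ν ρ σ (fun x3 => F' x1 x2 x3) (σ x2) := fun x1 x2 =>
    k8c_K_add ok _ _ (hF.comp (measurable_const.prodMk (measurable_const.prodMk measurable_id)))
      (hF'.comp (measurable_const.prodMk (measurable_const.prodMk measurable_id))) _
  simp_rw [h3]
  have h2 : ∀ x1 : Lam × ℝ, k8cK ν ρ σ (fun x2 => k8cK ν ρ σ (fun x3 => F x1 x2 x3) (σ x2) + k8cK ν ρ σ (fun x3 => F' x1 x2 x3) (σ x2)) (σ x1)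
      = k8cK ν ρ σ (fun x2 => k8cK ν ρ σ (fun x3 => F x1 x2 x3) (σ x2)) (σ x1)
        + k8cK ν ρ σ (fun x2 => k8cK ν ρ σ (fun x3 => F' x1 x2 x3) (σ x2)) (σ x1) := fun x1 =>
    k8c_K_add ok _ _ ((k8c_P3_meas2 ok F hF).comp (measurable_const.prodMk measurable_id))
      ((k8c_P3_meas2 ok F' hF').comp (measurable_const.prodMk measurable_id)) _
  simp_rw [h2]
  exact k8c_K_add ok _ _ (k8c_P3_meas1 ok F hF) (k8c_P3_meas1 ok F' hF') s0

/-- stationarity of three traversals, with a weight which is a function of the state and of the trajectory -/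
theorem k8c_P3_stat [Fintype S] (ok : K8cOk ν ρ σ) (a : S → ℝ≥0∞) (b : Lam → ℝ≥0∞) (hb : Measurable b) (hab : ∀ x, a (σ x) = b x.1)
    (f : Lam × ℝ → ℝ≥0∞) (hf : Measurable f) :
    ∫⁻ x, a (σ x) * k8cP3 ν ρ σ (fun _ _ x3 => f x3) (σ x) ∂(k8cMu ν ρ) = ∫⁻ x, a (σ x) * f x ∂(k8cMu ν ρ) := by
  have e : ∀ x, k8cP3 ν ρ σ (fun _ _ x3 => f x3) (σ x) = k8cQ ν ρ σ (k8cQ ν ρ σ (k8cQ ν ρ σ f)) x := fun _ => rfl
  simp_rw [e]
  rw [k8c_Q_stat ok a b hb hab _ (k8c_Q_meas ok _), k8c_Q_stat ok a b hb hab _ (k8c_Q_meas ok _), k8c_Q_stat ok a b hb hab f hf]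

theorem k8c_reg_meas {ι : Type*} [Finite ι] (good : Set Lam) (hg : MeasurableSet good) (c : Lam → ι) (hc : ∀ b, MeasurableSet (c ⁻¹' {b}))
    (cv : ι → ℝ) (κ : ℝ) : MeasurableSet (k8cReg good c cv κ) := by
  have hcv : Measurable fun l : Lam => cv (c l) := by
    let _ : MeasurableSpace ι := ⊤
    have hcm : Measurable c := measurable_to_countable' hc
    exact (measurable_from_top (f := cv)).comp hcm
  have m1 : Measurable fun p : (Lam × ℝ) × (Lam × ℝ) × (Lam × ℝ) => p.1.1 := measurable_fst.comp measurable_fst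
  have m2 : Measurable fun p : (Lam × ℝ) × (Lam × ℝ) × (Lam × ℝ) => p.2.1.1 := measurable_fst.comp (measurable_fst.comp measurable_snd)
  have m3 : Measurable fun p : (Lam × ℝ) × (Lam × ℝ) × (Lam × ℝ) => p.2.2.1 := measurable_fst.comp (measurable_snd.comp measurable_snd)
  have t1 : Measurable fun p : (Lam × ℝ) × (Lam × ℝ) × (Lam × ℝ) => p.1.2 := measurable_snd.comp measurable_fst
  have t2 : Measurable fun p : (Lam × ℝ) × (Lam × ℝ) × (Lam × ℝ) => p.2.1.2 := measurable_snd.comp (measurable_fst.comp measurable_snd)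
  unfold k8cReg
  exact (m1 hg).inter ((m2 hg).inter ((m3 hg).inter ((measurableSet_le measurable_const ((hcv.comp m2).sub (hcv.comp m1)).abs).inter
    ((measurableSet_le measurable_const ((hcv.comp m3).sub (hcv.comp m2)).abs).inter (measurableSet_le measurable_const (t2.sub t1).abs)))))

/-- bad trajectories carry little mass -/
theorem k8c_bad_mass (ok : K8cOk ν ρ σ) (K1 : ℝ≥0∞) :
    k8cMu ν ρ {x | ¬ (1 ≤ K1 * k8cBar ρ x.1)} ≤ K1⁻¹ * ν Set.univ := by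
  have := ok.sf
  have hB : Measurable (k8cBar ρ) := k8c_bar_meas ok.rho
  have hbad : MeasurableSet {l : Lam | ¬ (1 ≤ K1 * k8cBar ρ l)} := (measurableSet_le measurable_const (hB.const_mul K1)).compl
  have hA : MeasurableSet {x : Lam × ℝ | ¬ (1 ≤ K1 * k8cBar ρ x.1)} := measurable_fst hbad
  rw [← lintegral_indicator_one hA, k8c_mu_lintegral ok.rho _ (measurable_one.indicator hA)]
  calc ∫⁻ l, (∫⁻ t, Set.indicator {x : Lam × ℝ | ¬ (1 ≤ K1 * k8cBar ρ x.1)} 1 (l, t) * ρ (l, t)) ∂ν ≤ ∫⁻ _l, K1⁻¹ ∂ν := by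
        refine lintegral_mono fun l => ?_
        by_cases hl : 1 ≤ K1 * k8cBar ρ l
        · have e : ∀ t : ℝ, Set.indicator {x : Lam × ℝ | ¬ (1 ≤ K1 * k8cBar ρ x.1)} (1 : Lam × ℝ → ℝ≥0∞) (l, t) * ρ (l, t) = 0 := by
            intro t
            rw [Set.indicator_of_notMem (by simpa using hl), zero_mul]
          simp only [e, lintegral_zero, zero_le]
        · have e : ∀ t : ℝ, Set.indicator {x : Lam × ℝ | ¬ (1 ≤ K1 * k8cBar ρ x.1)} (1 : Lam × ℝ → ℝ≥0∞) (l, t) * ρ (l, t) = ρ (l, t) := by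
            intro t
            rw [Set.indicator_of_mem (by simpa using hl), Pi.one_apply, one_mul]
          simp only [e]
          show k8cBar ρ l ≤ K1⁻¹
          rw [ENNReal.le_inv_iff_mul_le, mul_comm]
          exact (not_le.1 hl).le
    _ = K1⁻¹ * ν Set.univ := lintegral_const _

end

end Claimed.Agent.R252

end PkS8cPathM2

section PkS8cFail

/-
CONTRACT (leaf L-252-S8c-FAIL).  Row 252, unit S8c (P8.2 critical-rate improvement, 08-critical-rates.tex l.190-300), architect helper54.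
Failure probability of the regular paths.
Sketch: the indicator of the complement is at most
 1[l1 bad] + 1[l2 bad] + 1[l3 bad] + 1[|cv c2 - cv c1| < κ] + 1[|cv c3 - cv c2| < κ] + 1[l2 good] 1[|τ2 - τ1| < κ].
Use `k8c_P3_mono`, `k8c_P3_add`.  Terms 1-3: drop the later traversals by `k8c_K_const_le` + `k8c_K_mono`, then integrate by
`k8c_Q_stat` (weight 1) : each gives the mass of the bad trajectories.  Terms 4, 5: `k8c_K_dom_vel` + `hint`, then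
`k8c_K_const_le`.  Term 6: `k8c_K_dom` with `G b τ = 1[|τ - τ1| < κ]` (volume `ofReal (2 κ)`) + `hπ`.
The law is a probability (`ok.prob`).
-/

set_option autoImplicit false
set_option linter.unusedSectionVars false

namespace Claimed.Agent.R252

open MeasureTheory
open scoped ENNReal BigOperators

noncomputable section

variable {Lam : Type*} [MeasurableSpace Lam] {S : Type*}
variable {ν : Measure Lam} {ρ : Lam × ℝ → ℝ≥0∞} {σ : Lam × ℝ → S}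

theorem k8c_K_le_const (ok : K8cOk ν ρ σ) (h : Lam × ℝ → ℝ≥0∞) (a : ℝ≥0∞) (hle : ∀ x, h x ≤ a) (s : S) : k8cK ν ρ σ h s ≤ a :=
  (k8c_K_mono ν ρ σ s fun l τ _ _ => hle (l, τ)).trans (k8c_K_const_le ok a s)

theorem k8c_K_mono_all (h h' : Lam × ℝ → ℝ≥0∞) (hle : ∀ x, h x ≤ h' x) (s : S) : k8cK ν ρ σ h s ≤ k8cK ν ρ σ h' s :=
  k8c_K_mono ν ρ σ s fun l τ _ _ => hle (l, τ)

theorem k8c_P3_add6 [Fintype S] (ok : K8cOk ν ρ σ) (F1 F2 F3 F4 F5 F6 : Lam × ℝ → Lam × ℝ → Lam × ℝ → ℝ≥0∞)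
    (h1 : Measurable fun p : (Lam × ℝ) × (Lam × ℝ) × (Lam × ℝ) => F1 p.1 p.2.1 p.2.2)
    (h2 : Measurable fun p : (Lam × ℝ) × (Lam × ℝ) × (Lam × ℝ) => F2 p.1 p.2.1 p.2.2)
    (h3 : Measurable fun p : (Lam × ℝ) × (Lam × ℝ) × (Lam × ℝ) => F3 p.1 p.2.1 p.2.2)
    (h4 : Measurable fun p : (Lam × ℝ) × (Lam × ℝ) × (Lam × ℝ) => F4 p.1 p.2.1 p.2.2)
    (h5 : Measurable fun p : (Lam × ℝ) × (Lam × ℝ) × (Lam × ℝ) => F5 p.1 p.2.1 p.2.2)
    (h6 : Measurable fun p : (Lam × ℝ) × (Lam × ℝ) × (Lam × ℝ) => F6 p.1 p.2.1 p.2.2) (s0 : S) :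
    k8cP3 ν ρ σ (fun x1 x2 x3 => F1 x1 x2 x3 + F2 x1 x2 x3 + F3 x1 x2 x3 + F4 x1 x2 x3 + F5 x1 x2 x3 + F6 x1 x2 x3) s0
      = k8cP3 ν ρ σ F1 s0 + k8cP3 ν ρ σ F2 s0 + k8cP3 ν ρ σ F3 s0 + k8cP3 ν ρ σ F4 s0 + k8cP3 ν ρ σ F5 s0 + k8cP3 ν ρ σ F6 s0 := by
  rw [k8c_P3_add ok (fun x1 x2 x3 => F1 x1 x2 x3 + F2 x1 x2 x3 + F3 x1 x2 x3 + F4 x1 x2 x3 + F5 x1 x2 x3) F6 ((((h1.add h2).add h3).add h4).add h5) h6,
    k8c_P3_add ok (fun x1 x2 x3 => F1 x1 x2 x3 + F2 x1 x2 x3 + F3 x1 x2 x3 + F4 x1 x2 x3) F5 (((h1.add h2).add h3).add h4) h5,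
    k8c_P3_add ok (fun x1 x2 x3 => F1 x1 x2 x3 + F2 x1 x2 x3 + F3 x1 x2 x3) F4 ((h1.add h2).add h3) h4,
    k8c_P3_add ok (fun x1 x2 x3 => F1 x1 x2 x3 + F2 x1 x2 x3) F3 (h1.add h2) h3, k8c_P3_add ok F1 F2 h1 h2]

/-- **failure probability** -/
theorem k8c_fail [Fintype S] {ι : Type*} [Fintype ι] {c : Lam → ι} {π : ι → ℝ≥0∞} {K0 K1 Kc : ℝ≥0∞} {good : Set Lam}
    (H : K8cCtl ν ρ σ c π K0 K1 Kc good) (cv : ι → ℝ) (κ : ℝ) (Kπ ηπ : ℝ≥0∞) (hπ : ∑ b, π b ≤ Kπ)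
    (hint : ∀ b, ∑ b', Set.indicator {b' | |cv b' - cv b| < κ} π b' ≤ ηπ) :
    ∫⁻ x, k8cP3 ν ρ σ (fun x1 x2 x3 => Set.indicator (k8cReg good c cv κ)ᶜ (fun _ => (1 : ℝ≥0∞)) (x1, x2, x3)) (σ x) ∂(k8cMu ν ρ)
      ≤ 3 * k8cMu ν ρ {x | x.1 ∉ good} + 2 * (Kc * ηπ) + Kc * (Kπ * (K1 * K0 * ENNReal.ofReal (2 * κ))) := by
  have ok := H.ok
  have hsf := ok.sf
  obtain ⟨bd, hbd⟩ : ∃ bd : Lam × ℝ → ℝ≥0∞, bd = Set.indicator {x : Lam × ℝ | x.1 ∉ good} (fun _ => 1) := ⟨_, rfl⟩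
  obtain ⟨vv, hvv⟩ : ∃ vv : Lam × ℝ → Lam × ℝ → ℝ≥0∞,
      vv = fun x y => Set.indicator {b' : ι | |cv b' - cv (c x.1)| < κ} (fun _ => 1) (c y.1) := ⟨_, rfl⟩
  obtain ⟨tt, htt⟩ : ∃ tt : Lam × ℝ → Lam × ℝ → ℝ≥0∞,
      tt = fun x y => Set.indicator good (fun _ => (1 : ℝ≥0∞)) y.1 * Set.indicator {τ : ℝ | |τ - x.2| < κ} (fun _ => 1) y.2 := ⟨_, rfl⟩
  have hbadm : MeasurableSet {x : Lam × ℝ | x.1 ∉ good} := measurable_fst H.goodm.compl
  have hbdm : Measurable bd := by rw [hbd]; exact measurable_const.indicator hbadm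
  have hcv : Measurable fun l : Lam => cv (c l) := by
    let _ : MeasurableSpace ι := ⊤
    have hcm : Measurable c := measurable_to_countable' H.cm
    exact (measurable_from_top (f := cv)).comp hcm
  have hvvm : Measurable fun q : (Lam × ℝ) × (Lam × ℝ) => vv q.1 q.2 := by
    have hE : MeasurableSet {q : (Lam × ℝ) × (Lam × ℝ) | |cv (c q.2.1) - cv (c q.1.1)| < κ} :=
      measurableSet_lt ((hcv.comp (measurable_fst.comp measurable_snd)).sub (hcv.comp (measurable_fst.comp measurable_fst))).abs measurable_const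
    have e : (fun q : (Lam × ℝ) × (Lam × ℝ) => vv q.1 q.2)
        = Set.indicator {q : (Lam × ℝ) × (Lam × ℝ) | |cv (c q.2.1) - cv (c q.1.1)| < κ} (fun _ => 1) := by
      rw [hvv]
      funext q
      simp only [Set.indicator_apply]
      rfl
    rw [e]
    exact measurable_const.indicator hE
  have httm : Measurable fun q : (Lam × ℝ) × (Lam × ℝ) => tt q.1 q.2 := by
    have hE : MeasurableSet {q : (Lam × ℝ) × (Lam × ℝ) | |q.2.2 - q.1.2| < κ} :=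
      measurableSet_lt ((measurable_snd.comp measurable_snd).sub (measurable_snd.comp measurable_fst)).abs measurable_const
    have e : (fun q : (Lam × ℝ) × (Lam × ℝ) => Set.indicator {τ : ℝ | |τ - q.1.2| < κ} (fun _ => (1 : ℝ≥0∞)) q.2.2)
        = Set.indicator {q : (Lam × ℝ) × (Lam × ℝ) | |q.2.2 - q.1.2| < κ} (fun _ => 1) := by
      funext q
      simp only [Set.indicator_apply]
      rfl
    have h1 : Measurable fun q : (Lam × ℝ) × (Lam × ℝ) => Set.indicator {τ : ℝ | |τ - q.1.2| < κ} (fun _ => (1 : ℝ≥0∞)) q.2.2 := by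
      rw [e]
      exact measurable_const.indicator hE
    have h2 : Measurable fun q : (Lam × ℝ) × (Lam × ℝ) => Set.indicator good (fun _ => (1 : ℝ≥0∞)) q.2.1 :=
      (measurable_const.indicator H.goodm).comp (measurable_fst.comp measurable_snd)
    rw [htt]
    exact h2.mul h1
  -- the union bound, pointwise
  have hpt : ∀ x1 x2 x3 : Lam × ℝ, Set.indicator (k8cReg good c cv κ)ᶜ (fun _ => (1 : ℝ≥0∞)) (x1, x2, x3)
      ≤ bd x1 + bd x2 + bd x3 + vv x1 x2 + vv x2 x3 + tt x1 x2 := by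
    intro x1 x2 x3
    have hle1 : Set.indicator (k8cReg good c cv κ)ᶜ (fun _ => (1 : ℝ≥0∞)) (x1, x2, x3) ≤ 1 :=
      Set.indicator_apply_le' (fun _ => le_rfl) (fun _ => zero_le)
    have hbd1 : ∀ x : Lam × ℝ, x.1 ∉ good → bd x = 1 := fun x hx => by rw [hbd]; exact Set.indicator_of_mem hx _
    have hvv1 : ∀ x y : Lam × ℝ, ¬ κ ≤ |cv (c y.1) - cv (c x.1)| → vv x y = 1 := fun x y hxy => by
      rw [hvv]
      show Set.indicator {b' : ι | |cv b' - cv (c x.1)| < κ} (fun _ => (1 : ℝ≥0∞)) (c y.1) = 1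
      exact Set.indicator_of_mem (show c y.1 ∈ {b' : ι | |cv b' - cv (c x.1)| < κ} from not_le.1 hxy) _
    by_cases h1 : x1.1 ∈ good
    swap
    · exact hle1.trans ((hbd1 x1 h1).symm.le.trans (le_add_right (le_add_right (le_add_right (le_add_right (le_add_right le_rfl))))))
    by_cases h2 : x2.1 ∈ good
    swap
    · exact hle1.trans ((hbd1 x2 h2).symm.le.trans (le_add_right (le_add_right (le_add_right (le_add_right (le_add_left le_rfl))))))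
    by_cases h3 : x3.1 ∈ good
    swap
    · exact hle1.trans ((hbd1 x3 h3).symm.le.trans (le_add_right (le_add_right (le_add_right (le_add_left le_rfl)))))
    by_cases h4 : κ ≤ |cv (c x2.1) - cv (c x1.1)|
    swap
    · exact hle1.trans ((hvv1 x1 x2 h4).symm.le.trans (le_add_right (le_add_right (le_add_left le_rfl))))
    by_cases h5 : κ ≤ |cv (c x3.1) - cv (c x2.1)|
    swap
    · exact hle1.trans ((hvv1 x2 x3 h5).symm.le.trans (le_add_right (le_add_left le_rfl)))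
    by_cases h6 : κ ≤ |x2.2 - x1.2|
    swap
    · have htt1 : tt x1 x2 = 1 := by
        rw [htt]
        show Set.indicator good (fun _ => (1 : ℝ≥0∞)) x2.1 * Set.indicator {τ : ℝ | |τ - x1.2| < κ} (fun _ => 1) x2.2 = 1
        rw [Set.indicator_of_mem h2, Set.indicator_of_mem (show x2.2 ∈ {τ : ℝ | |τ - x1.2| < κ} from not_le.1 h6), one_mul]
      exact hle1.trans (htt1.symm.le.trans (le_add_left le_rfl))
    · have hmem : (x1, x2, x3) ∈ k8cReg good c cv κ := (k8c_reg_iff good c cv κ x1 x2 x3).2 ⟨h1, h2, h3, h4, h5, h6⟩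
      rw [Set.indicator_of_notMem (show (x1, x2, x3) ∉ (k8cReg good c cv κ)ᶜ from fun hc => hc hmem)]
      exact zero_le
  have m1 : Measurable fun p : (Lam × ℝ) × (Lam × ℝ) × (Lam × ℝ) => p.1 := measurable_fst
  have m2 : Measurable fun p : (Lam × ℝ) × (Lam × ℝ) × (Lam × ℝ) => p.2.1 := measurable_fst.comp measurable_snd
  have m3 : Measurable fun p : (Lam × ℝ) × (Lam × ℝ) × (Lam × ℝ) => p.2.2 := measurable_snd.comp measurable_snd
  have hP : ∀ s0 : S, k8cP3 ν ρ σ (fun x1 x2 x3 => Set.indicator (k8cReg good c cv κ)ᶜ (fun _ => (1 : ℝ≥0∞)) (x1, x2, x3)) s0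
      ≤ k8cP3 ν ρ σ (fun x1 _ _ => bd x1) s0 + k8cP3 ν ρ σ (fun _ x2 _ => bd x2) s0 + k8cP3 ν ρ σ (fun _ _ x3 => bd x3) s0
        + k8cP3 ν ρ σ (fun x1 x2 _ => vv x1 x2) s0 + k8cP3 ν ρ σ (fun _ x2 x3 => vv x2 x3) s0 + k8cP3 ν ρ σ (fun x1 x2 _ => tt x1 x2) s0 := by
    intro s0
    rw [← k8c_P3_add6 ok (fun x1 _ _ => bd x1) (fun _ x2 _ => bd x2) (fun _ _ x3 => bd x3) (fun x1 x2 _ => vv x1 x2) (fun _ x2 x3 => vv x2 x3)
      (fun x1 x2 _ => tt x1 x2) (hbdm.comp m1) (hbdm.comp m2) (hbdm.comp m3) (hvvm.comp (m1.prodMk m2)) (hvvm.comp (m2.prodMk m3))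
      (httm.comp (m1.prodMk m2)) s0]
    exact k8c_P3_mono _ _ s0 fun l1 τ1 l2 τ2 l3 τ3 _ _ _ _ _ _ => hpt _ _ _
  -- the six terms
  have T1 : ∀ s0 : S, k8cP3 ν ρ σ (fun x1 _ _ => bd x1) s0 ≤ k8cK ν ρ σ bd s0 := by
    intro s0
    unfold k8cP3
    exact k8c_K_mono_all _ _ (fun x1 => k8c_K_le_const ok _ _ (fun x2 => k8c_K_const_le ok _ _) _) s0
  have T2 : ∀ s0 : S, k8cP3 ν ρ σ (fun _ x2 _ => bd x2) s0 ≤ k8cK ν ρ σ (k8cQ ν ρ σ bd) s0 := by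
    intro s0
    unfold k8cP3
    exact k8c_K_mono_all _ _ (fun x1 => k8c_K_mono_all _ _ (fun x2 => k8c_K_const_le ok _ _) _) s0
  have hvel : ∀ (x : Lam × ℝ) (s : S), k8cK ν ρ σ (fun y => vv x y) s ≤ Kc * ηπ := by
    intro x s
    rw [hvv]
    refine (k8c_K_dom_vel ok Kc c H.cm π H.cond (Set.indicator {b' : ι | |cv b' - cv (c x.1)| < κ} (fun _ => 1)) s).trans ?_
    refine mul_le_mul' le_rfl (le_trans (le_of_eq ?_) (hint (c x.1)))
    refine Finset.sum_congr rfl fun b _ => ?_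
    by_cases hb : b ∈ {b' : ι | |cv b' - cv (c x.1)| < κ}
    · rw [Set.indicator_of_mem hb, Set.indicator_of_mem hb, mul_one]
    · rw [Set.indicator_of_notMem hb, Set.indicator_of_notMem hb, mul_zero]
  have T4 : ∀ s0 : S, k8cP3 ν ρ σ (fun x1 x2 _ => vv x1 x2) s0 ≤ Kc * ηπ := by
    intro s0
    unfold k8cP3
    refine k8c_K_le_const ok _ _ (fun x1 => ?_) s0
    exact (k8c_K_mono_all _ _ (fun x2 => k8c_K_const_le ok _ _) _).trans (hvel x1 _)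
  have T5 : ∀ s0 : S, k8cP3 ν ρ σ (fun _ x2 x3 => vv x2 x3) s0 ≤ Kc * ηπ := by
    intro s0
    unfold k8cP3
    exact k8c_K_le_const ok _ _ (fun x1 => k8c_K_le_const ok _ _ (fun x2 => hvel x2 _) _) s0
  have T6 : ∀ s0 : S, k8cP3 ν ρ σ (fun x1 x2 _ => tt x1 x2) s0 ≤ Kc * (Kπ * (K1 * K0 * ENNReal.ofReal (2 * κ))) := by
    intro s0
    unfold k8cP3
    refine k8c_K_le_const ok _ _ (fun x1 => ?_) s0
    refine (k8c_K_mono_all _ _ (fun x2 => k8c_K_const_le ok _ _) _).trans ?_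
    rw [htt]
    refine (k8c_K_dom ok K0 K1 Kc H.K0t H.K0 good H.good c H.cm π H.cond
      (fun _ τ => Set.indicator {τ : ℝ | |τ - x1.2| < κ} (fun _ => 1) τ) (σ x1)).trans ?_
    have hball : {τ : ℝ | |τ - x1.2| < κ} = Metric.ball x1.2 κ := by
      ext τ
      rw [Metric.mem_ball, Real.dist_eq]
      rfl
    have hvol : ∫⁻ τ, Set.indicator {τ : ℝ | |τ - x1.2| < κ} (fun _ => (1 : ℝ≥0∞)) τ = ENNReal.ofReal (2 * κ) := by
      rw [hball, lintegral_indicator_const Metric.isOpen_ball.measurableSet, one_mul, Real.volume_ball]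
    simp only [hvol]
    rw [← Finset.sum_mul]
    exact mul_le_mul' le_rfl (mul_le_mul' hπ le_rfl)
  -- integration
  have hQ : ∀ h : Lam × ℝ → ℝ≥0∞, Measurable h → ∫⁻ x, k8cQ ν ρ σ h x ∂(k8cMu ν ρ) = ∫⁻ x, h x ∂(k8cMu ν ρ) := by
    intro h hh
    have := k8c_Q_stat ok (fun _ => 1) (fun _ => 1) measurable_const (fun _ => rfl) h hh
    simpa only [one_mul] using this
  have hP3 : ∫⁻ x, k8cP3 ν ρ σ (fun _ _ x3 => bd x3) (σ x) ∂(k8cMu ν ρ) = ∫⁻ x, bd x ∂(k8cMu ν ρ) := by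
    have := k8c_P3_stat ok (fun _ => 1) (fun _ => 1) measurable_const (fun _ => rfl) bd hbdm
    simpa only [one_mul] using this
  have hbdint : ∫⁻ x, bd x ∂(k8cMu ν ρ) = k8cMu ν ρ {x | x.1 ∉ good} := by
    rw [hbd, lintegral_indicator_const hbadm, one_mul]
  have hA : Measurable (k8cQ ν ρ σ bd) := k8c_Q_meas ok bd
  have hB : Measurable (k8cQ ν ρ σ (k8cQ ν ρ σ bd)) := k8c_Q_meas ok _
  have hAB : Measurable fun a => k8cQ ν ρ σ bd a + k8cQ ν ρ σ (k8cQ ν ρ σ bd) a := hA.add hB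
  calc ∫⁻ x, k8cP3 ν ρ σ (fun x1 x2 x3 => Set.indicator (k8cReg good c cv κ)ᶜ (fun _ => (1 : ℝ≥0∞)) (x1, x2, x3)) (σ x) ∂(k8cMu ν ρ)
      ≤ ∫⁻ x, (k8cQ ν ρ σ bd x + k8cQ ν ρ σ (k8cQ ν ρ σ bd) x + k8cP3 ν ρ σ (fun _ _ x3 => bd x3) (σ x)
          + (Kc * ηπ + Kc * ηπ + Kc * (Kπ * (K1 * K0 * ENNReal.ofReal (2 * κ))))) ∂(k8cMu ν ρ) := by
        refine lintegral_mono fun x => (hP (σ x)).trans ?_
        have a1 := T1 (σ x)
        have a2 := T2 (σ x)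
        have a4 := T4 (σ x)
        have a5 := T5 (σ x)
        have a6 := T6 (σ x)
        calc _ ≤ k8cK ν ρ σ bd (σ x) + k8cK ν ρ σ (k8cQ ν ρ σ bd) (σ x) + k8cP3 ν ρ σ (fun _ _ x3 => bd x3) (σ x) + Kc * ηπ + Kc * ηπ
              + Kc * (Kπ * (K1 * K0 * ENNReal.ofReal (2 * κ))) :=
              add_le_add (add_le_add (add_le_add (add_le_add (add_le_add a1 a2) le_rfl) a4) a5) a6
          _ = _ := by unfold k8cQ; ring
    _ = k8cMu ν ρ {x | x.1 ∉ good} + k8cMu ν ρ {x | x.1 ∉ good} + k8cMu ν ρ {x | x.1 ∉ good}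
          + (Kc * ηπ + Kc * ηπ + Kc * (Kπ * (K1 * K0 * ENNReal.ofReal (2 * κ)))) := by
        rw [lintegral_add_right _ measurable_const, lintegral_add_left hAB, lintegral_add_left hA, hQ _ hbdm, hQ _ hA, hQ _ hbdm, hP3,
          hbdint, lintegral_const, ok.prob, mul_one]
    _ = _ := by ring

end

end Claimed.Agent.R252

end PkS8cFail

section PkS8cCap

/-
PROVED (leaf L-252-S8c-CAP, helper166).  Row 252, unit S8c (P8.2 critical-rate improvement, 08-critical-rates.tex l.190-300), architect helper54.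
Cell cap (a07:critical-cell-cap).
Sketch: (1) by `k8c_P3_mono` and `hsim`, `k8c_step3` replace the integrand by
 1[l1 good] 1[l2 good] 1[l3 good] G (c l1) (c l2) (c l3) τ1 τ2 τ3, where G b1 b2 b3 is 0 unless κ ≤ |cv b2 - cv b1| and
 κ ≤ |cv b3 - cv b2| and else the indicator of `k8cSet (bs s0) (cv b1) (cv b2) (cv b3) κ ω' ctr.1 ctr.2.1 ctr.2.2`.
(2) backward induction: three times `k8c_K_dom` (+ `k8c_K_mono`), each time a factor Kc, a sum over π and K1 K0 ∫ dτ.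
(3) pull the finite sums and constants out (`lintegral_finsetSum`, `lintegral_const_mul`, measurability from `k8c_set_meas`),
 apply `k8c_triple_lintegral`, and `hπ` three times.
-/

set_option autoImplicit false
set_option linter.unusedSectionVars false

namespace Claimed.Agent.R252

open MeasureTheory
open scoped ENNReal BigOperators

noncomputable section

variable {Lam : Type*} [MeasurableSpace Lam] {S : Type*}
variable {ν : Measure Lam} {ρ : Lam × ℝ → ℝ≥0∞} {σ : Lam × ℝ → S}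

/-- helper of `k8c_cap`: the ceiling operator commutes with integrals -/
theorem k8c_cap_op_lintegral {ι : Type*} [Fintype ι] {α : Type*} [MeasurableSpace α] (μ : Measure α) (Kc KK : ℝ≥0∞) (π : ι → ℝ≥0∞)
    (g : ι → α → ℝ≥0∞) (hg : ∀ b, Measurable (g b)) :
    ∫⁻ t, Kc * ∑ b, π b * (KK * g b t) ∂μ = Kc * ∑ b, π b * (KK * ∫⁻ t, g b t ∂μ) := by
  have h1 : ∀ b, Measurable fun t => π b * (KK * g b t) := fun b => ((hg b).const_mul _).const_mul _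
  rw [lintegral_const_mul _ (Finset.measurable_sum _ fun b _ => h1 b), lintegral_finsetSum _ fun b _ => h1 b]
  congr 1
  refine Finset.sum_congr rfl fun b _ => ?_
  rw [lintegral_const_mul _ ((hg b).const_mul _), lintegral_const_mul _ (hg b)]

/-- helper of `k8c_cap`: measurability of the ceiling operator -/
theorem k8c_cap_op_meas {ι : Type*} [Fintype ι] {α : Type*} [MeasurableSpace α] (Kc KK : ℝ≥0∞) (π : ι → ℝ≥0∞)
    (g : ι → α → ℝ≥0∞) (hg : ∀ b, Measurable (g b)) : Measurable fun t => Kc * ∑ b, π b * (KK * g b t) :=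
  (Finset.measurable_sum _ fun b _ => ((hg b).const_mul _).const_mul _).const_mul _

/-- helper of `k8c_cap`: the ceiling operator on bounded functions -/
theorem k8c_cap_op_le {ι : Type*} [Fintype ι] (Kc KK Kπ V : ℝ≥0∞) (π : ι → ℝ≥0∞) (hπ : ∑ b, π b ≤ Kπ) (φ : ι → ℝ≥0∞) (hφ : ∀ b, φ b ≤ V) :
    Kc * ∑ b, π b * (KK * φ b) ≤ Kc * KK * Kπ * V := by
  calc Kc * ∑ b, π b * (KK * φ b) ≤ Kc * ∑ b, π b * (KK * V) :=
        mul_le_mul' le_rfl (Finset.sum_le_sum fun b _ => mul_le_mul' le_rfl (mul_le_mul' le_rfl (hφ b)))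
    _ = Kc * ((∑ b, π b) * (KK * V)) := by rw [Finset.sum_mul]
    _ ≤ Kc * (Kπ * (KK * V)) := mul_le_mul' le_rfl (mul_le_mul' hπ le_rfl)
    _ = Kc * KK * Kπ * V := by ring

/-- helper of `k8c_cap`: `k8c_K_dom` with a finite constant factor -/
theorem k8c_cap_dom {ι : Type*} [Fintype ι] {c : Lam → ι} {π : ι → ℝ≥0∞} {K0 K1 Kc : ℝ≥0∞} {good : Set Lam}
    (H : K8cCtl ν ρ σ c π K0 K1 Kc good) (a : ℝ≥0∞) (ha : a ≠ ⊤) (G : ι → ℝ → ℝ≥0∞) (s : S) :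
    k8cK ν ρ σ (fun x => Set.indicator good (fun _ => (1 : ℝ≥0∞)) x.1 * (a * G (c x.1) x.2)) s
      ≤ a * (Kc * ∑ b, π b * (K1 * K0 * ∫⁻ τ, G b τ)) := by
  have h := k8c_K_dom H.ok K0 K1 Kc H.K0t H.K0 good H.good c H.cm π H.cond (fun b τ => a * G b τ) s
  refine h.trans (le_of_eq ?_)
  simp only [lintegral_const_mul' a _ ha]
  rw [Finset.mul_sum, Finset.mul_sum, Finset.mul_sum]
  refine Finset.sum_congr rfl fun b _ => ?_
  ring

/-- helper of `k8c_cap`: an indicator of the constant `1` is finite -/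
theorem k8c_cap_ind_ne_top {α : Type*} (A : Set α) (x : α) : Set.indicator A (fun _ => (1 : ℝ≥0∞)) x ≠ ⊤ := by
  by_cases h : x ∈ A
  · rw [Set.indicator_of_mem h]
    exact ENNReal.one_ne_top
  · rw [Set.indicator_of_notMem h]
    exact ENNReal.zero_ne_top

open Classical in
/-- helper of `k8c_cap`: the integrand in the coordinates (velocity bins, times) -/
def k8cCapG {ι : Type*} (cv : ι → ℝ) (κ ω' : ℝ) (x0 ctr : ℝ × ℝ × ℝ) (b1 b2 b3 : ι) : ℝ × ℝ × ℝ → ℝ≥0∞ :=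
  if κ ≤ |cv b2 - cv b1| ∧ κ ≤ |cv b3 - cv b2| then
    Set.indicator (k8cSet x0 (cv b1) (cv b2) (cv b3) κ ω' ctr.1 ctr.2.1 ctr.2.2) (fun _ => (1 : ℝ≥0∞))
  else fun _ => 0

theorem k8c_cap_G_meas {ι : Type*} (cv : ι → ℝ) (κ ω' : ℝ) (x0 ctr : ℝ × ℝ × ℝ) (b1 b2 b3 : ι) :
    Measurable (k8cCapG cv κ ω' x0 ctr b1 b2 b3) := by
  unfold k8cCapG
  split_ifs
  · exact measurable_const.indicator (k8c_set_meas _ _ _ _ _ _ _ _ _)
  · exact measurable_const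

theorem k8c_cap_G_int {ι : Type*} (cv : ι → ℝ) (κ ω' : ℝ) (hκ : 0 < κ) (hω' : 0 ≤ ω') (x0 ctr : ℝ × ℝ × ℝ) (b1 b2 b3 : ι) :
    ∫⁻ τ1, ∫⁻ τ2, ∫⁻ τ3, k8cCapG cv κ ω' x0 ctr b1 b2 b3 (τ1, τ2, τ3) ≤ ENNReal.ofReal (8 * ω' ^ 3 / κ ^ 3) := by
  unfold k8cCapG
  split_ifs with h
  · exact k8c_triple_lintegral x0 (cv b1) (cv b2) (cv b3) κ ω' ctr.1 ctr.2.1 ctr.2.2 hκ hω' h.1 h.2
  · simp

/-- **cell cap** (a07:critical-cell-cap) -/
theorem k8c_cap {ι : Type*} [Fintype ι] {c : Lam → ι} {π : ι → ℝ≥0∞} {K0 K1 Kc : ℝ≥0∞} {good : Set Lam}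
    (H : K8cCtl ν ρ σ c π K0 K1 Kc good) (cv : ι → ℝ) (κ : ℝ) (hκ : 0 < κ) (Kπ : ℝ≥0∞) (hπ : ∑ b, π b ≤ Kπ)
    (bs : S → ℝ × ℝ × ℝ) (ω' : ℝ) (hω' : 0 ≤ ω') (A : Set S) (ctr : ℝ × ℝ × ℝ)
    (hsim : ∀ s0 l1 τ1 l2 τ2 l3 τ3, k8cW ρ σ s0 l1 ≠ 0 → ρ (l1, τ1) ≠ 0 → k8cW ρ σ (σ (l1, τ1)) l2 ≠ 0 → ρ (l2, τ2) ≠ 0 →
      k8cW ρ σ (σ (l2, τ2)) l3 ≠ 0 → ρ (l3, τ3) ≠ 0 → σ (l3, τ3) ∈ A →
      dist (k8cStep (k8cStep (k8cStep (bs s0) (cv (c l1)) τ1) (cv (c l2)) τ2) (cv (c l3)) τ3) ctr ≤ ω')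
    (s0 : S) :
    k8cP3 ν ρ σ (fun x1 x2 x3 => Set.indicator (k8cReg good c cv κ) (fun _ => (1 : ℝ≥0∞)) (x1, x2, x3)
        * Set.indicator A (fun _ => (1 : ℝ≥0∞)) (σ x3)) s0
      ≤ (Kc * (K1 * K0)) ^ 3 * Kπ ^ 3 * ENNReal.ofReal (8 * ω' ^ 3 / κ ^ 3) := by
  classical
  obtain ⟨ig, hig⟩ : ∃ ig : Lam → ℝ≥0∞, ig = Set.indicator good (fun _ => (1 : ℝ≥0∞)) := ⟨_, rfl⟩
  obtain ⟨Gf, hGf⟩ : ∃ Gf : ι → ι → ι → ℝ × ℝ × ℝ → ℝ≥0∞, Gf = k8cCapG cv κ ω' (bs s0) ctr := ⟨_, rfl⟩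
  have hGm : ∀ b1 b2 b3, Measurable (Gf b1 b2 b3) := fun b1 b2 b3 => by
    rw [hGf]
    exact k8c_cap_G_meas cv κ ω' (bs s0) ctr b1 b2 b3
  have higt : ∀ l, ig l ≠ ⊤ := fun l => by
    rw [hig]
    exact k8c_cap_ind_ne_top good l
  -- (1) the integrand in coordinates
  have step1 : k8cP3 ν ρ σ (fun x1 x2 x3 => Set.indicator (k8cReg good c cv κ) (fun _ => (1 : ℝ≥0∞)) (x1, x2, x3)
        * Set.indicator A (fun _ => (1 : ℝ≥0∞)) (σ x3)) s0
      ≤ k8cP3 ν ρ σ (fun x1 x2 x3 => ig x3.1 * ((ig x2.1 * ig x1.1) * Gf (c x1.1) (c x2.1) (c x3.1) (x1.2, x2.2, x3.2))) s0 := by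
    refine k8c_P3_mono _ _ s0 fun l1 τ1 l2 τ2 l3 τ3 h1 h1' h2 h2' h3 h3' => ?_
    by_cases hr : ((l1, τ1), (l2, τ2), (l3, τ3)) ∈ k8cReg good c cv κ
    · by_cases hA : σ (l3, τ3) ∈ A
      · have hd := hsim s0 l1 τ1 l2 τ2 l3 τ3 h1 h1' h2 h2' h3 h3' hA
        rw [k8c_step3] at hd
        obtain ⟨g1, g2, g3, k1, k2, k3⟩ := (k8c_reg_iff good c cv κ _ _ _).1 hr
        have d1 : |τ3 - ctr.1| ≤ ω' := by
          have := (le_max_left _ _).trans (le_of_eq_of_le (Prod.dist_eq).symm hd)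
          rwa [Real.dist_eq] at this
        have d23 := (le_max_right _ _).trans (le_of_eq_of_le (Prod.dist_eq).symm hd)
        have d2 : |k8cZ (bs s0) (cv (c l1)) (cv (c l2)) (cv (c l3)) τ1 τ2 τ3 - ctr.2.1| ≤ ω' := by
          have := (le_max_left _ _).trans (le_of_eq_of_le (Prod.dist_eq).symm d23)
          rwa [Real.dist_eq] at this
        have d3 : |k8cY (bs s0) (cv (c l1)) (cv (c l2)) (cv (c l3)) τ1 τ2 τ3 - ctr.2.2| ≤ ω' := by
          have := (le_max_right _ _).trans (le_of_eq_of_le (Prod.dist_eq).symm d23)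
          rwa [Real.dist_eq] at this
        have hmem : (τ1, τ2, τ3) ∈ k8cSet (bs s0) (cv (c l1)) (cv (c l2)) (cv (c l3)) κ ω' ctr.1 ctr.2.1 ctr.2.2 := ⟨k3, d1, d2, d3⟩
        have e : Gf (c l1) (c l2) (c l3) (τ1, τ2, τ3) = 1 := by
          rw [hGf]
          unfold k8cCapG
          rw [if_pos ⟨k1, k2⟩, Set.indicator_of_mem hmem]
        simp only [hig]
        rw [Set.indicator_of_mem hr, Set.indicator_of_mem hA, Set.indicator_of_mem (show l1 ∈ good from g1),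
          Set.indicator_of_mem (show l2 ∈ good from g2), Set.indicator_of_mem (show l3 ∈ good from g3), e]
        simp
      · rw [Set.indicator_of_notMem hA, mul_zero]
        exact zero_le
    · rw [Set.indicator_of_notMem hr, zero_mul]
      exact zero_le
  refine step1.trans ?_
  -- (2) backward induction
  obtain ⟨KK, hKK⟩ : ∃ KK : ℝ≥0∞, KK = K1 * K0 := ⟨_, rfl⟩
  have step2 : k8cP3 ν ρ σ (fun x1 x2 x3 => ig x3.1 * ((ig x2.1 * ig x1.1) * Gf (c x1.1) (c x2.1) (c x3.1) (x1.2, x2.2, x3.2))) s0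
      ≤ Kc * ∑ b1, π b1 * (KK * ∫⁻ τ1, Kc * ∑ b2, π b2 * (KK * ∫⁻ τ2, Kc * ∑ b3, π b3 * (KK * ∫⁻ τ3, Gf b1 b2 b3 (τ1, τ2, τ3)))) := by
    unfold k8cP3
    calc k8cK ν ρ σ (fun x1 => k8cK ν ρ σ (fun x2 => k8cK ν ρ σ
            (fun x3 => ig x3.1 * ((ig x2.1 * ig x1.1) * Gf (c x1.1) (c x2.1) (c x3.1) (x1.2, x2.2, x3.2))) (σ x2)) (σ x1)) s0
        ≤ k8cK ν ρ σ (fun x1 => k8cK ν ρ σ (fun x2 => ig x2.1 * (ig x1.1 *
            (Kc * ∑ b3, π b3 * (KK * ∫⁻ τ3, Gf (c x1.1) (c x2.1) b3 (x1.2, x2.2, τ3))))) (σ x1)) s0 := by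
          refine k8c_K_mono ν ρ σ s0 fun l1 τ1 _ _ => k8c_K_mono ν ρ σ _ fun l2 τ2 _ _ => ?_
          have := k8c_cap_dom H (ig l2 * ig l1) (ENNReal.mul_ne_top (higt l2) (higt l1)) (fun b3 τ3 => Gf (c l1) (c l2) b3 (τ1, τ2, τ3)) (σ (l2, τ2))
          rw [← hig, ← hKK, mul_assoc] at this
          exact this
      _ ≤ k8cK ν ρ σ (fun x1 => ig x1.1 * (1 * (Kc * ∑ b2, π b2 * (KK * ∫⁻ τ2,
            Kc * ∑ b3, π b3 * (KK * ∫⁻ τ3, Gf (c x1.1) b2 b3 (x1.2, τ2, τ3)))))) s0 := by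
          refine k8c_K_mono ν ρ σ s0 fun l1 τ1 _ _ => ?_
          have := k8c_cap_dom H (ig l1) (higt l1)
            (fun b2 τ2 => Kc * ∑ b3, π b3 * (KK * ∫⁻ τ3, Gf (c l1) b2 b3 (τ1, τ2, τ3))) (σ (l1, τ1))
          rw [← hig, ← hKK] at this
          rw [one_mul]
          exact this
      _ ≤ _ := by
          have := k8c_cap_dom H 1 ENNReal.one_ne_top
            (fun b1 τ1 => Kc * ∑ b2, π b2 * (KK * ∫⁻ τ2, Kc * ∑ b3, π b3 * (KK * ∫⁻ τ3, Gf b1 b2 b3 (τ1, τ2, τ3)))) s0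
          rw [← hig, ← hKK, one_mul] at this
          exact this
  refine step2.trans ?_
  -- (3) the sums and the constants come out
  have m3 : ∀ b1 b2 b3, Measurable fun q : ℝ × ℝ => ∫⁻ τ3, Gf b1 b2 b3 (q.1, q.2, τ3) := fun b1 b2 b3 => by
    have : Measurable fun q : (ℝ × ℝ) × ℝ => Gf b1 b2 b3 (q.1.1, q.1.2, q.2) := (hGm b1 b2 b3).comp (by fun_prop)
    exact this.lintegral_prod_right'
  have m2 : ∀ b1 b2 b3, Measurable fun τ1 : ℝ => ∫⁻ τ2, ∫⁻ τ3, Gf b1 b2 b3 (τ1, τ2, τ3) := fun b1 b2 b3 =>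
    (m3 b1 b2 b3).lintegral_prod_right'
  have e2 : ∀ b1 b2 τ1, ∫⁻ τ2, Kc * ∑ b3, π b3 * (KK * ∫⁻ τ3, Gf b1 b2 b3 (τ1, τ2, τ3))
      = Kc * ∑ b3, π b3 * (KK * ∫⁻ τ2, ∫⁻ τ3, Gf b1 b2 b3 (τ1, τ2, τ3)) := fun b1 b2 τ1 =>
    k8c_cap_op_lintegral volume Kc KK π (fun b3 τ2 => ∫⁻ τ3, Gf b1 b2 b3 (τ1, τ2, τ3))
      (fun b3 => (m3 b1 b2 b3).comp measurable_prodMk_left)
  have e1 : ∀ b1, ∫⁻ τ1, Kc * ∑ b2, π b2 * (KK * ∫⁻ τ2, Kc * ∑ b3, π b3 * (KK * ∫⁻ τ3, Gf b1 b2 b3 (τ1, τ2, τ3)))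
      = Kc * ∑ b2, π b2 * (KK * (Kc * ∑ b3, π b3 * (KK * ∫⁻ τ1, ∫⁻ τ2, ∫⁻ τ3, Gf b1 b2 b3 (τ1, τ2, τ3)))) := fun b1 => by
    simp only [e2]
    rw [k8c_cap_op_lintegral volume Kc KK π (fun b2 τ1 => Kc * ∑ b3, π b3 * (KK * ∫⁻ τ2, ∫⁻ τ3, Gf b1 b2 b3 (τ1, τ2, τ3)))
      (fun b2 => k8c_cap_op_meas Kc KK π _ fun b3 => m2 b1 b2 b3)]
    congr 1
    refine Finset.sum_congr rfl fun b2 _ => ?_
    rw [k8c_cap_op_lintegral volume Kc KK π (fun b3 τ1 => ∫⁻ τ2, ∫⁻ τ3, Gf b1 b2 b3 (τ1, τ2, τ3)) (fun b3 => m2 b1 b2 b3)]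
  simp only [e1]
  obtain ⟨V, hV⟩ : ∃ V : ℝ≥0∞, V = ENNReal.ofReal (8 * ω' ^ 3 / κ ^ 3) := ⟨_, rfl⟩
  have hI : ∀ b1 b2 b3, ∫⁻ τ1, ∫⁻ τ2, ∫⁻ τ3, Gf b1 b2 b3 (τ1, τ2, τ3) ≤ V := fun b1 b2 b3 => by
    rw [hGf, hV]
    exact k8c_cap_G_int cv κ ω' hκ hω' (bs s0) ctr b1 b2 b3
  rw [← hV, ← hKK]
  calc Kc * ∑ b1, π b1 * (KK * (Kc * ∑ b2, π b2 * (KK * (Kc * ∑ b3, π b3 * (KK * ∫⁻ τ1, ∫⁻ τ2, ∫⁻ τ3, Gf b1 b2 b3 (τ1, τ2, τ3))))))
      ≤ Kc * KK * Kπ * (Kc * KK * Kπ * (Kc * KK * Kπ * V)) :=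
        k8c_cap_op_le Kc KK Kπ _ π hπ _ fun b1 => k8c_cap_op_le Kc KK Kπ _ π hπ _ fun b2 =>
          k8c_cap_op_le Kc KK Kπ V π hπ _ fun b3 => hI b1 b2 b3
    _ = (Kc * KK) ^ 3 * Kπ ^ 3 * V := by ring

end

end Claimed.Agent.R252

end PkS8cCap

section PkS8cHeavy

/-
PROVED over PathM, PathM2 (leaf L-252-S8c-HEAVY, helper166).  Row 252, unit S8c (P8.2 critical-rate improvement, 08-critical-rates.tex l.190-300), architect helper54.
Abstract counting for the heavy bin.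
Sketch: 1 = ∫ P3(1) (`k8c_P3_stat`, weight 1, `ok.prob`) = ∫ P3(1[reg]) + ∫ P3(1[regᶜ]) (`k8c_P3_add`).
∫ P3(1[reg]) (σ x) = Σ_C Σ_β ∫ 1[Cs (σ x) = C] P3(1[reg] 1[cell (σ x3) = β]) (σ x).
Each term is at most M q_C (`hcap`), q_C = mass of {Cs (σ x) = C} = mass of {Cl x.1 = C}, and at most
∫ 1[Cs (σ x) = C] P3(1[cell (σ x3) = β]) = mass of {cell = β, Cs = C} (`k8c_P3_stat` with the weight 1[Cs = C] = 1[Cl = C]),
so it vanishes for the pairs which are not counted in `hU`.  Take C0 maximising q_C (Γ is nonempty because the law is a probability).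
-/

set_option autoImplicit false
set_option linter.unusedSectionVars false

namespace Claimed.Agent.R252

open MeasureTheory
open scoped ENNReal BigOperators

noncomputable section

variable {Lam : Type*} [MeasurableSpace Lam] {S : Type*}
variable {ν : Measure Lam} {ρ : Lam × ℝ → ℝ≥0∞} {σ : Lam × ℝ → S}

theorem k8c_heavy_K_zero (ok : K8cOk ν ρ σ) (s : S) : k8cK ν ρ σ (fun _ => 0) s = 0 :=
  le_antisymm (k8c_K_const_le ok 0 s) zero_le

theorem k8c_heavy_P3_zero (ok : K8cOk ν ρ σ) (s : S) : k8cP3 ν ρ σ (fun _ _ _ => 0) s = 0 := by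
  unfold k8cP3
  simp only [k8c_heavy_K_zero ok]

/-- finite additivity of three traversals -/
theorem k8c_heavy_P3_sum [Fintype S] (ok : K8cOk ν ρ σ) {B : Type*} (T : Finset B) (F : B → Lam × ℝ → Lam × ℝ → Lam × ℝ → ℝ≥0∞)
    (hF : ∀ β, Measurable fun p : (Lam × ℝ) × (Lam × ℝ) × (Lam × ℝ) => F β p.1 p.2.1 p.2.2) (s : S) :
    k8cP3 ν ρ σ (fun x1 x2 x3 => ∑ β ∈ T, F β x1 x2 x3) s = ∑ β ∈ T, k8cP3 ν ρ σ (F β) s := by
  classical
  induction T using Finset.induction_on with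
  | empty =>
    simp only [Finset.sum_empty]
    exact k8c_heavy_P3_zero ok s
  | insert β T hβ ih =>
    simp only [Finset.sum_insert hβ]
    rw [k8c_P3_add ok (F β) (fun x1 x2 x3 => ∑ β ∈ T, F β x1 x2 x3) (hF β) (Finset.measurable_sum _ fun β _ => hF β) s, ih]

/-- sets of states are measurable -/
theorem k8c_heavy_lab [Fintype S] (ok : K8cOk ν ρ σ) (A : Set S) : MeasurableSet (σ ⁻¹' A) := by
  have : σ ⁻¹' A = ⋃ s ∈ A, σ ⁻¹' {s} := by
    ext x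
    simp
  rw [this]
  exact MeasurableSet.biUnion (Set.to_countable A) fun s _ => ok.lab s

theorem k8c_heavy_ind_meas [Fintype S] (ok : K8cOk ν ρ σ) (A : Set S) : Measurable fun x : Lam × ℝ => Set.indicator A (fun _ => (1 : ℝ≥0∞)) (σ x) := by
  have e : (fun x : Lam × ℝ => Set.indicator A (fun _ => (1 : ℝ≥0∞)) (σ x)) = Set.indicator (σ ⁻¹' A) (fun _ => (1 : ℝ≥0∞)) := by
    funext x
    by_cases h : σ x ∈ A
    · rw [Set.indicator_of_mem h, Set.indicator_of_mem (show x ∈ σ ⁻¹' A from h)]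
    · rw [Set.indicator_of_notMem h, Set.indicator_of_notMem (show x ∉ σ ⁻¹' A from h)]
  rw [e]
  exact measurable_const.indicator (k8c_heavy_lab ok A)

/-- **heavy bin**: abstract counting -/
theorem k8c_heavy [Fintype S] (ok : K8cOk ν ρ σ) {B Γ : Type*} [Fintype B] [Fintype Γ] [DecidableEq B] [DecidableEq Γ]
    (cell : S → B) (Cs : S → Γ) (Cl : Lam → Γ) (hCl : ∀ C, MeasurableSet (Cl ⁻¹' {C})) (hC : ∀ x, Cs (σ x) = Cl x.1)
    (reg : Set ((Lam × ℝ) × (Lam × ℝ) × (Lam × ℝ))) (hreg : MeasurableSet reg) (η M : ℝ≥0∞)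
    (hfail : ∫⁻ x, k8cP3 ν ρ σ (fun x1 x2 x3 => Set.indicator regᶜ (fun _ => (1 : ℝ≥0∞)) (x1, x2, x3)) (σ x) ∂(k8cMu ν ρ) ≤ η)
    (hcap : ∀ β s0, k8cP3 ν ρ σ (fun x1 x2 x3 => Set.indicator reg (fun _ => (1 : ℝ≥0∞)) (x1, x2, x3)
        * Set.indicator {s | cell s = β} (fun _ => (1 : ℝ≥0∞)) (σ x3)) s0 ≤ M)
    (U : ℕ) (hU : (Finset.univ.filter fun p : B × Γ => k8cMu ν ρ {x | cell (σ x) = p.1 ∧ Cs (σ x) = p.2} ≠ 0).card ≤ U) :
    ∃ C0, 1 ≤ η + M * U * k8cMu ν ρ {x | Cl x.1 = C0} := by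
  classical
  -- abbreviations
  obtain ⟨m, hm⟩ : ∃ m : S → ℝ≥0∞, m = fun s => k8cMu ν ρ (σ ⁻¹' {s}) := ⟨_, rfl⟩
  obtain ⟨q, hq⟩ : ∃ q : Γ → ℝ≥0∞, q = fun C => k8cMu ν ρ {x | Cl x.1 = C} := ⟨_, rfl⟩
  obtain ⟨R, hR⟩ : ∃ R : S → ℝ≥0∞, R = fun s => k8cP3 ν ρ σ (fun x1 x2 x3 => Set.indicator reg (fun _ => (1 : ℝ≥0∞)) (x1, x2, x3)) s := ⟨_, rfl⟩
  obtain ⟨Rc, hRc⟩ : ∃ Rc : S → ℝ≥0∞, Rc = fun s => k8cP3 ν ρ σ (fun x1 x2 x3 => Set.indicator regᶜ (fun _ => (1 : ℝ≥0∞)) (x1, x2, x3)) s := ⟨_, rfl⟩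
  obtain ⟨T, hT⟩ : ∃ T : B → S → ℝ≥0∞, T = fun β s => k8cP3 ν ρ σ (fun x1 x2 x3 => Set.indicator reg (fun _ => (1 : ℝ≥0∞)) (x1, x2, x3)
        * Set.indicator {s | cell s = β} (fun _ => (1 : ℝ≥0∞)) (σ x3)) s := ⟨_, rfl⟩
  obtain ⟨T', hT'⟩ : ∃ T' : B → S → ℝ≥0∞, T' = fun β s => k8cP3 ν ρ σ (fun _ _ x3 => Set.indicator {s | cell s = β} (fun _ => (1 : ℝ≥0∞)) (σ x3)) s :=
    ⟨_, rfl⟩
  have lab : ∀ φ : S → ℝ≥0∞, ∫⁻ x, φ (σ x) ∂(k8cMu ν ρ) = ∑ s, φ s * m s := fun φ => by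
    rw [hm]
    exact k8c_lintegral_label (k8cMu ν ρ) ok.lab φ
  -- measurability
  have mreg : Measurable fun p : (Lam × ℝ) × (Lam × ℝ) × (Lam × ℝ) => Set.indicator reg (fun _ => (1 : ℝ≥0∞)) (p.1, p.2.1, p.2.2) :=
    measurable_const.indicator hreg
  have mregc : Measurable fun p : (Lam × ℝ) × (Lam × ℝ) × (Lam × ℝ) => Set.indicator regᶜ (fun _ => (1 : ℝ≥0∞)) (p.1, p.2.1, p.2.2) :=
    measurable_const.indicator hreg.compl
  have mcell : ∀ β, Measurable fun x : Lam × ℝ => Set.indicator {s | cell s = β} (fun _ => (1 : ℝ≥0∞)) (σ x) :=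
    fun β => k8c_heavy_ind_meas ok _
  -- total mass
  have h_one : ∑ s, k8cP3 ν ρ σ (fun _ _ _ => (1 : ℝ≥0∞)) s * m s = 1 := by
    have h := k8c_P3_stat ok (fun _ => 1) (fun _ => 1) measurable_const (fun _ => rfl) (fun _ => 1) measurable_const
    simp only [one_mul, lintegral_one, ok.prob] at h
    rw [lab (fun s => k8cP3 ν ρ σ (fun _ _ _ => (1 : ℝ≥0∞)) s)] at h
    exact h
  have h_split : ∀ s, k8cP3 ν ρ σ (fun _ _ _ => (1 : ℝ≥0∞)) s = R s + Rc s := by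
    intro s
    rw [hR, hRc]
    simp only
    rw [← k8c_P3_add ok _ _ mreg mregc s]
    congr 1
    funext x1 x2 x3
    by_cases h : (x1, x2, x3) ∈ reg
    · rw [Set.indicator_of_mem h, Set.indicator_of_notMem (show (x1, x2, x3) ∉ regᶜ from fun h' => h' h), add_zero]
    · rw [Set.indicator_of_notMem h, Set.indicator_of_mem (show (x1, x2, x3) ∈ regᶜ from h), zero_add]
  have h_R : ∀ s, R s = ∑ β, T β s := by
    intro s
    rw [hR, hT]
    simp only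
    rw [← k8c_heavy_P3_sum ok Finset.univ _ (fun β => mreg.mul ((mcell β).comp (measurable_snd.comp measurable_snd))) s]
    congr 1
    funext x1 x2 x3
    rw [← Finset.mul_sum, Finset.sum_eq_single (cell (σ x3))]
    · rw [Set.indicator_of_mem (show σ x3 ∈ {s | cell s = cell (σ x3)} from rfl), mul_one]
    · intro b _ hb
      exact Set.indicator_of_notMem (show σ x3 ∉ {s | cell s = b} from fun h => hb h.symm) _
    · intro h
      exact absurd (Finset.mem_univ _) h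
  have hfail' : ∑ s, Rc s * m s ≤ η := by
    rw [← lab Rc, hRc]
    exact hfail
  -- the pairs
  obtain ⟨t, ht⟩ : ∃ t : B × Γ → ℝ≥0∞, t = fun p => ∑ s, if Cs s = p.2 then T p.1 s * m s else 0 := ⟨_, rfl⟩
  have h_pairs : ∑ s, R s * m s = ∑ p, t p := by
    rw [ht]
    simp only
    rw [Finset.sum_comm]
    refine Finset.sum_congr rfl fun s _ => ?_
    rw [h_R, Finset.sum_mul, Fintype.sum_prod_type]
    refine Finset.sum_congr rfl fun β _ => ?_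
    simp only
    rw [Finset.sum_ite_eq, if_pos (Finset.mem_univ _)]
  have hqC : ∀ C, ∑ s, (if Cs s = C then (1 : ℝ≥0∞) else 0) * m s = q C := by
    intro C
    rw [← lab (fun s => if Cs s = C then (1 : ℝ≥0∞) else 0), hq]
    simp only
    have hmeas : MeasurableSet {x : Lam × ℝ | Cl x.1 = C} := measurable_fst (hCl C)
    rw [← lintegral_indicator_one hmeas]
    refine lintegral_congr fun x => ?_
    by_cases h : Cl x.1 = C
    · rw [if_pos ((hC x).trans h), Set.indicator_of_mem (show x ∈ {x : Lam × ℝ | Cl x.1 = C} from h)]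
      rfl
    · rw [if_neg (fun h' => h ((hC x).symm.trans h')), Set.indicator_of_notMem (show x ∉ {x : Lam × ℝ | Cl x.1 = C} from h)]
  have b1 : ∀ p, t p ≤ M * q p.2 := by
    intro p
    rw [ht, ← hqC, Finset.mul_sum]
    refine Finset.sum_le_sum fun s _ => ?_
    split_ifs with h
    · rw [one_mul]
      refine mul_le_mul' ?_ le_rfl
      rw [hT]
      exact hcap p.1 s
    · exact zero_le
  have b2 : ∀ p : B × Γ, t p ≤ k8cMu ν ρ {x | cell (σ x) = p.1 ∧ Cs (σ x) = p.2} := by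
    intro p
    have hTT : ∀ s, T p.1 s ≤ T' p.1 s := by
      intro s
      rw [hT, hT']
      refine k8c_P3_mono _ _ s fun l1 τ1 l2 τ2 l3 τ3 _ _ _ _ _ _ => ?_
      calc Set.indicator reg (fun _ => (1 : ℝ≥0∞)) ((l1, τ1), (l2, τ2), (l3, τ3)) * Set.indicator {s | cell s = p.1} (fun _ => (1 : ℝ≥0∞)) (σ (l3, τ3))
          ≤ 1 * Set.indicator {s | cell s = p.1} (fun _ => (1 : ℝ≥0∞)) (σ (l3, τ3)) :=
            mul_le_mul' (Set.indicator_le_self' (fun _ _ => zero_le) _) le_rfl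
        _ = _ := one_mul _
    have hb : Measurable fun l : Lam => if Cl l = p.2 then (1 : ℝ≥0∞) else 0 :=
      Measurable.ite (hCl p.2) measurable_const measurable_const
    have hst := k8c_P3_stat ok (fun s => if Cs s = p.2 then (1 : ℝ≥0∞) else 0) (fun l => if Cl l = p.2 then (1 : ℝ≥0∞) else 0) hb
      (fun x => by simp only [hC x]) (fun x => Set.indicator {s | cell s = p.1} (fun _ => (1 : ℝ≥0∞)) (σ x)) (mcell p.1)
    rw [lab (fun s => (if Cs s = p.2 then (1 : ℝ≥0∞) else 0)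
      * k8cP3 ν ρ σ (fun _ _ x3 => Set.indicator {s | cell s = p.1} (fun _ => (1 : ℝ≥0∞)) (σ x3)) s)] at hst
    have hmeas : MeasurableSet {x : Lam × ℝ | cell (σ x) = p.1 ∧ Cs (σ x) = p.2} :=
      k8c_heavy_lab ok {s | cell s = p.1 ∧ Cs s = p.2}
    have e2 : ∫⁻ x, (if Cs (σ x) = p.2 then (1 : ℝ≥0∞) else 0) * Set.indicator {s | cell s = p.1} (fun _ => (1 : ℝ≥0∞)) (σ x) ∂(k8cMu ν ρ)
        = k8cMu ν ρ {x | cell (σ x) = p.1 ∧ Cs (σ x) = p.2} := by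
      rw [← lintegral_indicator_one hmeas]
      refine lintegral_congr fun x => ?_
      by_cases h1 : Cs (σ x) = p.2
      · by_cases h2 : cell (σ x) = p.1
        · rw [if_pos h1, Set.indicator_of_mem (show σ x ∈ {s | cell s = p.1} from h2),
            Set.indicator_of_mem (show x ∈ {x : Lam × ℝ | cell (σ x) = p.1 ∧ Cs (σ x) = p.2} from ⟨h2, h1⟩), one_mul]
          rfl
        · rw [Set.indicator_of_notMem (show σ x ∉ {s | cell s = p.1} from h2),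
            Set.indicator_of_notMem (show x ∉ {x : Lam × ℝ | cell (σ x) = p.1 ∧ Cs (σ x) = p.2} from fun h => h2 h.1), mul_zero]
      · rw [if_neg h1, Set.indicator_of_notMem (show x ∉ {x : Lam × ℝ | cell (σ x) = p.1 ∧ Cs (σ x) = p.2} from fun h => h1 h.2), zero_mul]
    rw [← e2, ← hst, ht]
    refine Finset.sum_le_sum fun s _ => ?_
    split_ifs with h
    · rw [one_mul]
      refine mul_le_mul' ?_ le_rfl
      have := hTT s
      rw [hT'] at this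
      exact this
    · exact zero_le
  -- a maximal class
  have hne : Nonempty Γ := by
    by_contra hemp
    rw [not_nonempty_iff] at hemp
    have : IsEmpty Lam := ⟨fun l => hemp.false (Cl l)⟩
    have h0 : k8cMu ν ρ Set.univ = 0 := by
      rw [Set.eq_empty_of_isEmpty (Set.univ : Set (Lam × ℝ))]
      exact measure_empty
    rw [ok.prob] at h0
    exact one_ne_zero h0
  obtain ⟨C0, -, hC0⟩ := Finset.exists_max_image (Finset.univ : Finset Γ) q ⟨hne.some, Finset.mem_univ _⟩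
  refine ⟨C0, ?_⟩
  have hfin : ∑ p, t p ≤ M * U * q C0 := by
    rw [← Finset.sum_filter_of_ne (p := fun p : B × Γ => k8cMu ν ρ {x | cell (σ x) = p.1 ∧ Cs (σ x) = p.2} ≠ 0)
      (fun p _ hp h0 => hp (le_antisymm ((b2 p).trans (le_of_eq h0)) zero_le))]
    calc ∑ p ∈ Finset.univ.filter (fun p : B × Γ => k8cMu ν ρ {x | cell (σ x) = p.1 ∧ Cs (σ x) = p.2} ≠ 0), t p
        ≤ ∑ _p ∈ Finset.univ.filter (fun p : B × Γ => k8cMu ν ρ {x | cell (σ x) = p.1 ∧ Cs (σ x) = p.2} ≠ 0), M * q C0 :=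
          Finset.sum_le_sum fun p _ => (b1 p).trans (mul_le_mul' le_rfl (hC0 p.2 (Finset.mem_univ _)))
      _ = ((Finset.univ.filter (fun p : B × Γ => k8cMu ν ρ {x | cell (σ x) = p.1 ∧ Cs (σ x) = p.2} ≠ 0)).card : ℝ≥0∞) * (M * q C0) := by
          rw [Finset.sum_const, nsmul_eq_mul]
      _ ≤ (U : ℝ≥0∞) * (M * q C0) := mul_le_mul' (by exact_mod_cast hU) le_rfl
      _ = M * U * q C0 := by ring
  have hq0 : k8cMu ν ρ {x | Cl x.1 = C0} = q C0 := by rw [hq]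
  rw [hq0]
  calc (1 : ℝ≥0∞) = ∑ s, (R s + Rc s) * m s := by
        rw [← h_one]
        exact Finset.sum_congr rfl fun s _ => by rw [h_split]
    _ = ∑ s, Rc s * m s + ∑ s, R s * m s := by
        rw [← Finset.sum_add_distrib]
        exact Finset.sum_congr rfl fun s _ => by ring
    _ ≤ η + M * U * q C0 := add_le_add hfail' (h_pairs.le.trans hfin)

end

end Claimed.Agent.R252

end PkS8cHeavy

section PkS8cSim

/-
CONTRACT (leaf L-252-S8c-SIM).  Row 252, unit S8c (P8.2 critical-rate improvement, 08-critical-rates.tex l.190-300), architect helper54.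
Propagation of the simulation error through three traversals (sup metric of ℝ × ℝ × ℝ).
step_lip: components: 0 ; (Z - Z') - v (t - t') ; (Y - Y') + (A - A') (τ - t) - A' (t - t') with A = -Z + t v, |A - A'| ≤ 2 R δ,
|A'| ≤ 2 R², |τ - t| ≤ 3 R.   sim3: with L = 10 R²: e1 ≤ L ξ + ε, d2 ≤ e1 + 2 ξ, e2 ≤ L d2 + ε, d3 ≤ e2 + 2 ξ, e3 ≤ L d3 + ε.
-/

set_option autoImplicit false
set_option linter.unusedSectionVars false

namespace Claimed.Agent.R252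

open MeasureTheory
open scoped ENNReal BigOperators

noncomputable section

variable {Lam : Type*} [MeasurableSpace Lam] {S : Type*}
variable {ν : Measure Lam} {ρ : Lam × ℝ → ℝ≥0∞} {σ : Lam × ℝ → S}

theorem k8c_sim_mul {x y A B : ℝ} (hx : |x| ≤ A) (hy : |y| ≤ B) : |x * y| ≤ A * B := by
  rw [abs_mul]
  exact mul_le_mul hx hy (abs_nonneg _) ((abs_nonneg _).trans hx)

theorem k8c_step_lip (R δ : ℝ) (hR : 1 ≤ R) (hδ : δ ≤ 1) (p p' : ℝ × ℝ × ℝ) (v τ : ℝ) (hp' : ‖p'‖ ≤ R) (hv : |v| ≤ R)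
    (hτ : |τ| ≤ R) (h : dist p p' ≤ δ) : dist (k8cStep p v τ) (k8cStep p' v τ) ≤ 10 * R ^ 2 * δ := by
  obtain ⟨t, Z, Y⟩ := p
  obtain ⟨t', Z', Y'⟩ := p'
  simp only [Prod.dist_eq, Prod.norm_def, max_le_iff, Real.dist_eq, Real.norm_eq_abs] at hp' h
  obtain ⟨ha, hb, hc⟩ := h
  obtain ⟨ht', hZ', hY'⟩ := hp'
  have hδ0 : 0 ≤ δ := (abs_nonneg _).trans ha
  have hR0 : 0 ≤ R := by linarith
  have hR2 : R ≤ R ^ 2 := by nlinarith
  have hR21 : 1 ≤ R ^ 2 := by nlinarith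
  have hRδ : R * δ ≤ R ^ 2 * δ := mul_le_mul_of_nonneg_right hR2 hδ0
  have h1δ : δ ≤ R ^ 2 * δ := by nlinarith
  unfold k8cStep
  simp only [Prod.dist_eq, max_le_iff, Real.dist_eq]
  refine ⟨?_, ?_, ?_⟩
  · rw [sub_self, abs_zero]
    positivity
  · have e : Z + v * (τ - t) - (Z' + v * (τ - t')) = (Z - Z') + (-v) * (t - t') := by ring
    rw [e]
    have h1 : |(-v) * (t - t')| ≤ R * δ := k8c_sim_mul (by rwa [abs_neg]) ha
    have h2 := abs_add_le (Z - Z') ((-v) * (t - t'))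
    linarith
  · have e : Y + (-Z + t * v) * (τ - t) - (Y' + (-Z' + t' * v) * (τ - t'))
        = (Y - Y') + ((-(Z - Z') + (t - t') * v) * (τ - t) + (-(-Z' + t' * v)) * (t - t')) := by ring
    rw [e]
    have h1 : |(t - t') * v| ≤ δ * R := k8c_sim_mul ha hv
    have h2 : |-(Z - Z') + (t - t') * v| ≤ δ + δ * R := by
      have := abs_add_le (-(Z - Z')) ((t - t') * v)
      rw [abs_neg] at this
      linarith
    have h3 : |τ - t| ≤ 3 * R := by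
      have e3 : τ - t = τ + (-t' + -(t - t')) := by ring
      rw [e3]
      have g1 := abs_add_le τ (-t' + -(t - t'))
      have g2 := abs_add_le (-t') (-(t - t'))
      rw [abs_neg, abs_neg] at g2
      linarith
    have h4 : |t' * v| ≤ R * R := k8c_sim_mul ht' hv
    have h5 : |-(-Z' + t' * v)| ≤ R + R * R := by
      rw [abs_neg]
      have := abs_add_le (-Z') (t' * v)
      rw [abs_neg] at this
      linarith
    have h6 := k8c_sim_mul h2 h3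
    have h7 := k8c_sim_mul h5 ha
    have g1 := abs_add_le (Y - Y') ((-(Z - Z') + (t - t') * v) * (τ - t) + (-(-Z' + t' * v)) * (t - t'))
    have g2 := abs_add_le ((-(Z - Z') + (t - t') * v) * (τ - t)) ((-(-Z' + t' * v)) * (t - t'))
    nlinarith

theorem k8c_sim3 (R ξ ε : ℝ) (hR : 1 ≤ R) (hξ : 0 ≤ ξ) (hε : 0 ≤ ε) (hsmall : 2000 * R ^ 6 * (ξ + ε) ≤ 1)
    (p0 q1 r1 m1 q2 r2 m2 q3 r3 : ℝ × ℝ × ℝ) (v1 v2 v3 τ1 τ2 τ3 : ℝ)
    (hq1 : ‖q1‖ ≤ R) (hq2 : ‖q2‖ ≤ R) (hq3 : ‖q3‖ ≤ R) (hv1 : |v1| ≤ R) (hv2 : |v2| ≤ R) (hv3 : |v3| ≤ R)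
    (hτ1 : |τ1| ≤ R) (hτ2 : |τ2| ≤ R) (hτ3 : |τ3| ≤ R)
    (h01 : dist q1 p0 ≤ ξ) (h1 : dist r1 (k8cStep q1 v1 τ1) ≤ ε) (h1m : dist r1 m1 ≤ ξ) (h1q : dist q2 m1 ≤ ξ)
    (h2 : dist r2 (k8cStep q2 v2 τ2) ≤ ε) (h2m : dist r2 m2 ≤ ξ) (h2q : dist q3 m2 ≤ ξ)
    (h3 : dist r3 (k8cStep q3 v3 τ3) ≤ ε) :
    dist (k8cStep (k8cStep (k8cStep p0 v1 τ1) v2 τ2) v3 τ3) r3 ≤ 2000 * R ^ 6 * (ξ + ε) := by
  have hR0 : 0 ≤ R := by linarith
  obtain ⟨Q, hQ⟩ : ∃ Q : ℝ, Q = R ^ 2 := ⟨_, rfl⟩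
  have hQ1 : 1 ≤ Q := by rw [hQ]; nlinarith
  have hR6 : R ^ 6 = Q ^ 3 := by rw [hQ]; ring
  have hQ2 : Q ≤ Q ^ 2 := by nlinarith
  have hQ3 : Q ^ 2 ≤ Q ^ 3 := by nlinarith
  rw [hR6] at hsmall ⊢
  have a1 : 0 ≤ (Q ^ 3 - Q ^ 2) * ξ := mul_nonneg (sub_nonneg.2 hQ3) hξ
  have a2 : 0 ≤ (Q ^ 3 - Q ^ 2) * ε := mul_nonneg (sub_nonneg.2 hQ3) hε
  have a3 : 0 ≤ (Q ^ 2 - Q) * ξ := mul_nonneg (sub_nonneg.2 hQ2) hξ
  have a4 : 0 ≤ (Q ^ 2 - Q) * ε := mul_nonneg (sub_nonneg.2 hQ2) hε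
  have a5 : 0 ≤ (Q - 1) * ξ := mul_nonneg (sub_nonneg.2 hQ1) hξ
  have a6 : 0 ≤ (Q - 1) * ε := mul_nonneg (sub_nonneg.2 hQ1) hε
  -- first traversal
  have e1 : dist (k8cStep p0 v1 τ1) r1 ≤ 10 * Q * ξ + ε := by
    have g := k8c_step_lip R ξ hR (by linarith) p0 q1 v1 τ1 hq1 hv1 hτ1 (by rwa [dist_comm])
    rw [← hQ] at g
    have g2 := dist_triangle (k8cStep p0 v1 τ1) (k8cStep q1 v1 τ1) r1
    rw [dist_comm (k8cStep q1 v1 τ1) r1] at g2
    linarith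
  have d2 : dist (k8cStep p0 v1 τ1) q2 ≤ 10 * Q * ξ + ε + 2 * ξ := by
    have g1 := dist_triangle (k8cStep p0 v1 τ1) r1 q2
    have g2 := dist_triangle r1 m1 q2
    rw [dist_comm m1 q2] at g2
    linarith
  -- second traversal
  have e2 : dist (k8cStep (k8cStep p0 v1 τ1) v2 τ2) r2 ≤ 10 * Q * (10 * Q * ξ + ε + 2 * ξ) + ε := by
    have g := k8c_step_lip R (10 * Q * ξ + ε + 2 * ξ) hR (by linarith) (k8cStep p0 v1 τ1) q2 v2 τ2 hq2 hv2 hτ2 d2
    rw [← hQ] at g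
    have g2 := dist_triangle (k8cStep (k8cStep p0 v1 τ1) v2 τ2) (k8cStep q2 v2 τ2) r2
    rw [dist_comm (k8cStep q2 v2 τ2) r2] at g2
    linarith
  have d3 : dist (k8cStep (k8cStep p0 v1 τ1) v2 τ2) q3 ≤ 10 * Q * (10 * Q * ξ + ε + 2 * ξ) + ε + 2 * ξ := by
    have g1 := dist_triangle (k8cStep (k8cStep p0 v1 τ1) v2 τ2) r2 q3
    have g2 := dist_triangle r2 m2 q3
    rw [dist_comm m2 q3] at g2
    linarith
  -- third traversal
  have g := k8c_step_lip R (10 * Q * (10 * Q * ξ + ε + 2 * ξ) + ε + 2 * ξ) hR (by linarith)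
    (k8cStep (k8cStep p0 v1 τ1) v2 τ2) q3 v3 τ3 hq3 hv3 hτ3 d3
  rw [← hQ] at g
  have g2 := dist_triangle (k8cStep (k8cStep (k8cStep p0 v1 τ1) v2 τ2) v3 τ3) (k8cStep q3 v3 τ3) r3
  rw [dist_comm (k8cStep q3 v3 τ3) r3] at g2
  linarith

end

end Claimed.Agent.R252

end PkS8cSim

section PkS8cCore

/-
Row 252, unit S8c (P8.2 critical-rate improvement, 08-critical-rates.tex l.190-300), architect helper54.
The one-scale core `k8c_core` of the lower cell count and of the heavy intercept bin, from the leaves.  No sorry in this file.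
-/

set_option autoImplicit false
set_option linter.unusedSectionVars false

namespace Claimed.Agent.R252

open MeasureTheory
open scoped ENNReal BigOperators

noncomputable section

variable {Lam : Type*} [MeasurableSpace Lam] {S : Type*}
variable {ν : Measure Lam} {ρ : Lam × ℝ → ℝ≥0∞} {σ : Lam × ℝ → S}

/-- the base positions follow the model flow -/
structure K8cSim {ι : Type*} (ρ : Lam × ℝ → ℝ≥0∞) (σ : Lam × ℝ → S) (c : Lam → ι) (cv : ι → ℝ) (base : Lam × ℝ → ℝ × ℝ × ℝ)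
    (bs : S → ℝ × ℝ × ℝ) (R ξ ε : ℝ) : Prop where
  R1 : 1 ≤ R
  xi0 : 0 ≤ ξ
  eps0 : 0 ≤ ε
  small : 2000 * R ^ 6 * (ξ + ε) ≤ 1
  bdd : ∀ x, ρ x ≠ 0 → ‖base x‖ ≤ R ∧ |x.2| ≤ R
  vel : ∀ b, |cv b| ≤ R
  state : ∀ x, ρ x ≠ 0 → dist (base x) (bs (σ x)) ≤ ξ
  flow : ∀ l t τ, ρ (l, t) ≠ 0 → ρ (l, τ) ≠ 0 → dist (base (l, τ)) (k8cStep (base (l, t)) (cv (c l)) τ) ≤ ε

theorem k8c_sim_path {ι : Type*} {c : Lam → ι} {cv : ι → ℝ} {base : Lam × ℝ → ℝ × ℝ × ℝ} {bs : S → ℝ × ℝ × ℝ} {R ξ ε : ℝ}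
    (G : K8cSim ρ σ c cv base bs R ξ ε) (s0 : S) (l1 : Lam) (τ1 : ℝ) (l2 : Lam) (τ2 : ℝ) (l3 : Lam) (τ3 : ℝ)
    (h1 : k8cW ρ σ s0 l1 ≠ 0) (h1' : ρ (l1, τ1) ≠ 0) (h2 : k8cW ρ σ (σ (l1, τ1)) l2 ≠ 0) (h2' : ρ (l2, τ2) ≠ 0)
    (h3 : k8cW ρ σ (σ (l2, τ2)) l3 ≠ 0) (h3' : ρ (l3, τ3) ≠ 0) :
    dist (k8cStep (k8cStep (k8cStep (bs s0) (cv (c l1)) τ1) (cv (c l2)) τ2) (cv (c l3)) τ3) (bs (σ (l3, τ3)))
      ≤ ξ + 2000 * R ^ 6 * (ξ + ε) := by
  obtain ⟨t1, e1, n1⟩ := k8c_W_ne_zero h1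
  obtain ⟨t2, e2, n2⟩ := k8c_W_ne_zero h2
  obtain ⟨t3, e3, n3⟩ := k8c_W_ne_zero h3
  have key := k8c_sim3 R ξ ε G.R1 G.xi0 G.eps0 G.small (bs s0) (base (l1, t1)) (base (l1, τ1)) (bs (σ (l1, τ1)))
    (base (l2, t2)) (base (l2, τ2)) (bs (σ (l2, τ2))) (base (l3, t3)) (base (l3, τ3)) (cv (c l1)) (cv (c l2)) (cv (c l3)) τ1 τ2 τ3
    (G.bdd _ n1).1 (G.bdd _ n2).1 (G.bdd _ n3).1 (G.vel _) (G.vel _) (G.vel _) (G.bdd _ h1').2 (G.bdd _ h2').2 (G.bdd _ h3').2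
    (e1 ▸ G.state _ n1) (G.flow l1 t1 τ1 n1 h1') (G.state _ h1') (e2 ▸ G.state _ n2) (G.flow l2 t2 τ2 n2 h2') (G.state _ h2')
    (e3 ▸ G.state _ n3) (G.flow l3 t3 τ3 n3 h3')
  have := dist_triangle (k8cStep (k8cStep (k8cStep (bs s0) (cv (c l1)) τ1) (cv (c l2)) τ2) (cv (c l3)) τ3) (base (l3, τ3)) (bs (σ (l3, τ3)))
  have h4 := G.state _ h3'
  linarith

/-- **the one-scale core of the lower cell count and of the heavy intercept** -/
theorem k8c_core [Fintype S] {ι : Type*} [Fintype ι] {c : Lam → ι} {π : ι → ℝ≥0∞} {K0 K1 Kc : ℝ≥0∞} {good : Set Lam}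
    (H : K8cCtl ν ρ σ c π K0 K1 Kc good) {cv : ι → ℝ} {base : Lam × ℝ → ℝ × ℝ × ℝ} {bs : S → ℝ × ℝ × ℝ} {R ξ ε : ℝ}
    (G : K8cSim ρ σ c cv base bs R ξ ε) (κ : ℝ) (hκ : 0 < κ) (Kπ ηπ : ℝ≥0∞) (hπ : ∑ b, π b ≤ Kπ)
    (hint : ∀ b, ∑ b', Set.indicator {b' | |cv b' - cv b| < κ} π b' ≤ ηπ)
    {B Γ : Type*} [Fintype B] [Fintype Γ] [DecidableEq B] [DecidableEq Γ]
    (cell : S → B) (ctr : B → ℝ × ℝ × ℝ) (ω : ℝ) (hω : 0 ≤ ω) (hcell : ∀ s, dist (bs s) (ctr (cell s)) ≤ ω)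
    (Cs : S → Γ) (Cl : Lam → Γ) (hCl : ∀ C, MeasurableSet (Cl ⁻¹' {C})) (hC : ∀ x, Cs (σ x) = Cl x.1)
    (U : ℕ) (hU : (Finset.univ.filter fun p : B × Γ => k8cMu ν ρ {x | cell (σ x) = p.1 ∧ Cs (σ x) = p.2} ≠ 0).card ≤ U) :
    ∃ C0, 1 ≤ (3 * k8cMu ν ρ {x | x.1 ∉ good} + 2 * (Kc * ηπ) + Kc * (Kπ * (K1 * K0 * ENNReal.ofReal (2 * κ))))
      + (Kc * (K1 * K0)) ^ 3 * Kπ ^ 3 * ENNReal.ofReal (8 * (ω + ξ + 2000 * R ^ 6 * (ξ + ε)) ^ 3 / κ ^ 3) * U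
        * k8cMu ν ρ {x | Cl x.1 = C0} := by
  have hω' : 0 ≤ ω + ξ + 2000 * R ^ 6 * (ξ + ε) := by
    have h1 := G.xi0
    have h2 := G.eps0
    have h3 : 0 ≤ R ^ 6 := by positivity
    have h4 : 0 ≤ 2000 * R ^ 6 * (ξ + ε) := mul_nonneg (mul_nonneg (by norm_num) h3) (add_nonneg h1 h2)
    linarith
  refine k8c_heavy H.ok cell Cs Cl hCl hC (k8cReg good c cv κ) (k8c_reg_meas good H.goodm c H.cm cv κ) _ _
    (k8c_fail H cv κ Kπ ηπ hπ hint) (fun β s0 => ?_) U hU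
  refine k8c_cap H cv κ hκ Kπ hπ bs _ hω' {s | cell s = β} (ctr β) ?_ s0
  intro s0 l1 τ1 l2 τ2 l3 τ3 h1 h1' h2 h2' h3 h3' hA
  have e := k8c_sim_path G s0 l1 τ1 l2 τ2 l3 τ3 h1 h1' h2 h2' h3 h3'
  have e2 := hcell (σ (l3, τ3))
  rw [show cell (σ (l3, τ3)) = β from hA] at e2
  have := dist_triangle (k8cStep (k8cStep (k8cStep (bs s0) (cv (c l1)) τ1) (cv (c l2)) τ2) (cv (c l3)) τ3) (bs (σ (l3, τ3))) (ctr β)
  linarith

end

end Claimed.Agent.R252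

end PkS8cCore
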