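-- KEEP
import Claimed.Agent.R252.S8.Defs
import Claimed.Agent.R252.S7b.HorGrp
import Claimed.Agent.R252.State.KsStateC
import Claimed.Agent.R252.Re6.FitDefs
import Claimed.Agent.R252.S8c.PkCore

/-! PACKED FILE (unit S8c = P8.2, architect helper54; CLOSED, FROZEN, 0 sorry): parts S8c.HDefs, S8c.H9Mono, S8c.H0Cond, S8c.H1Dlist, S8c.CoreInt.  Each part is wrapped in its own `section`. -/

section PkS8cHDefs

/-!
# Row 252, unit S8c = P8.2 `prop:critical-rate` (08-critical-rates.tex l.74-330) OVER THE ONE-SCALE RECORD `K7bHor`.   DEFINITIONS ONLY, no sorry.      (architect helper54; prefix `k8c` / `K8c`)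

`k = 1/2`, `a = a_s = h_s²`, `a' = a_{s+g}` (`g` = the `c` of the paper), third depth `3s`.
SCALES: time mesh `η` of the coefficient count, fit mesh `m` (block coordinates; an INTEGER MULTIPLE of the velocity mesh `χ`, so that the palette bins nest), cell mesh `ω` (centred coordinates).
`K8cRel c s g η m ω δ` : all the gaps between the scales are `≤ δ` (in the hub language `δ = N^(-s/8)`); every step has the hypothesis `C K^C δ ≤ 1`.   FIELDS MAY BE ADDED to `K8cRel` on request (only the glue `k8c_exit` pays).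

CHAIN (files `H1Dlist` .. `H9Main`):   selection `E` -> S4, S5 of S7b -> derivative lists (`K8cDList`) -> rows (`K8cRowOk`) -> row bins (`K8cRBins`) -> `Re6Fit` data for every dense label -> primitives `Fq` (`K8cPrim`)
-> switching states `k8cSt` with conditional ceiling -> upper count of (cell, intercept bin) -> `k8c_core` (three traversals) -> heavy intercept bin -> `K8Cand`.
DEVIATION from the paper: the label `Q_s` is chosen only AFTER the pruning of the switching states (all dense labels are fitted simultaneously, `Fq : H.Q → affine`), so that only the GLOBAL budget `refsum` is used.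
-/

set_option autoImplicit false

namespace Claimed.Agent.R252

open MeasureTheory
open scoped ENNReal BigOperators

noncomputable section

/-- the scales of P8.2 and their gaps -/
structure K8cRel (c : K7bPar) (s g η m ω δ : ℝ) : Prop where
  wf : c.WF
  khalf : c.k = 1 / 2
  s0 : 0 < s
  g0 : 0 < g
  sG : s ∈ c.G
  sgG : s + g ∈ c.G
  s3G : 3 * s ∈ c.G
  δ0 : 0 < δ
  δ1 : δ ≤ 1
  η0 : 0 < η
  m0 : 0 < m
  ω0 : 0 < ω
  /-- the fit mesh is an integer multiple of the velocity mesh -/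
  mχ : ∃ n : ℕ, 0 < n ∧ m = n * c.χ
  /-- `h_s ≤ δ` -/
  r_h : c.h s ≤ δ
  /-- `a h ≪ a'` -/
  r_ah : c.a s * c.h s ≤ δ * c.a (s + g)
  /-- `a_{3s} / h_{3s} ≪ a` -/
  r_3 : c.a (3 * s) ≤ δ * (c.a s * c.h (3 * s))
  /-- `η ≪ a` -/
  r_η : η ≤ δ * c.a s
  /-- `m ≪ η` -/
  r_m : m ≤ δ * η
  /-- `ω ≪ a'²` -/
  r_ω : ω ≤ δ * c.a (s + g) ^ 2
  /-- the finest meshes and the error of the horizontal equation are far below everything -/
  r_ξ : c.ξ ≤ δ * (m * ω * c.a s ^ 2)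
  r_χ : c.χ ≤ δ * (ω * c.a s ^ 2)
  r_ϱ : c.ϱ ≤ δ * c.a (s + g)
  r_e : c.N ^ (-c.e0) ≤ δ * (ω * c.a s ^ 2)

/-- the row `G_* = ∇_z L + (∂_Y L) J z` of an affine entry at a base point -/
def k8cRow (L : ℝ × ℝ × ℝ × ℝ) (u : ℝ × ℝ × ℝ) : ℝ × ℝ := (L.2.1 - L.2.2.2 * u.2.1, L.2.2.1 + L.2.2.2 * u.1)

/-- the row of an incidence (entry of depth `s3`) -/
def k8cG (H : K7bHor) (s3 : ℝ) (z : H.Lam × ℝ) : ℝ × ℝ := k8cRow (H.entOf s3 z) (H.base z)

/-- the bin of the row at mesh `a` -/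
def k8cGb (H : K7bHor) (s3 a : ℝ) (z : H.Lam × ℝ) : ℤ × ℤ := (k7bBin a (k8cG H s3 z).1, k7bBin a (k8cG H s3 z).2)

/-- block coordinates of the label `q` : time `(t - bt) / bl ∈ [0, 1)`, position `(Z - cZ) / bl` -/
def k8cTh (H : K7bHor) (q : H.Q) (t : ℝ) : ℝ := (t - H.bt q) / H.bl q
def k8cZh (H : K7bHor) (q : H.Q) (Z : ℝ) : ℝ := (Z - H.cZ q) / H.bl q

/-- the position cell of mesh `m` in the block coordinates of the label of depth `s` -/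
def k8cPc (H : K7bHor) (s m : ℝ) (z : H.Lam × ℝ) : ℤ × ℤ :=
  (k7bBin m (k8cTh H (H.lab s z) z.2), k7bBin m (k8cZh H (H.lab s z) (H.Zt z.1 z.2)))

/-- the incidences of a label -/
def k8cOn (H : K7bHor) (s : ℝ) (q : H.Q) : Set (H.Lam × ℝ) := {z | H.lab s z = q}

/-- **derivative lists**: label, position cell and velocity bin leave `≤ Kd` bins of width `a_s` for `x'` -/
def K8cDList (H : K7bHor) (c : K7bPar) (s m Kd : ℝ) (E : Set (H.Lam × ℝ)) : Prop :=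
  ∀ (q : H.Q) (P : ℤ × ℤ) (b : ℤ) (S : Finset ℤ),
    (∀ y ∈ S, ∃ z ∈ E, H.lab s z = q ∧ k8cPc H s m z = P ∧ k7bBin c.χ (H.v z.1) = b ∧ k7bBin (c.a s) (H.x1 z.1) = y) →
    (S.card : ℝ) ≤ Kd

/-- **rows**: `x' = G_* · (1, v) + O(K a)`, `|G_*| ≤ K` -/
def K8cRowOk (H : K7bHor) (c : K7bPar) (s s3 K : ℝ) (E : Set (H.Lam × ℝ)) : Prop :=
  ∀ z ∈ E, |H.x1 z.1 - ((k8cG H s3 z).1 + H.v z.1 * (k8cG H s3 z).2)| ≤ K * c.a s ∧ |(k8cG H s3 z).1| ≤ K ∧ |(k8cG H s3 z).2| ≤ K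

/-- **row bins**: label and position cell leave `≤ K` bins of width `a_s` for the row -/
def K8cRBins (H : K7bHor) (c : K7bPar) (s s3 m K : ℝ) (E : Set (H.Lam × ℝ)) : Prop :=
  ∀ (q : H.Q) (P : ℤ × ℤ) (S : Finset (ℤ × ℤ)),
    (∀ y ∈ S, ∃ z ∈ E, H.lab s z = q ∧ k8cPc H s m z = P ∧ k8cGb H s3 (c.a s) z = y) → (S.card : ℝ) ≤ K

/-- the instance of L `a06:row-fit` which is used (input slack `K`, output slack `Kf`) -/
def K8cFitHyp (S m E K Kf : ℝ) : Prop :=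
  ∀ (Λ : Type) [MeasurableSpace Λ] (P : Measure Λ) (Z0 vel cst : Λ → ℝ) (T : Λ × ℝ → ℝ × ℝ) (W : Set (Λ × ℝ)) (μ : Measure (Λ × ℝ))
    (pal : Measure ℝ), Re6Fit m E K S P Z0 vel cst T W μ pal →
    ∃ B₁ B₂ lam : ℝ, |B₁| ≤ Kf ∧ |B₂| ≤ Kf ∧ |lam| ≤ Kf ∧
      ENNReal.ofReal (1 / Kf) ≤ μ {ω | ω ∈ W ∧ |(T ω).1 - B₁ + lam * (Z0 ω.1 + vel ω.1 * ω.2)| ≤ Kf * E ∧
        |(T ω).2 - B₂ - lam * ω.2| ≤ Kf * E}

/-- to block time and back -/
def k8cTo (H : K7bHor) (q : H.Q) (z : H.Lam × ℝ) : H.Lam × ℝ := (z.1, k8cTh H q z.2)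
def k8cBack (H : K7bHor) (q : H.Q) (w : H.Lam × ℝ) : H.Lam × ℝ := (w.1, H.bt q + H.bl q * w.2)

/-- the prior conditioned on the assignment of `q` -/
def k8cPr (H : K7bHor) (q : H.Q) : Measure H.Lam := (H.ν (H.asg q))⁻¹ • H.ν.restrict (H.asg q)

/-- the law of the selection `E` in the label `q`, in block time, divided by `m_Q` -/
def k8cLaw (H : K7bHor) (s : ℝ) (q : H.Q) (E : Set (H.Lam × ℝ)) : Measure (H.Lam × ℝ) :=
  (H.mQ q)⁻¹ • Measure.map (k8cTo H q) (H.lam.restrict (E ∩ k8cOn H s q))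

/-- the selection in block time -/
def k8cW0 (H : K7bHor) (s : ℝ) (q : H.Q) (E : Set (H.Lam × ℝ)) : Set (H.Lam × ℝ) := k8cBack H q ⁻¹' (E ∩ k8cOn H s q)

open Classical in
/-- the row in block time (zero off the selection) -/
def k8cT0 (H : K7bHor) (s s3 : ℝ) (q : H.Q) (E : Set (H.Lam × ℝ)) (w : H.Lam × ℝ) : ℝ × ℝ :=
  if w ∈ k8cW0 H s q E then k8cG H s3 (k8cBack H q w) else 0

/-- the initial position in block coordinates -/
def k8cZ0 (H : K7bHor) (q : H.Q) (l : H.Lam) : ℝ := k8cZh H q (H.Zt l (H.bt q))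

/-- the affine primitive `F_*` of the fitted row `B + λ J ẑ` -/
def k8cF (H : K7bHor) (q : H.Q) (B1 B2 lam : ℝ) : ℝ × ℝ × ℝ × ℝ :=
  (0, B1 + lam * H.cZ q / H.bl q, B2 - lam * H.bt q / H.bl q, lam / H.bl q)

/-- the derivative of an affine base function along a trajectory -/
def k8cD (H : K7bHor) (F : ℝ × ℝ × ℝ × ℝ) (l : H.Lam) : ℝ := F.2.1 + F.2.2.1 * H.v l + F.2.2.2 * H.y1 l

/-- **primitives**: `|x' - d/dt F_q| ≤ K a`, slopes of `F_q` at most `K / h` -/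
def K8cPrim (H : K7bHor) (c : K7bPar) (s K : ℝ) (Fq : H.Q → ℝ × ℝ × ℝ × ℝ) (E : Set (H.Lam × ℝ)) : Prop :=
  ∀ z ∈ E, |H.x1 z.1 - k8cD H (Fq (H.lab s z)) z.1| ≤ K * c.a s ∧ |(Fq (H.lab s z)).2.1| ≤ K / c.h s ∧
    |(Fq (H.lab s z)).2.2.1| ≤ K / c.h s ∧ |(Fq (H.lab s z)).2.2.2| ≤ K / c.h s

/-- the midpoint of the block -/
def k8cMid (H : K7bHor) (q : H.Q) : ℝ := H.bt q + H.bl q / 2

/-- the intercept `c_l = (x - F)(t_mid)` -/
def k8cInt (H : K7bHor) (F : ℝ × ℝ × ℝ × ℝ) (q : H.Q) (l : H.Lam) : ℝ := H.Xt l (k8cMid H q) - k7bAff F (H.bs l (k8cMid H q))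

/-- the intercept bin of an incidence -/
def k8cC (H : K7bHor) (s a' : ℝ) (Fq : H.Q → ℝ × ℝ × ℝ × ℝ) (z : H.Lam × ℝ) : ℤ :=
  k7bBin a' (k8cInt H (Fq (H.lab s z)) (H.lab s z) z.1)

/-- **the switching state**: label, intercept bin, fine base cell -/
def k8cSt (H : K7bHor) (s a' ξ : ℝ) (Fq : H.Q → ℝ × ℝ × ℝ × ℝ) (z : H.Lam × ℝ) : H.Q × ℤ × (ℤ × ℤ × ℤ) :=
  (H.lab s z, k8cC H s a' Fq z, k7bCell ξ (H.base z))

/-- centred coordinates of the label `q`   (a06:centered-horizontal-box), scale `bl q` -/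
def k8cHat (H : K7bHor) (q : H.Q) (u : ℝ × ℝ × ℝ) : ℝ × ℝ × ℝ :=
  ((u.1 - H.ct q) / H.bl q, (u.2.1 - H.cZ q) / H.bl q,
    (u.2.2 - H.cY q - (-(H.cZ q) * (u.1 - H.ct q) + H.ct q * (u.2.1 - H.cZ q))) / H.bl q ^ 2)

/-- **upper count**: the (centred cell of mesh `ω`, intercept bin) pairs of a label -/
def K8cUpper (H : K7bHor) (s a' ω U : ℝ) (Fq : H.Q → ℝ × ℝ × ℝ × ℝ) (E : Set (H.Lam × ℝ)) : Prop :=
  ∀ (q : H.Q) (S : Finset ((ℤ × ℤ × ℤ) × ℤ)),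
    (∀ y ∈ S, ∃ z ∈ E, H.lab s z = q ∧ (k7bCell ω (k8cHat H q (H.base z)), k8cC H s a' Fq z) = y) → (S.card : ℝ) ≤ U

/-- conditional ceiling of the velocity bins given a state, and no null states -/
structure K8cCond (H : K7bHor) (c : K7bPar) {S' : Type*} (st : H.Lam × ℝ → S') (K : ℝ) (E : Set (H.Lam × ℝ)) : Prop where
  cond : KsCond (H.lam.restrict E) st (H.vT c.χ) (fun _ b => H.pal (k7bIv c.χ b)) (ENNReal.ofReal K)
  pos : ∀ z ∈ E, H.lam (E ∩ {z' | st z' = st z}) ≠ 0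

theorem k8c_hdefs_eqns_cite : True := by
  have := @k8cRow.eq_1
  have := @k8cG.eq_1
  have := @k8cGb.eq_1
  have := @k8cTh.eq_1
  have := @k8cZh.eq_1
  have := @k8cPc.eq_1
  have := @k8cOn.eq_1
  have := @K8cDList.eq_1
  have := @K8cRowOk.eq_1
  have := @K8cRBins.eq_1
  have := @K8cFitHyp.eq_1
  have := @k8cTo.eq_1
  have := @k8cBack.eq_1
  have := @k8cPr.eq_1
  have := @k8cLaw.eq_1
  have := @k8cW0.eq_1
  have := @k8cT0.eq_1
  have := @k8cZ0.eq_1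
  have := @k8cF.eq_1
  have := @k8cD.eq_1
  have := @K8cPrim.eq_1
  have := @k8cMid.eq_1
  have := @k8cInt.eq_1
  have := @k8cC.eq_1
  have := @k8cSt.eq_1
  have := @k8cHat.eq_1
  have := @K8cUpper.eq_1
  trivial

end

end Claimed.Agent.R252

end PkS8cHDefs

section PkS8cH9Mono

/-!
# Row 252, S8c: monotonicity in the slack / in the selection of the predicates of P8.2, and the calculus of the slacks `C X^C`.   No sorry.      (architect helper54)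
-/

set_option autoImplicit false

namespace Claimed.Agent.R252

open MeasureTheory
open scoped ENNReal BigOperators

/-! ## slacks -/

theorem k8c_pw_le {Y a : ℝ} (hY : 1 ≤ Y) {b D : ℕ} (ha0 : 0 ≤ a) (ha : a ≤ D) (hb : b ≤ D) : a * Y ^ b ≤ (D : ℝ) * Y ^ D := by
  have h1 : Y ^ b ≤ Y ^ D := pow_le_pow_right₀ hY hb
  have h2 : (0 : ℝ) ≤ Y ^ b := by positivity
  calc a * Y ^ b ≤ (D : ℝ) * Y ^ b := mul_le_mul_of_nonneg_right ha h2
    _ ≤ (D : ℝ) * Y ^ D := mul_le_mul_of_nonneg_left h1 (Nat.cast_nonneg D)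

theorem k8c_pw_one {Y : ℝ} (hY : 1 ≤ Y) {D : ℕ} (hD : 1 ≤ D) : 1 ≤ (D : ℝ) * Y ^ D := by
  have h1 : (1 : ℝ) ≤ Y ^ D := one_le_pow₀ hY
  have h2 : (1 : ℝ) ≤ D := by exact_mod_cast hD
  nlinarith

theorem k8c_pw_mono {Y : ℝ} (hY : 1 ≤ Y) {D D' : ℕ} (h : D ≤ D') : (D : ℝ) * Y ^ D ≤ (D' : ℝ) * Y ^ D' :=
  k8c_pw_le hY (Nat.cast_nonneg D) (by exact_mod_cast h) h

theorem k8c_pw_base {Y Y' : ℝ} (hY : 0 ≤ Y) (h : Y ≤ Y') (D : ℕ) : (D : ℝ) * Y ^ D ≤ (D : ℝ) * Y' ^ D :=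
  mul_le_mul_of_nonneg_left (pow_le_pow_left₀ hY h D) (Nat.cast_nonneg D)

theorem k8c_pw_self {Y : ℝ} (hY : 1 ≤ Y) {D : ℕ} (hD : 1 ≤ D) : Y ≤ (D : ℝ) * Y ^ D := by
  have := k8c_pw_le hY (a := 1) (b := 1) (D := D) zero_le_one (by exact_mod_cast hD) hD
  simpa using this

/-- composition -/
theorem k8c_pw_comp {Y : ℝ} (hY : 1 ≤ Y) (A B : ℕ) : (A : ℝ) * ((B : ℝ) * Y ^ B) ^ A ≤ ((A * B ^ A + A * B : ℕ) : ℝ) * Y ^ (A * B ^ A + A * B) := by
  have e : (A : ℝ) * ((B : ℝ) * Y ^ B) ^ A = ((A * B ^ A : ℕ) : ℝ) * Y ^ (B * A) := by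
    push_cast
    rw [mul_pow, ← pow_mul]
    ring
  rw [e]
  refine k8c_pw_le hY (Nat.cast_nonneg _) (by exact_mod_cast Nat.le_add_right _ _) ?_
  rw [mul_comm B A]
  exact Nat.le_add_left _ _

/-- product -/
theorem k8c_pw_mul {Y : ℝ} (hY : 1 ≤ Y) (A B : ℕ) : ((A : ℝ) * Y ^ A) * ((B : ℝ) * Y ^ B) ≤ ((A * B + A + B : ℕ) : ℝ) * Y ^ (A * B + A + B) := by
  have e : ((A : ℝ) * Y ^ A) * ((B : ℝ) * Y ^ B) = ((A * B : ℕ) : ℝ) * Y ^ (A + B) := by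
    push_cast
    rw [pow_add]
    ring
  rw [e]
  refine k8c_pw_le hY (Nat.cast_nonneg _) (by exact_mod_cast (by omega : A * B ≤ A * B + A + B)) (by omega)

/-! ## monotonicity -/

theorem k8c_slopes_mono {H : K7bHor} {c : K7bPar} {K K' : ℝ} {E E' : Set (H.Lam × ℝ)} (hc : c.WF) (h : H.Slopes c K E) (hK : K ≤ K')
    (hE : E' ⊆ E) : H.Slopes c K' E' := by
  intro s hs z hz
  obtain ⟨h1, h2, h3⟩ := h s hs z (hE hz)
  have hN : 0 < c.N := lt_of_lt_of_le one_pos hc.N1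
  have ha : 0 < c.a s := Real.rpow_pos_of_pos hN _
  have hh : 0 < c.h s := Real.rpow_pos_of_pos hN _
  have p1 : 0 ≤ 1 + c.a s / c.h s := by positivity
  have p2 : 0 ≤ 1 + c.a s / c.h s ^ 2 := by positivity
  exact ⟨h1.trans (mul_le_mul_of_nonneg_right hK p1), h2.trans (mul_le_mul_of_nonneg_right hK p1),
    h3.trans (mul_le_mul_of_nonneg_right hK p2)⟩

theorem k8c_dlist_mono {H : K7bHor} {c : K7bPar} {s m K K' : ℝ} {E E' : Set (H.Lam × ℝ)} (h : K8cDList H c s m K E) (hK : K ≤ K')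
    (hE : E' ⊆ E) : K8cDList H c s m K' E' := fun q P b S hS =>
  (h q P b S fun y hy => by
    obtain ⟨z, hz, hr⟩ := hS y hy
    exact ⟨z, hE hz, hr⟩).trans hK

theorem k8c_rowok_mono {H : K7bHor} {c : K7bPar} {s s3 K K' : ℝ} {E E' : Set (H.Lam × ℝ)} (hc : c.WF) (h : K8cRowOk H c s s3 K E)
    (hK : K ≤ K') (hE : E' ⊆ E) : K8cRowOk H c s s3 K' E' := by
  intro z hz
  obtain ⟨h1, h2, h3⟩ := h z (hE hz)
  have hN : 0 < c.N := lt_of_lt_of_le one_pos hc.N1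
  have ha : 0 < c.a s := Real.rpow_pos_of_pos hN _
  exact ⟨h1.trans (mul_le_mul_of_nonneg_right hK ha.le), h2.trans hK, h3.trans hK⟩

theorem k8c_rbins_mono {H : K7bHor} {c : K7bPar} {s s3 m K K' : ℝ} {E E' : Set (H.Lam × ℝ)} (h : K8cRBins H c s s3 m K E) (hK : K ≤ K')
    (hE : E' ⊆ E) : K8cRBins H c s s3 m K' E' := fun q P S hS =>
  (h q P S fun y hy => by
    obtain ⟨z, hz, hr⟩ := hS y hy
    exact ⟨z, hE hz, hr⟩).trans hK

theorem k8c_prim_mono {H : K7bHor} {c : K7bPar} {s K K' : ℝ} {Fq : H.Q → ℝ × ℝ × ℝ × ℝ} {E E' : Set (H.Lam × ℝ)} (hc : c.WF)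
    (h : K8cPrim H c s K Fq E) (hK : K ≤ K') (hE : E' ⊆ E) : K8cPrim H c s K' Fq E' := by
  intro z hz
  obtain ⟨h1, h2, h3, h4⟩ := h z (hE hz)
  have hN : 0 < c.N := lt_of_lt_of_le one_pos hc.N1
  have ha : 0 < c.a s := Real.rpow_pos_of_pos hN _
  have hh : 0 < c.h s := Real.rpow_pos_of_pos hN _
  have hd : K / c.h s ≤ K' / c.h s := div_le_div_of_nonneg_right hK hh.le
  exact ⟨h1.trans (mul_le_mul_of_nonneg_right hK ha.le), h2.trans hd, h3.trans hd, h4.trans hd⟩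

theorem k8c_upper_mono {H : K7bHor} {s a' ω U U' : ℝ} {Fq : H.Q → ℝ × ℝ × ℝ × ℝ} {E E' : Set (H.Lam × ℝ)} (h : K8cUpper H s a' ω U Fq E)
    (hU : U ≤ U') (hE : E' ⊆ E) : K8cUpper H s a' ω U' Fq E' := fun q S hS =>
  (h q S fun y hy => by
    obtain ⟨z, hz, hr⟩ := hS y hy
    exact ⟨z, hE hz, hr⟩).trans hU

theorem k8c_cond_mono {H : K7bHor} {c : K7bPar} {S' : Type*} {st : H.Lam × ℝ → S'} {K K' : ℝ} {E : Set (H.Lam × ℝ)}
    (h : K8cCond H c st K E) (hK : K ≤ K') : K8cCond H c st K' E :=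
  ⟨fun s0 i => (h.cond s0 i).trans (mul_le_mul' (mul_le_mul' (ENNReal.ofReal_le_ofReal hK) le_rfl) le_rfl), h.pos⟩

theorem k8c_cnt_mono {H : K7bHor} {c : K7bPar} {s D η K K' : ℝ} {E : Set (H.Lam × ℝ)} (hc : c.WF) (h : H.Cnt c s D η K E) (hK : K ≤ K') :
    H.Cnt c s D η K' E := by
  have hN : 0 < c.N := lt_of_lt_of_le one_pos hc.N1
  have ha : 0 < c.a s := Real.rpow_pos_of_pos hN _
  have hO : ENNReal.ofReal K ≤ ENNReal.ofReal K' := ENNReal.ofReal_le_ofReal hK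
  refine ⟨h.gpos, fun z hz => (h.gfl z hz).trans (mul_le_mul' hO le_rfl), fun g S hS => (h.supp g S hS).trans ?_,
    fun g S hS => (h.bins g S hS).trans ?_, fun z hz => (h.bfl z hz).trans (mul_le_mul' hO le_rfl),
    fun z hz => (h.tfl z hz).trans (mul_le_mul' hO le_rfl), fun g σ x S hS => (h.list g σ x S hS).trans hK⟩
  · exact mul_le_mul_of_nonneg_right hK (Real.rpow_nonneg ha.le _)
  · exact mul_le_mul_of_nonneg_right hK (Real.rpow_nonneg ha.le _)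

/-- `Re6Fit` is monotone in its slack -/
theorem k8c_re6fit_mono {Λ : Type*} [MeasurableSpace Λ] {ξ E K K' S : ℝ} {P : Measure Λ} {Z0 vel cst : Λ → ℝ} {T : Λ × ℝ → ℝ × ℝ}
    {W : Set (Λ × ℝ)} {μ : Measure (Λ × ℝ)} {pal : Measure ℝ} (h : Re6Fit ξ E K S P Z0 vel cst T W μ pal) (hK0 : 0 < K) (hK : K ≤ K')
    (hξ : 0 ≤ ξ) (hE : 0 ≤ E) : Re6Fit ξ E K' S P Z0 vel cst T W μ pal where
  hP := h.hP
  hZ0m := h.hZ0m
  hvelm := h.hvelm
  hTm := h.hTm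
  hWm := h.hWm
  hdom := h.hdom.trans (by
    intro A
    simp only [Measure.smul_apply, smul_eq_mul]
    exact mul_le_mul' (ENNReal.ofReal_le_ofReal hK) le_rfl)
  hW := h.hW
  hmass := le_trans (ENNReal.ofReal_le_ofReal (one_div_le_one_div_of_le hK0 hK)) h.hmass
  hWt := h.hWt
  hbd := fun ω hω => ⟨(h.hbd ω hω).1.trans hK, (h.hbd ω hω).2.trans hK⟩
  hpal1 := h.hpal1
  hpal := fun a b h1 h2 => (h.hpal a b h1 h2).trans (ENNReal.ofReal_le_ofReal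
    (mul_le_mul_of_nonneg_right hK (Real.rpow_nonneg (hξ.trans h1) _)))
  hcap := fun q k => (h.hcap q k).trans (mul_le_mul' (ENNReal.ofReal_le_ofReal (mul_le_mul_of_nonneg_right hK (by positivity))) le_rfl)
  hT := fun ω hω => ⟨(h.hT ω hω).1.trans hK, (h.hT ω hω).2.trans hK⟩
  hbins := fun q => by
    obtain ⟨bins, h1, h2⟩ := h.hbins q
    exact ⟨bins, h1.trans hK, h2⟩
  hrow := fun ω hω => (h.hrow ω hω).trans (mul_le_mul_of_nonneg_right hK hE)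

/-- the fit hypothesis is antitone in the input slack -/
theorem k8c_fithyp_anti {S m E K K' Kf : ℝ} (h : K8cFitHyp S m E K' Kf) (hK0 : 0 < K) (hK : K ≤ K') (hm : 0 ≤ m) (hE : 0 ≤ E) :
    K8cFitHyp S m E K Kf := fun Λ _ P Z0 vel cst T W μ pal hd => h Λ P Z0 vel cst T W μ pal (k8c_re6fit_mono hd hK0 hK hm hE)

end Claimed.Agent.R252

end PkS8cH9Mono

section PkS8cH0Cond

/-!
# Row 252, S8c, leaves L-252-S8c-H0a (`k8c_ok_mono`), L-252-S8c-H0b (`k8c_cond`)      CONTRACT: sorries.      (architect helper54)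
PAPER-FREE.  Read `S7b/HorDefs.lean` (record `K7bHor`, predicate `Ok`), `State/KsState.lean` (definitions), `State/KsStateC.lean` (countable rules `ksc_*`, all proved), `S8c/HDefs.lean` (`K8cCond`).

`k8c_ok_mono` : every field of `Ok` is monotone in the slack (`ks_dom_mono` for `ehdom`; `k7bBox` is monotone in the enlargement because `c.h s ≥ 0`; `c.h s / K' ≤ c.h s / K`).

`k8c_cond` = THE STATE LEMMA OF THE HORIZONTAL RECORD (04 `a03:finite-state-conditioning`, 07 `a06:summable-pruning`): append to the end history a datum `d` with `≤ n` options per history (on `E`), pass to ANY coarser state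
`st = Cf (eh, d)`; after a deletion of mass `≤ ε` the velocity bins have the conditional ceiling `(4 n K³ / ε²) pal` given `st`, and no state is null.
THE DATUM IS ONLY MEASURABLE ON `E` (`hd`): work with `d' z = if z ∈ E then some (d z) else none : Option D` (`KsLab d'`), `Cf' : Eh × Option D → Option S'`, and translate back (`Measure.restrict_apply'` holds for all sets).
PLAN.  `μ = lam.restrict E`.   `KsDom μ eh vT pal Ref K` (`ehdom` + `ks_dom_mono`, `μ ≤ lam.restrict Sp`).   `KsOpt μ eh d n` from `hopt` (the other entries are empty in `E`).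
`K₁ = ofReal (2 n K / ε)`, `ksc_step` : `μ₁ = ksApp μ eh d Ref K₁ = lam.restrict (E ∩ keep₁)`, ceiling `K K₁` against `ksMass μ st`, loss `K₁ μ(del) ≤ n ∑ Ref ≤ n K` (`refsum`; `tsum_fintype`).
`K₂ = ofReal (2 K / ε)`, `ksc_prune_cond`, `ksc_prune_loss` with the reference weights `ksMass μ st` : `∑' = μ univ = lam E ≤ K` (`dom`, `νle`, `k7bTime univ = 1`).
Finally delete the null states (countably many null sets, the masses of the other states do not change).   `n = 0` : `E = ∅`.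
-/

set_option autoImplicit false

namespace Claimed.Agent.R252

open MeasureTheory
open scoped ENNReal BigOperators

theorem k8c_ok_mono {H : K7bHor} {c : K7bPar} {K K' : ℝ} (hc : c.WF) (h : H.Ok c K) (hK0 : 0 < K) (hK : K ≤ K') : H.Ok c K' := by
  have hN0 : 0 < c.N := lt_of_lt_of_le one_pos hc.N1
  have ha : ∀ s, 0 ≤ c.a s := fun s => (Real.rpow_pos_of_pos hN0 _).le
  have hh : ∀ s, 0 ≤ c.h s := fun s => (Real.rpow_pos_of_pos hN0 _).le
  have hKe : ENNReal.ofReal K ≤ ENNReal.ofReal K' := ENNReal.ofReal_le_ofReal hK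
  have hK'0 : 0 < K' := hK0.trans_le hK
  exact
  { mp := h.mp
    mv := h.mv
    mq0 := h.mq0
    my1 := h.my1
    mx0 := h.mx0
    mx1 := h.mx1
    mSp := h.mSp
    meh := h.meh
    mlab := h.mlab
    ment := h.ment
    masg := h.masg
    νle := h.νle
    νprob := h.νprob
    palle := h.palle
    dom := Measure.le_iff'.2 fun s => (h.dom s).trans (by
      simp only [Measure.smul_apply, smul_eq_mul]
      gcongr)
    lamres := h.lamres
    time := h.time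
    bdd := fun z hz => ⟨((h.bdd z hz).1).trans hK, ((h.bdd z hz).2.1).trans hK, ((h.bdd z hz).2.2.1).trans hK, ((h.bdd z hz).2.2.2).trans hK⟩
    bddx := fun z hz => ⟨((h.bddx z hz).1).trans hK, ((h.bddx z hz).2).trans hK⟩
    heq := h.heq
    palcap := fun x r h1 h2 => (h.palcap x r h1 h2).trans (ENNReal.ofReal_le_ofReal
      (mul_le_mul_of_nonneg_right hK (Real.rpow_nonneg (hc.χ0.le.trans h1) _)))
    ehdom := ks_dom_mono h.ehdom le_rfl (fun _ _ => le_rfl) (fun _ => le_rfl) hKe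
    refsum := h.refsum.trans hKe
    refQ := fun s hs q hq F hF => (h.refQ s hs q hq F hF).trans (mul_le_mul' hKe le_rfl)
    capJ := fun C x r b h1 h2 => (h.capJ C x r b h1 h2).trans (mul_le_mul' (ENNReal.ofReal_le_ofReal (by
      have h3 : 0 ≤ r ^ c.d := Real.rpow_nonneg (hc.ϱ0.le.trans h1) _
      have h4 : 0 ≤ c.ξ ^ 3 := pow_nonneg hc.ξ0.le 3
      exact mul_le_mul_of_nonneg_right (mul_le_mul_of_nonneg_right hK h4) h3)) le_rfl)
    capP := fun C f r h1 h2 h3 h4 => (h.capP C f r h1 h2 h3 h4).trans (mul_le_mul' (ENNReal.ofReal_le_ofReal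
      (mul_le_mul_of_nonneg_right hK (Real.rpow_nonneg (hc.ϱ0.le.trans h3) _))) le_rfl)
    capQ := fun s hs q hq C hC => (h.capQ s hs q hq C hC).trans (mul_le_mul' (ENNReal.ofReal_le_ofReal
      (mul_le_mul_of_nonneg_right hK (Real.rpow_nonneg (ha s) _))) le_rfl)
    ehlab := h.ehlab
    ehpt := fun e => by
      obtain ⟨L, h1, h2⟩ := h.ehpt e
      exact ⟨L, h1.trans hK, h2⟩
    labmem := h.labmem
    bllen := fun s hs q hq => ⟨(div_le_div_of_nonneg_left (hh s) hK0 hK).trans (h.bllen s hs q hq).1,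
      (h.bllen s hs q hq).2.trans (mul_le_mul_of_nonneg_right hK (hh s))⟩
    blkdisj := h.blkdisj
    dyad := h.dyad
    asgdisj := h.asgdisj
    νQ := fun s hs q hq => by
      have h3 : 0 ≤ c.a s ^ c.d * c.h s ^ 3 := mul_nonneg (Real.rpow_nonneg (ha s) _) (pow_nonneg (hh s) 3)
      refine ⟨(ENNReal.ofReal_le_ofReal (div_le_div_of_nonneg_left h3 hK0 hK)).trans (h.νQ s hs q hq).1,
        (h.νQ s hs q hq).2.trans (ENNReal.ofReal_le_ofReal ?_)⟩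
      rw [mul_assoc, mul_assoc]
      exact mul_le_mul_of_nonneg_right hK h3
    budget := h.budget
    box := fun s hs q hq l hl t ht => by
      obtain ⟨b1, b2, b3⟩ := h.box s hs q hq l hl t ht
      exact ⟨b1.trans (mul_le_mul_of_nonneg_right hK (hh s)), b2.trans (mul_le_mul_of_nonneg_right hK (hh s)),
        b3.trans (mul_le_mul_of_nonneg_right hK (pow_nonneg (hh s) 2))⟩
    nest := h.nest
    anc := h.anc
    entcard := fun q => (h.entcard q).trans hK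
    entmem := h.entmem
    entfit := fun s hs z hz t ht => (h.entfit s hs z hz t ht).trans (mul_le_mul_of_nonneg_right hK (ha s)) }

theorem k8c_cond_abs {Ω Eh D S' ι : Type} [MeasurableSpace Ω] [Countable Eh] [Countable D] [Countable S'] (lam : Measure Ω) {E : Set Ω}
    (hm : MeasurableSet E) (eh : Ω → Eh) (heh : KsLab eh) (T : ι → Set Ω) (π : ι → ℝ≥0∞) (Ref : Eh → ℝ≥0∞) (K0 : ℝ≥0∞)
    (hdom : KsDom (lam.restrict E) eh T (fun _ b => π b) Ref K0) (d : Ω → D) (hd : ∀ d0, MeasurableSet (E ∩ d ⁻¹' {d0})) (n : ℕ)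
    (hopt : ∀ e, ∃ L : Finset D, L.card ≤ n ∧ ∀ z ∈ E, eh z = e → d z ∈ L) (Cf : Eh × D → S') (K1 K2 : ℝ≥0∞) :
    ∃ E' ⊆ E, MeasurableSet E' ∧ (∃ x1 x2 : ℝ≥0∞, lam (E \ E') ≤ x1 + x2 ∧ K1 * x1 ≤ n * ∑' e, Ref e ∧ K2 * x2 ≤ lam E) ∧
      KsCond (lam.restrict E') (fun z => Cf (eh z, d z)) T (fun _ b => π b) (K0 * K1 * K2) ∧
      ∀ z ∈ E', lam (E' ∩ {z' | Cf (eh z', d z') = Cf (eh z, d z)}) ≠ 0 := by
  classical
  obtain ⟨d', hd'⟩ : ∃ d' : Ω → Option D, d' = fun z => if z ∈ E then some (d z) else none := ⟨_, rfl⟩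
  have hd'E : ∀ z ∈ E, d' z = some (d z) := fun z hz => by rw [hd']; exact if_pos hz
  have hd'N : ∀ z, z ∉ E → d' z = none := fun z hz => by rw [hd']; exact if_neg hz
  have hlabd : KsLab d' := by
    intro o
    cases o with
    | none =>
      have : d' ⁻¹' {none} = Eᶜ := by
        ext z
        by_cases hz : z ∈ E
        · simp [hd'E z hz, hz]
        · simp [hd'N z hz, hz]
      rw [this]
      exact hm.compl
    | some d0 =>
      have : d' ⁻¹' {some d0} = E ∩ d ⁻¹' {d0} := by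
        ext z
        by_cases hz : z ∈ E
        · simp [hd'E z hz, hz]
        · simp [hd'N z hz, hz]
      rw [this]
      exact hd d0
  obtain ⟨Cf', hCf'⟩ : ∃ Cf' : Eh × Option D → Option S', Cf' = fun x => x.2.map (fun d0 => Cf (x.1, d0)) := ⟨_, rfl⟩
  obtain ⟨st', hst'⟩ : ∃ st' : Ω → Option S', st' = Cf' ∘ ksPair eh d' := ⟨_, rfl⟩
  have hst'E : ∀ z ∈ E, st' z = some (Cf (eh z, d z)) := by
    intro z hz
    rw [hst', hCf']
    simp [ksPair, hd'E z hz]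
  have hlabp : KsLab (ksPair eh d') := ks_lab_pair heh hlabd
  have hlabst : KsLab st' := hst' ▸ ksc_lab_comp hlabp Cf'
  have hoptμ : KsOpt (lam.restrict E) eh d' n := by
    intro e
    obtain ⟨L, hL, hL2⟩ := hopt e
    refine ⟨L.image some, (Finset.card_image_le).trans hL, fun o ho => ?_⟩
    unfold ksMass
    rw [Measure.restrict_apply' hm]
    have : ksPair eh d' ⁻¹' {(e, o)} ∩ E = ∅ := by
      ext z
      simp only [Set.mem_inter_iff, Set.mem_preimage, Set.mem_singleton_iff, ksPair, Prod.mk.injEq, Set.mem_empty_iff_false, iff_false]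
      rintro ⟨⟨h1, h2⟩, hz⟩
      rw [hd'E z hz] at h2
      exact ho (h2 ▸ Finset.mem_image_of_mem _ (hL2 z hz h1))
    rw [this, measure_empty]
  obtain ⟨h1a, h1b⟩ := ksc_step heh hlabd hdom K1 n hoptμ Cf' (fun _ b => π b) (fun _ _ => le_rfl)
  rw [← hst'] at h1a
  obtain ⟨A1, hA1⟩ : ∃ A1, A1 = ksPair eh d' ⁻¹' ksKeep (lam.restrict E) (ksPair eh d') (fun x => Ref x.1) K1 := ⟨_, rfl⟩
  have hA1m : MeasurableSet A1 := hA1 ▸ ksc_lab_preimage hlabp _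
  have hμ1 : ksApp (lam.restrict E) eh d' Ref K1 = lam.restrict (A1 ∩ E) := by
    unfold ksApp ksPrune
    rw [← hA1, Measure.restrict_restrict hA1m]
  rw [hμ1] at h1a
  have h2 := ksc_prune_cond hlabst h1a K2
  have h2l := ksc_prune_loss (lam.restrict (A1 ∩ E)) hlabst (ksMass (lam.restrict E) st') K2
  rw [ksc_mass_sum _ hlabst, Measure.restrict_apply_univ] at h2l
  obtain ⟨A2, hA2⟩ : ∃ A2, A2 = st' ⁻¹' ksKeep (lam.restrict (A1 ∩ E)) st' (ksMass (lam.restrict E) st') K2 := ⟨_, rfl⟩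
  have hA2m : MeasurableSet A2 := hA2 ▸ ksc_lab_preimage hlabst _
  have hμ2 : ksPrune (lam.restrict (A1 ∩ E)) st' (ksMass (lam.restrict E) st') K2 = lam.restrict (A2 ∩ (A1 ∩ E)) := by
    unfold ksPrune
    rw [← hA2, Measure.restrict_restrict hA2m]
  rw [hμ2] at h2
  rw [Set.preimage_compl, ← hA2] at h2l
  rw [Set.preimage_compl, ← hA1] at h1b
  obtain ⟨A3, hA3⟩ : ∃ A3, A3 = st' ⁻¹' {s0 | ksMass (lam.restrict (A2 ∩ (A1 ∩ E))) st' s0 ≠ 0} := ⟨_, rfl⟩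
  have hA3m : MeasurableSet A3 := hA3 ▸ ksc_lab_preimage hlabst _
  have hA3n : lam.restrict (A2 ∩ (A1 ∩ E)) A3ᶜ = 0 := by
    have : A3ᶜ = st' ⁻¹' {s0 | ksMass (lam.restrict (A2 ∩ (A1 ∩ E))) st' s0 = 0} := by
      rw [hA3, ← Set.preimage_compl]
      congr 1
      ext s0
      simp
    rw [this, ksc_mass_preimage _ hlabst]
    exact ENNReal.tsum_eq_zero.2 fun s0 => s0.2
  have hμ3 : lam.restrict (A3 ∩ (A2 ∩ (A1 ∩ E))) = lam.restrict (A2 ∩ (A1 ∩ E)) := by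
    rw [← Measure.restrict_restrict hA3m]
    exact Measure.restrict_eq_self_of_ae_mem (mem_ae_iff.2 hA3n)
  have hE'm : MeasurableSet (A3 ∩ (A2 ∩ (A1 ∩ E))) := hA3m.inter (hA2m.inter (hA1m.inter hm))
  have hE'E : A3 ∩ (A2 ∩ (A1 ∩ E)) ⊆ E := fun z hz => hz.2.2.2
  -- translation between the states
  have htr : ∀ (s0 : S') (X : Set Ω), lam.restrict (A3 ∩ (A2 ∩ (A1 ∩ E))) ((fun z => Cf (eh z, d z)) ⁻¹' {s0} ∩ X)
      = lam.restrict (A2 ∩ (A1 ∩ E)) (st' ⁻¹' {some s0} ∩ X) := by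
    intro s0 X
    rw [← hμ3, Measure.restrict_apply' hE'm, Measure.restrict_apply' hE'm]
    congr 1
    ext z
    simp only [Set.mem_inter_iff, Set.mem_preimage, Set.mem_singleton_iff]
    constructor
    · rintro ⟨⟨h1, h2⟩, h3⟩
      exact ⟨⟨by rw [hst'E z (hE'E h3), h1], h2⟩, h3⟩
    · rintro ⟨⟨h1, h2⟩, h3⟩
      rw [hst'E z (hE'E h3)] at h1
      exact ⟨⟨Option.some.inj h1, h2⟩, h3⟩
  refine ⟨A3 ∩ (A2 ∩ (A1 ∩ E)), hE'E, hE'm, ⟨lam.restrict E A1ᶜ, lam.restrict (A1 ∩ E) A2ᶜ, ?_, h1b, h2l⟩, ?_, ?_⟩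
  · have hsub : E \ (A3 ∩ (A2 ∩ (A1 ∩ E))) ⊆ (A1ᶜ ∩ E) ∪ (A2ᶜ ∩ (A1 ∩ E)) ∪ (A3ᶜ ∩ (A2 ∩ (A1 ∩ E))) := by
      intro z hz
      by_cases h1 : z ∈ A1
      · by_cases h2 : z ∈ A2
        · by_cases h3 : z ∈ A3
          · exact absurd ⟨h3, h2, h1, hz.1⟩ hz.2
          · exact Or.inr ⟨h3, h2, h1, hz.1⟩
        · exact Or.inl (Or.inr ⟨h2, h1, hz.1⟩)
      · exact Or.inl (Or.inl ⟨h1, hz.1⟩)
    rw [Measure.restrict_apply' (hA2m.inter (hA1m.inter hm))] at hA3n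
    rw [Measure.restrict_apply' hm, Measure.restrict_apply' (hA1m.inter hm)]
    calc lam (E \ (A3 ∩ (A2 ∩ (A1 ∩ E)))) ≤ lam ((A1ᶜ ∩ E) ∪ (A2ᶜ ∩ (A1 ∩ E)) ∪ (A3ᶜ ∩ (A2 ∩ (A1 ∩ E)))) := measure_mono hsub
      _ ≤ lam ((A1ᶜ ∩ E) ∪ (A2ᶜ ∩ (A1 ∩ E))) + lam (A3ᶜ ∩ (A2 ∩ (A1 ∩ E))) := measure_union_le _ _
      _ ≤ lam (A1ᶜ ∩ E) + lam (A2ᶜ ∩ (A1 ∩ E)) + 0 := by
          rw [hA3n]
          exact add_le_add_left (measure_union_le _ _) _
      _ = _ := add_zero _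
  · intro s0 b
    have e1 := htr s0 (T b)
    have e2 := htr s0 Set.univ
    rw [Set.inter_univ, Set.inter_univ] at e2
    unfold ksMass
    rw [e1, e2]
    exact h2 (some s0) b
  · intro z hz
    have e2 := htr (Cf (eh z, d z)) Set.univ
    rw [Set.inter_univ, Set.inter_univ, Measure.restrict_apply' hE'm] at e2
    have e3 : (A3 ∩ (A2 ∩ (A1 ∩ E))) ∩ {z' | Cf (eh z', d z') = Cf (eh z, d z)}
        = (fun z => Cf (eh z, d z)) ⁻¹' {Cf (eh z, d z)} ∩ (A3 ∩ (A2 ∩ (A1 ∩ E))) := by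
      rw [Set.inter_comm]
      rfl
    rw [e3, e2, ← hst'E z (hE'E hz)]
    have h3 : z ∈ A3 := hz.1
    rw [hA3] at h3
    exact h3

theorem k8c_cancel {a b : ℝ} (ha : 0 < a) {x : ℝ≥0∞} (h : ENNReal.ofReal a * x ≤ ENNReal.ofReal (a * b)) : x ≤ ENNReal.ofReal b := by
  rw [ENNReal.ofReal_mul ha.le] at h
  exact (ENNReal.mul_le_mul_iff_right (by simpa using ha) ENNReal.ofReal_ne_top).1 h

theorem k8c_lam_le (c : K7bPar) (H : K7bHor) {K : ℝ} (h : H.Ok c K) (E : Set (H.Lam × ℝ)) : H.lam E ≤ ENNReal.ofReal K := by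
  have hs : SFinite k7bTime := by unfold k7bTime; infer_instance
  have ht : k7bTime Set.univ = 1 := by
    unfold k7bTime
    rw [Measure.restrict_apply_univ, Real.volume_Icc]
    norm_num
  calc H.lam E ≤ (ENNReal.ofReal K • H.ν.prod k7bTime) E := h.dom E
    _ = ENNReal.ofReal K * (H.ν.prod k7bTime) E := by rw [Measure.smul_apply, smul_eq_mul]
    _ ≤ ENNReal.ofReal K * (H.ν.prod k7bTime) Set.univ := by gcongr; exact Set.subset_univ _
    _ = ENNReal.ofReal K * (H.ν Set.univ * k7bTime Set.univ) := by rw [← Set.univ_prod_univ, Measure.prod_prod]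
    _ = ENNReal.ofReal K := by rw [h.νprob, ht, mul_one, mul_one]

theorem k8c_cond (c : K7bPar) (H : K7bHor) {K ε : ℝ} (n : ℕ) (hK : 1 ≤ K) (hε : 0 < ε) (h : H.Ok c K) {E : Set (H.Lam × ℝ)}
    (hE : E ⊆ H.Sp) (hm : MeasurableSet E) {D S' : Type} [Countable D] [Countable S'] (d : H.Lam × ℝ → D) (hd : ∀ d0, MeasurableSet (E ∩ d ⁻¹' {d0}))
    (hopt : ∀ e, ∃ L : Finset D, L.card ≤ n ∧ ∀ z ∈ E, H.eh z = e → d z ∈ L) (Cf : H.Eh × D → S') :
    ∃ E' ⊆ E, MeasurableSet E' ∧ H.lam (E \ E') ≤ ENNReal.ofReal ε ∧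
      K8cCond H c (fun z => Cf (H.eh z, d z)) (4 * n * K ^ 3 / ε ^ 2) E' := by
  have hK0 : 0 < K := by linarith
  rcases Nat.eq_zero_or_pos n with hn | hn
  · subst hn
    have hE0 : E = ∅ := by
      ext z
      simp only [Set.mem_empty_iff_false, iff_false]
      intro hz
      obtain ⟨L, hL, hL2⟩ := hopt (H.eh z)
      have h1 := hL2 z hz rfl
      have hL0 : L = ∅ := Finset.card_eq_zero.1 (Nat.le_zero.1 hL)
      rw [hL0] at h1
      exact absurd h1 (Finset.notMem_empty _)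
    refine ⟨∅, Set.empty_subset _, MeasurableSet.empty, ?_, ⟨?_, ?_⟩⟩
    · rw [hE0]; simp
    · intro s0 b; simp
    · intro z hz; exact absurd hz (Set.notMem_empty z)
  have hn' : (0 : ℝ) < n := by exact_mod_cast hn
  have hdom : KsDom (H.lam.restrict E) H.eh (H.vT c.χ) (fun _ b => H.pal (k7bIv c.χ b)) H.Ref (ENNReal.ofReal K) :=
    ks_dom_mono h.ehdom (Measure.restrict_mono hE le_rfl) (fun _ _ => le_rfl) (fun _ => le_rfl) le_rfl
  obtain ⟨E', hE'E, hE'm, ⟨x1, x2, hl, hx1, hx2⟩, hcond, hpos⟩ := k8c_cond_abs H.lam hm H.eh h.meh (H.vT c.χ)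
    (fun b => H.pal (k7bIv c.χ b)) H.Ref (ENNReal.ofReal K) hdom d hd n hopt Cf (ENNReal.ofReal (2 * n * K / ε)) (ENNReal.ofReal (2 * K / ε))
  refine ⟨E', hE'E, hE'm, ?_, ⟨?_, hpos⟩⟩
  · have h1 : x1 ≤ ENNReal.ofReal (ε / 2) := by
      refine k8c_cancel (a := 2 * n * K / ε) (by positivity) (hx1.trans ?_)
      rw [tsum_fintype]
      calc (n : ℝ≥0∞) * ∑ e, H.Ref e ≤ n * ENNReal.ofReal K := by gcongr; exact h.refsum
        _ = ENNReal.ofReal (n * K) := by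
            rw [ENNReal.ofReal_mul hn'.le, ENNReal.ofReal_natCast]
        _ = _ := by
            congr 1
            field_simp
    have h2 : x2 ≤ ENNReal.ofReal (ε / 2) := by
      refine k8c_cancel (a := 2 * K / ε) (by positivity) (hx2.trans ((k8c_lam_le c H h E).trans (le_of_eq ?_)))
      congr 1
      field_simp
    calc _ ≤ x1 + x2 := hl
      _ ≤ ENNReal.ofReal (ε / 2) + ENNReal.ofReal (ε / 2) := add_le_add h1 h2
      _ = ENNReal.ofReal ε := by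
          rw [← ENNReal.ofReal_add (by positivity) (by positivity)]
          congr 1
          ring
  · have e : ENNReal.ofReal K * ENNReal.ofReal (2 * n * K / ε) * ENNReal.ofReal (2 * K / ε) = ENNReal.ofReal (4 * n * K ^ 3 / ε ^ 2) := by
      rw [← ENNReal.ofReal_mul (by positivity), ← ENNReal.ofReal_mul (by positivity)]
      congr 1
      field_simp
      ring
    rw [← e]
    exact hcond

end Claimed.Agent.R252

end PkS8cH0Cond

section PkS8cH1Dlist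

/-!
# Row 252, S8c, leaves L-252-S8c-H1 (`k8c_dlist`), L-252-S8c-H2 (`k8c_row`)      CONTRACT: sorries.      08 l.108-117      (architect helper54)
PAPER-FREE.  Read `S7b/HorDefs.lean`, `S7b/HorGrp.lean`, `S7b/HorCnt.lean` (`Cnt.list`), `S8c/HDefs.lean`.      `a = c.a s`, `h = c.h s`; `k = 1/2` gives `h² = a` (`Real.rpow` rules), likewise `h_{3s}² = a_{3s}`; `N ≥ 1`.

`k8c_dlist`.  Let `z, z' ∈ E` have the same label `q`, position cell `P` (block coordinates, mesh `m`) and velocity bin `b` (mesh `χ`).   `bl q ≤ K h` (`bllen`, `labmem`).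
(1) `|t - t'|, |Z - Z'| ≤ m bl q ≤ K h m`, `|v - v'| ≤ χ`;  `p = Z - t v` : `|p - p'| ≤ (1 + K) K h m + χ ≤ a` : `≤ 2` bins of mesh `D = a`.
(2) `|ct q| ≤ 1 + K h`, `|cZ q| ≤ 2K + K h` (`box` at `z`, `time`, `bdd`).   `box` : `|Y - cY - (-cZ (t - ct) + ct (Z - cZ))| ≤ K h²`, so `|Y - Y'| ≤ 2 K a + 4 K · K h m`.
    `q0 = Y - t y1`, `|y1 + p| ≤ N^(-e₀)` (`heq`) : `|q0 - q0'| ≤ (2K + 2) a` : `≤ 2K + 4` bins.      So `≤ 2 (2K + 4)` groups `H.grp χ a`.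
(3) `|t - t'| ≤ K h m ≤ η` : `≤ 2` time subbins.
(4) `entOf s z ∈ ent q` (`≤ K` entries).   Same entry `L = (c₀, α₁, α₂, γ)` : `α₁ Δt + α₂ ΔZ + γ ΔY = (α₁ - γ Z) Δt + (α₂ + γ t) ΔZ + γ (ΔY + Z Δt - t ΔZ)`, `Slopes` at `z` (`a / h ≤ 1`, `a / h² = 1`) : `≤ 2K` each;
    with `entfit` : `|X z - X z'| ≤ C K² a` : `≤ C K²` bins `x_a` per entry.
(5) `Cnt.list` : `≤ K` coefficient bins for every (group, time subbin, `x_a`); the second coordinate of `H.cf a l` is the bin of `x1`.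
To count: map `S` into the finite product of the option lists (or bound `S.card` by a `Finset.card_le_card_of_surjOn` / `card_biUnion_le` argument).

`k8c_row`.  `L = entOf (3s) z = (c₀, α₁, α₂, γ)`, `q₃ = lab (3s) z`.   `t ↦ Xt l t - k7bAff L (bs l t)` is affine with slope `σ = x1 - (α₁ + α₂ v + γ y1)`, bounded by `K a_{3s}` at `bt q₃` and `bt q₃ + bl q₃ / 2` (`entfit`):
`|σ| ≤ 4 K a_{3s} / bl q₃ ≤ 4 K² a_{3s} / h_{3s} ≤ 4 K² δ a`.    `α₁ + α₂ v + γ y1 = G₁ + v G₂ + γ (y1 + p)` with `G = k8cG H (3s) z`, `|γ| ≤ 2K`, `|y1 + p| ≤ N^(-e₀) ≤ a`.   `|G_i| ≤ K (1 + a_{3s}/h_{3s}) ≤ 2K` (`Slopes`).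
-/

set_option autoImplicit false

namespace Claimed.Agent.R252

open MeasureTheory
open scoped ENNReal BigOperators

theorem k8cd_bin_close {m x y : ℝ} (hm : 0 < m) (h : k7bBin m x = k7bBin m y) : |x - y| ≤ m := by
  unfold k7bBin at h
  have h2 := Int.abs_sub_lt_one_of_floor_eq_floor h
  rw [← sub_div, abs_div, abs_of_pos hm, div_lt_one hm] at h2
  exact h2.le

theorem k8cd_floor_close {a b : ℝ} {w : ℕ} (h : |a - b| ≤ w) : ⌊a⌋ ∈ Finset.Icc (⌊b⌋ - (w : ℤ)) (⌊b⌋ + (w : ℤ)) := by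
  rw [abs_le] at h
  rw [Finset.mem_Icc]
  constructor
  · have : ⌊b - (w : ℝ)⌋ ≤ ⌊a⌋ := Int.floor_le_floor (by linarith [h.1])
    rwa [Int.floor_sub_natCast] at this
  · have : ⌊a⌋ ≤ ⌊b + (w : ℝ)⌋ := Int.floor_le_floor (by linarith [h.2])
    rwa [Int.floor_add_natCast] at this

/-- values which are pairwise `R * mesh`-close occupy at most `2 R + 3` bins -/
theorem k8cd_bin_count {ι : Type*} (S : Finset ι) (f : ι → ℝ) (mesh R : ℝ) (hmesh : 0 < mesh) (hR : 0 ≤ R)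
    (h : ∀ i ∈ S, ∀ j ∈ S, |f i - f j| ≤ R * mesh) : ((S.image fun i => k7bBin mesh (f i)).card : ℝ) ≤ 2 * R + 3 := by
  classical
  rcases S.eq_empty_or_nonempty with rfl | ⟨i0, hi0⟩
  · simp
    linarith
  · have hsub : (S.image fun i => k7bBin mesh (f i))
        ⊆ Finset.Icc (⌊f i0 / mesh⌋ - (⌈R⌉₊ : ℤ)) (⌊f i0 / mesh⌋ + (⌈R⌉₊ : ℤ)) := by
      intro y hy
      obtain ⟨i, hi, rfl⟩ := Finset.mem_image.1 hy
      unfold k7bBin
      apply k8cd_floor_close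
      rw [← sub_div, abs_div, abs_of_pos hmesh, div_le_iff₀ hmesh]
      exact (h i hi i0 hi0).trans (mul_le_mul_of_nonneg_right (Nat.le_ceil R) hmesh.le)
    have h1 := Finset.card_le_card hsub
    rw [Int.card_Icc] at h1
    have e : (⌊f i0 / mesh⌋ + (⌈R⌉₊ : ℤ) + 1 - (⌊f i0 / mesh⌋ - (⌈R⌉₊ : ℤ))).toNat = 2 * ⌈R⌉₊ + 1 := by omega
    rw [e] at h1
    have h2 : ((S.image fun i => k7bBin mesh (f i)).card : ℝ) ≤ 2 * (⌈R⌉₊ : ℝ) + 1 := by exact_mod_cast h1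
    have h3 := (Nat.ceil_lt_add_one hR).le
    linarith

theorem k8cd_card_fib {α β : Type*} [DecidableEq β] (S : Finset α) (f : α → β) (n : ℝ)
    (hn : ∀ b ∈ S.image f, ((S.filter fun i => f i = b).card : ℝ) ≤ n) : (S.card : ℝ) ≤ n * (S.image f).card := by
  rw [Finset.card_eq_sum_card_image f S]
  push_cast
  refine (Finset.sum_le_card_nsmul _ _ n hn).trans (le_of_eq ?_)
  rw [nsmul_eq_mul, mul_comm]

theorem k8cd_card_pair {α β γ : Type*} [DecidableEq β] [DecidableEq γ] (S : Finset α) (f : α → β) (g : α → γ) :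
    ((S.image fun i => (f i, g i)).card : ℝ) ≤ (S.image f).card * (S.image g).card := by
  have hsub : (S.image fun i => (f i, g i)) ⊆ (S.image f) ×ˢ (S.image g) := by
    intro y hy
    obtain ⟨i, hi, rfl⟩ := Finset.mem_image.1 hy
    exact Finset.mem_product.2 ⟨Finset.mem_image_of_mem _ hi, Finset.mem_image_of_mem _ hi⟩
  have := Finset.card_le_card hsub
  rw [Finset.card_product] at this
  exact_mod_cast this

theorem k8cd_a_pos (c : K7bPar) (hc : c.WF) (s : ℝ) : 0 < c.a s := by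
  unfold K7bPar.a
  exact Real.rpow_pos_of_pos (lt_of_lt_of_le one_pos hc.N1) _

theorem k8cd_a_le_one (c : K7bPar) (hc : c.WF) {s : ℝ} (hs : 0 ≤ s) : c.a s ≤ 1 := by
  unfold K7bPar.a
  exact Real.rpow_le_one_of_one_le_of_nonpos hc.N1 (by linarith)

theorem k8cd_h_pos (c : K7bPar) (hc : c.WF) (s : ℝ) : 0 < c.h s := by
  unfold K7bPar.h
  exact Real.rpow_pos_of_pos (lt_of_lt_of_le one_pos hc.N1) _

theorem k8cd_h_le_one (c : K7bPar) (hc : c.WF) {s : ℝ} (hs : 0 ≤ s) : c.h s ≤ 1 := by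
  unfold K7bPar.h
  refine Real.rpow_le_one_of_one_le_of_nonpos hc.N1 ?_
  have := mul_nonneg hc.k0.le hs
  linarith

theorem k8cd_h_sq (c : K7bPar) (hc : c.WF) (hk : c.k = 1 / 2) (s : ℝ) : c.h s ^ 2 = c.a s := by
  unfold K7bPar.h K7bPar.a
  rw [← Real.rpow_natCast, ← Real.rpow_mul (le_trans zero_le_one hc.N1), hk]
  congr 1
  push_cast
  ring

/-- the elementary consequences of `K8cRel` -/
theorem k8cd_rel {c : K7bPar} {s g η m ω δ : ℝ} (h : K8cRel c s g η m ω δ) :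
    0 < c.a s ∧ c.a s ≤ 1 ∧ 0 < c.h s ∧ c.h s ≤ 1 ∧ c.h s ^ 2 = c.a s ∧ η ≤ c.a s ∧ m ≤ η ∧ c.χ ≤ c.a s ∧ c.N ^ (-c.e0) ≤ c.a s := by
  have ha0 := k8cd_a_pos c h.wf s
  have ha1 := k8cd_a_le_one c h.wf h.s0.le
  have hag0 := k8cd_a_pos c h.wf (s + g)
  have hag1 := k8cd_a_le_one c h.wf (add_pos h.s0 h.g0).le
  have hη : η ≤ c.a s := h.r_η.trans (mul_le_of_le_one_left ha0.le h.δ1)
  have hm : m ≤ η := h.r_m.trans (mul_le_of_le_one_left h.η0.le h.δ1)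
  have hω : ω ≤ 1 := by
    refine h.r_ω.trans ?_
    have : c.a (s + g) ^ 2 ≤ 1 := pow_le_one₀ hag0.le hag1
    calc δ * c.a (s + g) ^ 2 ≤ 1 * 1 := mul_le_mul h.δ1 this (by positivity) zero_le_one
      _ = 1 := one_mul 1
  have hx : δ * (ω * c.a s ^ 2) ≤ c.a s := by
    have h1 : c.a s ^ 2 ≤ c.a s := by nlinarith
    have h2 : ω * c.a s ^ 2 ≤ c.a s := by
      calc ω * c.a s ^ 2 ≤ 1 * c.a s := mul_le_mul hω h1 (by positivity) zero_le_one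
        _ = c.a s := one_mul _
    calc δ * (ω * c.a s ^ 2) ≤ 1 * c.a s := mul_le_mul h.δ1 h2 (mul_nonneg h.ω0.le (by positivity)) zero_le_one
      _ = c.a s := one_mul _
  exact ⟨ha0, ha1, k8cd_h_pos c h.wf s, k8cd_h_le_one c h.wf h.s0.le, k8cd_h_sq c h.wf h.khalf s, hη, hm, h.r_χ.trans hx, h.r_e.trans hx⟩

theorem k8cd_abs_mul {x y A B : ℝ} (hx : |x| ≤ A) (hy : |y| ≤ B) : |x * y| ≤ A * B := by
  rw [abs_mul]
  exact mul_le_mul hx hy (abs_nonneg _) ((abs_nonneg _).trans hx)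

theorem k8cd_abs3 (x y z : ℝ) : |x + y + z| ≤ |x| + |y| + |z| :=
  (abs_add_le _ _).trans (add_le_add (abs_add_le _ _) le_rfl)

/-- the elementary inequalities (1), (2) of the plan -/
theorem k8cd_real1 {K a m χ h t t' p p' v v' q0 q0' y1 y1' ct cZ cY : ℝ} (hK : 1 ≤ K) (ha0 : 0 < a) (hma : m ≤ a)
    (hχa : χ ≤ a) (hh1 : h ≤ 1) (hsq : h ^ 2 = a) (ht : |t| ≤ 1) (ht' : |t'| ≤ 1) (hp : |p| ≤ K) (hv : |v| ≤ K)
    (hy1 : |y1| ≤ K) (dt : |t - t'| ≤ K * m) (dZ : |(p + t * v) - (p' + t' * v')| ≤ K * m) (dv : |v - v'| ≤ χ)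
    (e1 : |y1 + p| ≤ a) (e2 : |y1' + p'| ≤ a) (B1 : |t - ct| ≤ K * h) (B2 : |p + t * v - cZ| ≤ K * h)
    (B3 : |q0 + t * y1 - cY - (-cZ * (t - ct) + ct * (p + t * v - cZ))| ≤ K * h ^ 2)
    (B3' : |q0' + t' * y1' - cY - (-cZ * (t' - ct) + ct * (p' + t' * v' - cZ))| ≤ K * h ^ 2) :
    |p - p'| ≤ 3 * (K ^ 2 * a) ∧ |(q0 + t * y1) - (q0' + t' * y1')| ≤ 7 * (K ^ 2 * a) ∧ |q0 - q0'| ≤ 13 * (K ^ 2 * a) := by
  have hK0 : 0 < K := by linarith
  have hKK : K ≤ K ^ 2 := by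
    have := mul_le_mul_of_nonneg_left hK hK0.le
    rw [sq]
    linarith
  have F1 : a ≤ K ^ 2 * a := le_mul_of_one_le_left ha0.le (hK.trans hKK)
  have F2 : K * a ≤ K ^ 2 * a := mul_le_mul_of_nonneg_right hKK ha0.le
  have F3 : K * m ≤ K ^ 2 * a := (mul_le_mul_of_nonneg_left hma hK0.le).trans F2
  have F4 : K ^ 2 * m ≤ K ^ 2 * a := mul_le_mul_of_nonneg_left hma (by positivity)
  have hKh : K * h ≤ K := mul_le_of_le_one_right hK0.le hh1
  have hZ : |p + t * v| ≤ 2 * K := by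
    have := k8cd_abs_mul ht hv
    calc |p + t * v| ≤ |p| + |t * v| := abs_add_le _ _
      _ ≤ 2 * K := by linarith
  have hct : |ct| ≤ 2 * K := by
    have e : ct = t - (t - ct) := by ring
    rw [e]
    calc |t - (t - ct)| ≤ |t| + |t - ct| := abs_sub _ _
      _ ≤ 2 * K := by linarith
  have hcZ : |cZ| ≤ 3 * K := by
    have e : cZ = (p + t * v) - (p + t * v - cZ) := by ring
    rw [e]
    calc |(p + t * v) - (p + t * v - cZ)| ≤ |p + t * v| + |p + t * v - cZ| := abs_sub _ _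
      _ ≤ 3 * K := by linarith
  have hdp : |p - p'| ≤ 3 * (K ^ 2 * a) := by
    have e : p - p' = ((p + t * v) - (p' + t' * v')) + (-((t - t') * v)) + (-(t' * (v - v'))) := by ring
    rw [e]
    have h1 := k8cd_abs_mul dt hv
    have h2 := k8cd_abs_mul ht' dv
    have h3 := k8cd_abs3 ((p + t * v) - (p' + t' * v')) (-((t - t') * v)) (-(t' * (v - v')))
    rw [abs_neg, abs_neg] at h3
    have e4 : K * m * K = K ^ 2 * m := by ring
    linarith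
  have hdY : |(q0 + t * y1) - (q0' + t' * y1')| ≤ 7 * (K ^ 2 * a) := by
    have e : (q0 + t * y1) - (q0' + t' * y1')
        = ((q0 + t * y1 - cY - (-cZ * (t - ct) + ct * (p + t * v - cZ)))
          - (q0' + t' * y1' - cY - (-cZ * (t' - ct) + ct * (p' + t' * v' - cZ))))
          + (-(cZ * (t - t'))) + ct * ((p + t * v) - (p' + t' * v')) := by ring
    rw [e]
    have h1 := k8cd_abs_mul hcZ dt
    have h2 := k8cd_abs_mul hct dZ
    have h3 := k8cd_abs3 ((q0 + t * y1 - cY - (-cZ * (t - ct) + ct * (p + t * v - cZ)))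
          - (q0' + t' * y1' - cY - (-cZ * (t' - ct) + ct * (p' + t' * v' - cZ)))) (-(cZ * (t - t'))) (ct * ((p + t * v) - (p' + t' * v')))
    rw [abs_neg] at h3
    have h4 := abs_sub (q0 + t * y1 - cY - (-cZ * (t - ct) + ct * (p + t * v - cZ)))
          (q0' + t' * y1' - cY - (-cZ * (t' - ct) + ct * (p' + t' * v' - cZ)))
    rw [hsq] at B3 B3'
    have e5 : 3 * K * (K * m) = 3 * (K ^ 2 * m) := by ring
    have e6 : 2 * K * (K * m) = 2 * (K ^ 2 * m) := by ring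
    linarith
  refine ⟨hdp, hdY, ?_⟩
  have hdy1 : |y1 - y1'| ≤ 5 * (K ^ 2 * a) := by
    have e : y1 - y1' = (y1 + p) + (-(y1' + p')) + (-(p - p')) := by ring
    rw [e]
    have h3 := k8cd_abs3 (y1 + p) (-(y1' + p')) (-(p - p'))
    rw [abs_neg, abs_neg] at h3
    linarith
  have e : q0 - q0' = ((q0 + t * y1) - (q0' + t' * y1')) + (-((t - t') * y1)) + (-(t' * (y1 - y1'))) := by ring
  rw [e]
  have h1 := k8cd_abs_mul dt hy1
  have h2 := k8cd_abs_mul ht' hdy1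
  have h3 := k8cd_abs3 ((q0 + t * y1) - (q0' + t' * y1')) (-((t - t') * y1)) (-(t' * (y1 - y1')))
  rw [abs_neg, abs_neg] at h3
  have e4 : K * m * K = K ^ 2 * m := by ring
  linarith

/-- the elementary inequality (4) of the plan -/
theorem k8cd_real2 {K a m t t' Z Z' Y Y' X X' L0 L1 L2 L3 : ℝ} (hK : 1 ≤ K) (ha0 : 0 < a) (hma : m ≤ a)
    (ht : |t| ≤ 1) (hZ : |Z| ≤ 2 * K) (dt : |t - t'| ≤ K * m) (dZ : |Z - Z'| ≤ K * m) (dY : |Y - Y'| ≤ 7 * (K ^ 2 * a))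
    (S1 : |L1 + L3 * -Z| ≤ 2 * K) (S2 : |L2 + L3 * t| ≤ 2 * K) (S3 : |L3| ≤ 2 * K)
    (f : |X - (L0 + L1 * t + L2 * Z + L3 * Y)| ≤ K * a) (f' : |X' - (L0 + L1 * t' + L2 * Z' + L3 * Y')| ≤ K * a) :
    |X - X'| ≤ 26 * K ^ 3 * a := by
  have hK0 : 0 < K := by linarith
  have hKK : K ≤ K ^ 2 := by
    have := mul_le_mul_of_nonneg_left hK hK0.le
    rw [sq]
    linarith
  have hKK3 : K ^ 2 ≤ K ^ 3 := pow_le_pow_right₀ hK (by norm_num)
  have G1 : K * a ≤ K ^ 3 * a := mul_le_mul_of_nonneg_right (hKK.trans hKK3) ha0.le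
  have G2 : K ^ 2 * a ≤ K ^ 3 * a := mul_le_mul_of_nonneg_right hKK3 ha0.le
  have G3 : K ^ 2 * m ≤ K ^ 3 * a := (mul_le_mul_of_nonneg_left hma (by positivity)).trans G2
  have G4 : K * m ≤ K ^ 2 * a := (mul_le_mul_of_nonneg_left hma hK0.le).trans (mul_le_mul_of_nonneg_right hKK ha0.le)
  have hW : |(Y - Y') + Z * (t - t') + (-(t * (Z - Z')))| ≤ 10 * (K ^ 2 * a) := by
    have h1 := k8cd_abs_mul hZ dt
    have h2 := k8cd_abs_mul ht dZ
    have h3 := k8cd_abs3 (Y - Y') (Z * (t - t')) (-(t * (Z - Z')))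
    rw [abs_neg] at h3
    have e5 : 2 * K * (K * m) = 2 * (K ^ 2 * m) := by ring
    have G5 : K ^ 2 * m ≤ K ^ 2 * a := mul_le_mul_of_nonneg_left hma (by positivity)
    linarith
  have e : X - X' = ((X - (L0 + L1 * t + L2 * Z + L3 * Y)) + (-(X' - (L0 + L1 * t' + L2 * Z' + L3 * Y'))))
      + ((L1 + L3 * -Z) * (t - t') + (L2 + L3 * t) * (Z - Z') + L3 * ((Y - Y') + Z * (t - t') + (-(t * (Z - Z'))))) := by ring
  rw [e]
  have h1 := k8cd_abs_mul S1 dt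
  have h2 := k8cd_abs_mul S2 dZ
  have h3 := k8cd_abs_mul S3 hW
  have h4 := k8cd_abs3 ((L1 + L3 * -Z) * (t - t')) ((L2 + L3 * t) * (Z - Z')) (L3 * ((Y - Y') + Z * (t - t') + (-(t * (Z - Z')))))
  have h5 := abs_add_le (X - (L0 + L1 * t + L2 * Z + L3 * Y)) (-(X' - (L0 + L1 * t' + L2 * Z' + L3 * Y')))
  rw [abs_neg] at h5
  have h6 := abs_add_le ((X - (L0 + L1 * t + L2 * Z + L3 * Y)) + (-(X' - (L0 + L1 * t' + L2 * Z' + L3 * Y'))))
      ((L1 + L3 * -Z) * (t - t') + (L2 + L3 * t) * (Z - Z') + L3 * ((Y - Y') + Z * (t - t') + (-(t * (Z - Z')))))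
  have e5 : 2 * K * (K * m) = 2 * (K ^ 2 * m) := by ring
  have e6 : 2 * K * (10 * (K ^ 2 * a)) = 20 * (K ^ 3 * a) := by ring
  have e7 : 26 * K ^ 3 * a = 26 * (K ^ 3 * a) := by ring
  linarith

/-- two incidences with the same label, position cell and velocity bin -/
theorem k8cd_pair {c : K7bPar} {H : K7bHor} {K s g η m ω δ : ℝ} {E : Set (H.Lam × ℝ)} (hrel : K8cRel c s g η m ω δ) (hK : 1 ≤ K)
    (hOk : H.Ok c K) (hE : E ⊆ H.Sp) (hSl : H.Slopes c K E) {z z' : H.Lam × ℝ} (hz : z ∈ E) (hz' : z' ∈ E)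
    (hlab : H.lab s z' = H.lab s z) (hpc : k8cPc H s m z = k8cPc H s m z')
    (hvb : k7bBin c.χ (H.v z.1) = k7bBin c.χ (H.v z'.1)) :
    |H.p z.1 - H.p z'.1| ≤ 26 * K ^ 3 * c.a s ∧ |H.q0 z.1 - H.q0 z'.1| ≤ 26 * K ^ 3 * c.a s ∧ |z.2 - z'.2| ≤ 26 * K ^ 3 * η ∧
    (H.entOf s z' = H.entOf s z → |H.X z - H.X z'| ≤ 26 * K ^ 3 * c.a s) := by
  obtain ⟨ha0, ha1, hh0, hh1, hsq, hηa, hmη, hχa, he⟩ := k8cd_rel hrel
  have hK0 : 0 < K := by linarith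
  have hm0 := hrel.m0
  have hma : m ≤ c.a s := hmη.trans hηa
  have hzS := hE hz
  have hzS' := hE hz'
  obtain ⟨hq, hblk, hasg⟩ := hOk.labmem s hrel.sG z hzS
  obtain ⟨-, hblk', hasg'⟩ := hOk.labmem s hrel.sG z' hzS'
  rw [hlab] at hblk' hasg'
  obtain ⟨hbl1, hbl2⟩ := hOk.bllen s hrel.sG _ hq
  have hbl0 : 0 < H.bl (H.lab s z) := lt_of_lt_of_le (by positivity) hbl1
  have hblK : H.bl (H.lab s z) ≤ K := hbl2.trans (mul_le_of_le_one_right hK0.le hh1)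
  obtain ⟨B1, B2, B3⟩ := hOk.box s hrel.sG _ hq _ hasg _ hblk
  obtain ⟨-, -, B3'⟩ := hOk.box s hrel.sG _ hq _ hasg' _ hblk'
  obtain ⟨hp, hv, -, hy1⟩ := hOk.bdd z hzS
  have ht : |z.2| ≤ 1 := by
    have := hOk.time z hzS
    rw [abs_le]
    exact ⟨by linarith [this.1], this.2⟩
  have ht' : |z'.2| ≤ 1 := by
    have := hOk.time z' hzS'
    rw [abs_le]
    exact ⟨by linarith [this.1], this.2⟩
  unfold k8cPc k8cTh k8cZh at hpc
  rw [hlab, Prod.mk.injEq] at hpc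
  have scale : ∀ x y w : ℝ, |(x - w) / H.bl (H.lab s z) - (y - w) / H.bl (H.lab s z)| ≤ m → |x - y| ≤ K * m := by
    intro x y w hxy
    rw [← sub_div, abs_div, abs_of_pos hbl0, div_le_iff₀ hbl0] at hxy
    have e : x - w - (y - w) = x - y := by ring
    rw [e] at hxy
    calc |x - y| ≤ m * H.bl (H.lab s z) := hxy
      _ ≤ m * K := mul_le_mul_of_nonneg_left hblK hm0.le
      _ = K * m := mul_comm _ _
  have dt : |z.2 - z'.2| ≤ K * m := scale _ _ _ (k8cd_bin_close hm0 hpc.1)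
  have dZ : |H.Zt z.1 z.2 - H.Zt z'.1 z'.2| ≤ K * m := scale _ _ _ (k8cd_bin_close hm0 hpc.2)
  have dv : |H.v z.1 - H.v z'.1| ≤ c.χ := k8cd_bin_close hrel.wf.χ0 hvb
  have e1 := (hOk.heq z hzS).trans he
  have e2 := (hOk.heq z' hzS').trans he
  simp only [K7bHor.bs, K7bHor.Zt, K7bHor.Yt] at B1 B2 B3 B3' dZ
  obtain ⟨r1, r2, r3⟩ := k8cd_real1 hK ha0 hma hχa hh1 hsq ht ht' hp hv hy1 dt dZ dv e1 e2 B1 B2 B3 B3'
  have hKK3 : K ^ 2 ≤ K ^ 3 := pow_le_pow_right₀ hK (by norm_num)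
  have hK3 : K ≤ K ^ 3 := by
    calc K = K ^ 1 := (pow_one K).symm
      _ ≤ K ^ 3 := pow_le_pow_right₀ hK (by norm_num)
  have G2 : K ^ 2 * c.a s ≤ K ^ 3 * c.a s := mul_le_mul_of_nonneg_right hKK3 ha0.le
  have G0 : 0 ≤ K ^ 3 * c.a s := by positivity
  refine ⟨by linarith, by linarith, ?_, ?_⟩
  · have h1 : K * m ≤ K ^ 3 * η := mul_le_mul hK3 hmη hm0.le (by positivity)
    have h2 : 0 ≤ K ^ 3 * η := mul_nonneg (by positivity) hrel.η0.le
    linarith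
  · intro hent
    obtain ⟨S1, S2, S3⟩ := hSl s hrel.sG z hz
    have f := hOk.entfit s hrel.sG z hzS z.2 hblk
    have f' := hOk.entfit s hrel.sG z' hzS' z'.2 (by rw [hlab]; exact hblk')
    rw [hent] at f'
    obtain ⟨L0, L1, L2, L3, hL⟩ : ∃ L0 L1 L2 L3 : ℝ, H.entOf s z = (L0, L1, L2, L3) := ⟨_, _, _, _, rfl⟩
    rw [hL] at f f' S1 S2 S3
    simp only [K7bHor.bs, K7bHor.Zt, K7bHor.Yt, k7bAff] at f f' S1 S2 S3
    have q1 : c.a s / c.h s ^ 2 = 1 := by rw [hsq]; exact div_self ha0.ne'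
    have q2 : c.a s / c.h s = c.h s := by rw [← hsq]; field_simp
    rw [q1] at S3
    rw [q2] at S1 S2
    have hK2 : K * (1 + c.h s) ≤ 2 * K := by
      have := mul_le_mul_of_nonneg_left hh1 hK0.le
      linarith
    have hZ : |H.p z.1 + z.2 * H.v z.1| ≤ 2 * K := by
      have := k8cd_abs_mul ht hv
      calc |H.p z.1 + z.2 * H.v z.1| ≤ |H.p z.1| + |z.2 * H.v z.1| := abs_add_le _ _
        _ ≤ 2 * K := by linarith
    exact k8cd_real2 hK ha0 hma ht hZ dt dZ r2 (S1.trans hK2) (S2.trans hK2) (S3.trans (by linarith)) f f'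

theorem k8c_dlist : ∃ C : ℕ, ∀ (c : K7bPar) (H : K7bHor) (K s g η m ω δ : ℝ) (E : Set (H.Lam × ℝ)),
    K8cRel c s g η m ω δ → 1 ≤ K → (C : ℝ) * K ^ C * δ ≤ 1 → H.Ok c K → E ⊆ H.Sp → H.Slopes c K E → H.Cnt c s (c.a s) η K E →
    K8cDList H c s m ((C : ℝ) * K ^ C) E := by
  classical
  refine ⟨9150625, ?_⟩
  intro c H K s g η m ω δ E hrel hK _ hOk hE hSl hCnt q P b S hS
  obtain ⟨ha0, -, -, -, -, -, -, -, -⟩ := k8cd_rel hrel
  have hK0 : 0 < K := by linarith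
  rcases S.eq_empty_or_nonempty with rfl | ⟨y0, hy0⟩
  · simp only [Finset.card_empty, Nat.cast_zero]
    positivity
  obtain ⟨z0, -⟩ := hS y0 hy0
  have hch : ∀ y, ∃ z : H.Lam × ℝ, y ∈ S → (z ∈ E ∧ H.lab s z = q ∧ k8cPc H s m z = P ∧ k7bBin c.χ (H.v z.1) = b ∧
      k7bBin (c.a s) (H.x1 z.1) = y) := by
    intro y
    by_cases hy : y ∈ S
    · obtain ⟨z, hz⟩ := hS y hy
      exact ⟨z, fun _ => hz⟩
    · exact ⟨z0, fun h => absurd h hy⟩
  choose Zf hZf using hch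
  obtain ⟨R, hR⟩ : ∃ R : ℝ, R = 26 * K ^ 3 := ⟨_, rfl⟩
  have hR0 : 0 ≤ R := by rw [hR]; positivity
  have hpair : ∀ y ∈ S, ∀ y' ∈ S, |H.p (Zf y).1 - H.p (Zf y').1| ≤ R * c.a s ∧ |H.q0 (Zf y).1 - H.q0 (Zf y').1| ≤ R * c.a s ∧
      |(Zf y).2 - (Zf y').2| ≤ R * η ∧ (H.entOf s (Zf y') = H.entOf s (Zf y) → |H.X (Zf y) - H.X (Zf y')| ≤ R * c.a s) := by
    intro y hy y' hy'
    obtain ⟨h1, h2, h3, h4, -⟩ := hZf y hy
    obtain ⟨h1', h2', h3', h4', -⟩ := hZf y' hy'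
    rw [hR]
    exact k8cd_pair hrel hK hOk hE hSl h1 h1' (h2'.trans h2.symm) (h3.trans h3'.symm) (h4.trans h4'.symm)
  -- the entries
  have hent : ((S.image fun y => H.entOf s (Zf y)).card : ℝ) ≤ K := by
    refine le_trans ?_ (hOk.entcard q)
    have hsub : (S.image fun y => H.entOf s (Zf y)) ⊆ H.ent q := by
      intro L hL
      obtain ⟨y, hy, rfl⟩ := Finset.mem_image.1 hL
      have := hOk.entmem s hrel.sG (Zf y) (hE (hZf y hy).1)
      rwa [(hZf y hy).2.1] at this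
    exact_mod_cast Finset.card_le_card hsub
  -- one entry
  have hfib : ∀ L ∈ S.image (fun y => H.entOf s (Zf y)),
      ((S.filter fun y => H.entOf s (Zf y) = L).card : ℝ) ≤ K * ((2 * R + 3) * (2 * R + 3) * ((2 * R + 3) * (2 * R + 3))) := by
    intro L _
    obtain ⟨F, hF⟩ : ∃ F : Finset ℤ, F = S.filter fun y => H.entOf s (Zf y) = L := ⟨_, rfl⟩
    rw [← hF]
    have hFS : ∀ y ∈ F, y ∈ S ∧ H.entOf s (Zf y) = L := by
      intro y hy
      rw [hF] at hy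
      exact Finset.mem_filter.1 hy
    have c1 := k8cd_bin_count F (fun y => H.p (Zf y).1) (c.a s) R ha0 hR0
      (fun y hy y' hy' => (hpair y (hFS y hy).1 y' (hFS y' hy').1).1)
    have c2 := k8cd_bin_count F (fun y => H.q0 (Zf y).1) (c.a s) R ha0 hR0
      (fun y hy y' hy' => (hpair y (hFS y hy).1 y' (hFS y' hy').1).2.1)
    have c3 := k8cd_bin_count F (fun y => (Zf y).2) η R hrel.η0 hR0
      (fun y hy y' hy' => (hpair y (hFS y hy).1 y' (hFS y' hy').1).2.2.1)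
    have c4 := k8cd_bin_count F (fun y => H.X (Zf y)) (c.a s) R ha0 hR0
      (fun y hy y' hy' => (hpair y (hFS y hy).1 y' (hFS y' hy').1).2.2.2 ((hFS y' hy').2.trans (hFS y hy).2.symm))
    have hopt : ((F.image fun y => ((k7bBin (c.a s) (H.p (Zf y).1), k7bBin (c.a s) (H.q0 (Zf y).1)),
        (k7bBin η (Zf y).2, k7bBin (c.a s) (H.X (Zf y))))).card : ℝ) ≤ (2 * R + 3) * (2 * R + 3) * ((2 * R + 3) * (2 * R + 3)) := by
      have p0 := k8cd_card_pair F (fun y => (k7bBin (c.a s) (H.p (Zf y).1), k7bBin (c.a s) (H.q0 (Zf y).1)))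
        (fun y => (k7bBin η (Zf y).2, k7bBin (c.a s) (H.X (Zf y))))
      have p1 := k8cd_card_pair F (fun y => k7bBin (c.a s) (H.p (Zf y).1)) (fun y => k7bBin (c.a s) (H.q0 (Zf y).1))
      have p2 := k8cd_card_pair F (fun y => k7bBin η (Zf y).2) (fun y => k7bBin (c.a s) (H.X (Zf y)))
      have hpos : (0 : ℝ) ≤ 2 * R + 3 := by linarith
      refine p0.trans (mul_le_mul (p1.trans (mul_le_mul c1 c2 (Nat.cast_nonneg _) hpos))
        (p2.trans (mul_le_mul c3 c4 (Nat.cast_nonneg _) hpos)) (Nat.cast_nonneg _) (mul_nonneg hpos hpos))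
    refine (k8cd_card_fib F (fun y => ((k7bBin (c.a s) (H.p (Zf y).1), k7bBin (c.a s) (H.q0 (Zf y).1)),
        (k7bBin η (Zf y).2, k7bBin (c.a s) (H.X (Zf y))))) K ?_).trans (mul_le_mul_of_nonneg_left hopt hK0.le)
    intro o _
    have hinj : Set.InjOn (fun y => H.cf (c.a s) (Zf y).1) ((F.filter fun y => ((k7bBin (c.a s) (H.p (Zf y).1),
        k7bBin (c.a s) (H.q0 (Zf y).1)), (k7bBin η (Zf y).2, k7bBin (c.a s) (H.X (Zf y)))) = o) : Set ℤ) := by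
      intro y hy y' hy' hyy
      have hy1 := (hFS y (Finset.mem_filter.1 hy).1).1
      have hy1' := (hFS y' (Finset.mem_filter.1 hy').1).1
      have h2 := congrArg Prod.snd hyy
      simp only [K7bHor.cf] at h2
      rw [(hZf y hy1).2.2.2.2, (hZf y' hy1').2.2.2.2] at h2
      exact h2
    rw [← Finset.card_image_of_injOn hinj]
    refine hCnt.list (b, o.1.1, o.1.2) o.2.1 o.2.2 _ ?_
    intro b' hb'
    obtain ⟨y, hy, rfl⟩ := Finset.mem_image.1 hb'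
    obtain ⟨hyF, hyo⟩ := Finset.mem_filter.1 hy
    have hy1 := (hFS y hyF).1
    refine ⟨Zf y, ⟨⟨⟨(hZf y hy1).1, ?_⟩, rfl⟩, ?_⟩, ?_⟩
    · show H.grp c.χ (c.a s) (Zf y).1 = (b, o.1.1, o.1.2)
      unfold K7bHor.grp
      rw [(hZf y hy1).2.2.2.1, ← hyo]
    · show k7bBin η (Zf y).2 = o.2.1
      rw [← hyo]
    · rw [← hyo]
  have hmain := (k8cd_card_fib S (fun y => H.entOf s (Zf y)) _ hfib).trans
    (mul_le_mul_of_nonneg_left hent (mul_nonneg hK0.le (by positivity)))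
  refine hmain.trans ?_
  have hK3 : 1 ≤ K ^ 3 := one_le_pow₀ hK
  have h55 : 2 * R + 3 ≤ 55 * K ^ 3 := by rw [hR]; linarith
  have hpos : (0 : ℝ) ≤ 2 * R + 3 := by linarith
  have h2 : (2 * R + 3) * (2 * R + 3) ≤ (55 * K ^ 3) * (55 * K ^ 3) := mul_le_mul h55 h55 hpos (by positivity)
  have h4 : (2 * R + 3) * (2 * R + 3) * ((2 * R + 3) * (2 * R + 3)) ≤ (55 * K ^ 3) * (55 * K ^ 3) * ((55 * K ^ 3) * (55 * K ^ 3)) :=
    mul_le_mul h2 h2 (mul_nonneg hpos hpos) (by positivity)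
  calc K * ((2 * R + 3) * (2 * R + 3) * ((2 * R + 3) * (2 * R + 3))) * K
      ≤ K * ((55 * K ^ 3) * (55 * K ^ 3) * ((55 * K ^ 3) * (55 * K ^ 3))) * K := by gcongr
    _ = 9150625 * K ^ 14 := by ring
    _ ≤ ((9150625 : ℕ) : ℝ) * K ^ 9150625 := by
        push_cast
        exact mul_le_mul_of_nonneg_left (pow_le_pow_right₀ hK (by norm_num)) (by norm_num)

theorem k8c_row : ∃ C : ℕ, ∀ (c : K7bPar) (H : K7bHor) (K s g η m ω δ : ℝ) (E : Set (H.Lam × ℝ)),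
    K8cRel c s g η m ω δ → 1 ≤ K → (C : ℝ) * K ^ C * δ ≤ 1 → H.Ok c K → E ⊆ H.Sp → H.Slopes c K E →
    K8cRowOk H c s (3 * s) ((C : ℝ) * K ^ C) E := by
  refine ⟨6, ?_⟩
  intro c H K s g η m ω δ E hrel hK _ hOk hE hSl z hz
  obtain ⟨ha0, ha1, -, -, -, -, -, -, he⟩ := k8cd_rel hrel
  have hK0 : 0 < K := by linarith
  have hzS := hE hz
  have h3 : 0 ≤ 3 * s := by linarith [hrel.s0]
  have ha3 := k8cd_a_pos c hrel.wf (3 * s)
  have hh3 := k8cd_h_pos c hrel.wf (3 * s)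
  have hh31 := k8cd_h_le_one c hrel.wf h3
  have hsq3 := k8cd_h_sq c hrel.wf hrel.khalf (3 * s)
  obtain ⟨hq, hblk, -⟩ := hOk.labmem (3 * s) hrel.s3G z hzS
  obtain ⟨hbl1, -⟩ := hOk.bllen (3 * s) hrel.s3G _ hq
  have hbl0 : 0 < H.bl (H.lab (3 * s) z) := lt_of_lt_of_le (by positivity) hbl1
  obtain ⟨S1, S2, S3⟩ := hSl (3 * s) hrel.s3G z hz
  have hfit := hOk.entfit (3 * s) hrel.s3G z hzS
  have hheq := hOk.heq z hzS
  obtain ⟨L0, L1, L2, L3, hL⟩ : ∃ L0 L1 L2 L3 : ℝ, H.entOf (3 * s) z = (L0, L1, L2, L3) := ⟨_, _, _, _, rfl⟩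
  obtain ⟨bt, hbt⟩ : ∃ bt, bt = H.bt (H.lab (3 * s) z) := ⟨_, rfl⟩
  obtain ⟨bl, hbl⟩ : ∃ bl, bl = H.bl (H.lab (3 * s) z) := ⟨_, rfl⟩
  rw [← hbl] at hbl0 hbl1
  have f1 := hfit bt (by rw [hbt]; exact ⟨le_rfl, by linarith [hbl ▸ hbl0]⟩)
  have f2 := hfit (bt + bl / 2) (by rw [hbt, hbl]; exact ⟨by linarith [hbl ▸ hbl0], by linarith [hbl ▸ hbl0]⟩)
  have hr3 := hrel.r_3
  have hδ1 := hrel.δ1
  have hδ0 := hrel.δ0
  rw [hL] at f1 f2 S1 S2 S3
  simp only [K7bHor.Xt, K7bHor.bs, K7bHor.Zt, K7bHor.Yt, k7bAff] at f1 f2 S1 S2 S3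
  unfold k8cG k8cRow K7bHor.base K7bHor.bs K7bHor.Zt
  rw [hL]
  simp only []
  obtain ⟨x0, hx0⟩ : ∃ x, x = H.x0 z.1 := ⟨_, rfl⟩
  obtain ⟨x1, hx1⟩ : ∃ x, x = H.x1 z.1 := ⟨_, rfl⟩
  obtain ⟨p, hp⟩ : ∃ x, x = H.p z.1 := ⟨_, rfl⟩
  obtain ⟨v, hv⟩ : ∃ x, x = H.v z.1 := ⟨_, rfl⟩
  obtain ⟨q0, hq0⟩ : ∃ x, x = H.q0 z.1 := ⟨_, rfl⟩
  obtain ⟨y1, hy1⟩ : ∃ x, x = H.y1 z.1 := ⟨_, rfl⟩
  obtain ⟨a, hadef⟩ : ∃ x, x = c.a s := ⟨_, rfl⟩
  obtain ⟨a3, ha3def⟩ : ∃ x, x = c.a (3 * s) := ⟨_, rfl⟩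
  obtain ⟨h3, hh3def⟩ : ∃ x, x = c.h (3 * s) := ⟨_, rfl⟩
  rw [← hx0, ← hx1, ← hp, ← hv, ← hq0, ← hy1, ← ha3def] at f1 f2
  rw [← hp, ← hv, ← ha3def, ← hh3def] at S1
  rw [← ha3def, ← hh3def] at S2 S3
  rw [← hy1, ← hp] at hheq
  rw [← hadef] at ha0 ha1 he hr3
  rw [← ha3def] at ha3 hsq3 hr3
  rw [← hh3def] at hh3 hh31 hsq3 hbl1 hr3
  rw [← hx1, ← hp, ← hv, ← hadef]
  have e1 : a3 / h3 ^ 2 = 1 := by rw [hsq3]; exact div_self ha3.ne'
  have e2 : a3 / h3 = h3 := by rw [← hsq3]; field_simp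
  rw [e1] at S3
  rw [e2] at S1 S2
  have hK6 : K ^ 2 ≤ K ^ 6 := pow_le_pow_right₀ hK (by norm_num)
  have hKK : K ≤ K ^ 2 := by
    have := mul_le_mul_of_nonneg_left hK hK0.le
    rw [sq]
    linarith
  have hσ1 : |x1 - (L1 + L2 * v + L3 * y1)| * (bl / 2) ≤ 2 * K * a3 := by
    have e : (x1 - (L1 + L2 * v + L3 * y1)) * (bl / 2)
        = (x0 + (bt + bl / 2) * x1 - (L0 + L1 * (bt + bl / 2) + L2 * (p + (bt + bl / 2) * v) + L3 * (q0 + (bt + bl / 2) * y1)))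
          - (x0 + bt * x1 - (L0 + L1 * bt + L2 * (p + bt * v) + L3 * (q0 + bt * y1))) := by ring
    have hb : |bl / 2| = bl / 2 := abs_of_pos (by positivity)
    rw [← hb, ← abs_mul, e]
    refine (abs_sub _ _).trans ?_
    linarith
  have hσ : |x1 - (L1 + L2 * v + L3 * y1)| ≤ 4 * K ^ 2 * a := by
    have h1 : |x1 - (L1 + L2 * v + L3 * y1)| * (h3 / K / 2) ≤ |x1 - (L1 + L2 * v + L3 * y1)| * (bl / 2) :=
      mul_le_mul_of_nonneg_left (by linarith) (abs_nonneg _)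
    have h2 : a3 ≤ a * h3 := hr3.trans (mul_le_of_le_one_left (by positivity) hδ1)
    have h3' : |x1 - (L1 + L2 * v + L3 * y1)| * (h3 / K / 2) ≤ 2 * K * (a * h3) :=
      h1.trans (hσ1.trans (mul_le_mul_of_nonneg_left h2 (by positivity)))
    have e : |x1 - (L1 + L2 * v + L3 * y1)| * (h3 / K / 2) = |x1 - (L1 + L2 * v + L3 * y1)| * h3 / (2 * K) := by
      field_simp
    rw [e, div_le_iff₀ (by positivity)] at h3'
    have h4 : |x1 - (L1 + L2 * v + L3 * y1)| * h3 ≤ (4 * K ^ 2 * a) * h3 := by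
      calc _ ≤ 2 * K * (a * h3) * (2 * K) := h3'
        _ = _ := by ring
    exact le_of_mul_le_mul_right h4 hh3
  have hK2 : K * (1 + h3) ≤ 2 * K := by
    have := mul_le_mul_of_nonneg_left hh31 hK0.le
    linarith
  refine ⟨?_, ?_, ?_⟩
  · have e : x1 - (L1 - L3 * (p + z.2 * v) + v * (L2 + L3 * z.2)) = (x1 - (L1 + L2 * v + L3 * y1)) + L3 * (y1 + p) := by ring
    rw [e]
    have h5 : |L3 * (y1 + p)| ≤ 2 * K * a := by
      rw [abs_mul]
      calc |L3| * |y1 + p| ≤ (K * (1 + 1)) * a := mul_le_mul S3 (hheq.trans he) (abs_nonneg _) (by positivity)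
        _ = 2 * K * a := by ring
    calc |(x1 - (L1 + L2 * v + L3 * y1)) + L3 * (y1 + p)| ≤ 4 * K ^ 2 * a + 2 * K * a := (abs_add_le _ _).trans (add_le_add hσ h5)
      _ ≤ ((6 : ℕ) : ℝ) * K ^ 6 * a := by
          have h6 : K * a ≤ K ^ 2 * a := mul_le_mul_of_nonneg_right hKK ha0.le
          have h7 : K ^ 2 * a ≤ K ^ 6 * a := mul_le_mul_of_nonneg_right hK6 ha0.le
          push_cast
          linarith
  · have e : L1 - L3 * (p + z.2 * v) = L1 + L3 * -(p + z.2 * v) := by ring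
    rw [e]
    refine S1.trans (hK2.trans ?_)
    push_cast
    linarith
  · refine S2.trans (hK2.trans ?_)
    push_cast
    linarith

end Claimed.Agent.R252

end PkS8cH1Dlist

section PkS8cCoreInt

/-!
# Row 252, S8c, leaf L-252-S8c-CI (`k8c_core_int`)      PROVED (helper151).      (architect helper54)
PAPER-FREE.   `k8c_core` (file `Core.lean`) for INTEGER-VALUED labels which are bounded on the support `{ρ ≠ 0}` of the law.
Labels: intercept bin `Cl l`, fine cell `fc x`, velocity bin `vb l` (velocity `vb l * χ`).   State `= (Cl x.1, fc x)`, representative base point `bs (fc x)`, cell of mesh `ω` of the representative.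
PLAN (clamping).   `I = ↥(Finset.Icc (-(n:ℤ)) n)` (a `Fintype`), `cl : ℤ → I`, `cl x = ⟨max (-n) (min n x), _⟩`, `cl x = x` for `|x| ≤ n`.
`S = I × (I × I × I)`, `σ x = (cl (Cl x.1), cl.. (fc x))`, `ι = ↥(Finset.Icc (-(nv:ℤ)) nv)` (its own bound `nv`), `c l = cl (vb l)`, `cv b = b * χ`, `π' b = π b`, `Γ = I`, `Cs = Prod.fst`, `Cl' = cl ∘ Cl` (so `Cs (σ x) = Cl' x.1` for ALL `x`),
`bs' s = bs (s.2 as integers)`, `B = ↥(Finset.univ.image fun s : S => k7bCell ω (bs' s))`, `cell s = ⟨k7bCell ω (bs' s), _⟩`, `ctr β = (β.1 ω, β.2.1 ω, β.2.2 ω)` : `dist ≤ ω` (`Int.floor_le`, `Int.lt_floor_add_one`, sup metric).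
`good = {l | 1 ≤ K1 * k8cBar ρ l}` (measurable: `k8c_bar_meas`), `k8c_bad_mass`.
A set on which `ρ = 0` is `k8cMu`-null (`k8c_mu_lintegral` / `withDensity_apply`), so on the law the clamped labels can be replaced by the true ones: `{σ = s} = {Cl = s.1, fc = s.2}` up to a null set; this gives `K8cCtl.cond` from `hcond`,
`hU` of `k8c_core` from `hU` (a pair of nonzero mass has a point with `ρ ≠ 0`), and the final mass `k8cMu {cl (Cl x.1) = C0} = k8cMu {Cl x.1 = C0}`.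
Sums over `I` = sums over `Finset.Icc (-n) n` (`Finset.sum_coe_sort` / `Finset.univ_eq_attach`).
-/

set_option autoImplicit false

namespace Claimed.Agent.R252

open MeasureTheory
open scoped ENNReal BigOperators

/-- clamping an integer to `[-n, n]` -/
def k8cCl (n : ℕ) (x : ℤ) : ↥(Finset.Icc (-(n : ℤ)) n) :=
  ⟨max (-(n : ℤ)) (min n x), Finset.mem_Icc.2 ⟨le_max_left _ _, max_le (by omega) (min_le_left _ _)⟩⟩

theorem k8c_cl_val (n : ℕ) (x : ℤ) (h : |x| ≤ n) : ((k8cCl n x : ↥(Finset.Icc (-(n : ℤ)) n)) : ℤ) = x := by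
  have h' := abs_le.1 h
  show max (-(n : ℤ)) (min n x) = x
  rw [min_eq_right h'.2, max_eq_right h'.1]

theorem k8c_cl_abs (n : ℕ) (b : ↥(Finset.Icc (-(n : ℤ)) n)) : |(b : ℤ)| ≤ n := by
  have := Finset.mem_Icc.1 b.2
  exact abs_le.2 this

theorem k8c_cl_eq_iff (n : ℕ) (x : ℤ) (h : |x| ≤ n) (a : ↥(Finset.Icc (-(n : ℤ)) n)) : k8cCl n x = a ↔ x = (a : ℤ) := by
  constructor
  · intro e
    rw [← e, k8c_cl_val n x h]
  · intro e
    apply Subtype.ext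
    rw [k8c_cl_val n x h, e]

/-- a function of a countably valued map with measurable fibres -/
theorem k8c_fib_meas {α β γ : Type*} [MeasurableSpace α] [Countable β] (f : α → β) (hf : ∀ y, MeasurableSet (f ⁻¹' {y})) (g : β → γ) (T : Set γ) :
    MeasurableSet {x | g (f x) ∈ T} := by
  have : {x | g (f x) ∈ T} = ⋃ y ∈ {y | g y ∈ T}, f ⁻¹' {y} := by
    ext x
    simp
  rw [this]
  exact MeasurableSet.biUnion (Set.to_countable _) fun y _ => hf y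

/-- the set where the density vanishes is null -/
theorem k8c_mu_null {Lam : Type*} [MeasurableSpace Lam] (ν : Measure Lam) (ρ : Lam × ℝ → ℝ≥0∞) (hρ : Measurable ρ) (A : Set (Lam × ℝ)) (h : ∀ x ∈ A, ρ x = 0) :
    k8cMu ν ρ A = 0 := by
  have hz : MeasurableSet {x | ρ x = 0} := hρ (measurableSet_singleton 0)
  have : k8cMu ν ρ {x | ρ x = 0} = 0 := by
    unfold k8cMu
    rw [withDensity_apply _ hz]
    exact setLIntegral_eq_zero hz (fun x hx => hx)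
  exact measure_mono_null h this

/-- sets which agree where the density does not vanish have the same mass -/
theorem k8c_mu_congr {Lam : Type*} [MeasurableSpace Lam] (ν : Measure Lam) (ρ : Lam × ℝ → ℝ≥0∞) (hρ : Measurable ρ) (A A' : Set (Lam × ℝ))
    (h : ∀ x, ρ x ≠ 0 → (x ∈ A ↔ x ∈ A')) : k8cMu ν ρ A = k8cMu ν ρ A' := by
  have key : ∀ B B' : Set (Lam × ℝ), (∀ x, ρ x ≠ 0 → (x ∈ B → x ∈ B')) → k8cMu ν ρ B ≤ k8cMu ν ρ B' := by
    intro B B' hB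
    calc k8cMu ν ρ B ≤ k8cMu ν ρ (B' ∪ {x | ρ x = 0}) := by
          refine measure_mono fun x hx => ?_
          by_cases h0 : ρ x = 0
          · exact Or.inr h0
          · exact Or.inl (hB x h0 hx)
      _ ≤ k8cMu ν ρ B' + k8cMu ν ρ {x | ρ x = 0} := measure_union_le _ _
      _ = k8cMu ν ρ B' := by rw [k8c_mu_null ν ρ hρ {x | ρ x = 0} (fun x hx => hx), add_zero]
  exact le_antisymm (key A A' fun x hx => (h x hx).1) (key A' A fun x hx => (h x hx).2)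

theorem k8c_bin_dist (ω : ℝ) (hω : 0 < ω) (u : ℝ) : |u - (k7bBin ω u : ℝ) * ω| ≤ ω := by
  unfold k7bBin
  have h1 := Int.floor_le (u / ω)
  have h2 := Int.lt_floor_add_one (u / ω)
  rw [le_div_iff₀ hω] at h1
  rw [div_lt_iff₀ hω] at h2
  rw [abs_le]
  constructor <;> nlinarith

theorem k8c_core_int {Lam : Type*} [MeasurableSpace Lam] (ν : Measure Lam) (ρ : Lam × ℝ → ℝ≥0∞)
    (Cl : Lam → ℤ) (fc : Lam × ℝ → ℤ × ℤ × ℤ) (vb : Lam → ℤ) (n nv : ℕ)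
    (hCl : ∀ C, MeasurableSet (Cl ⁻¹' {C})) (hfc : ∀ y, MeasurableSet (fc ⁻¹' {y})) (hvb : ∀ b, MeasurableSet (vb ⁻¹' {b}))
    (hbd : ∀ x, ρ x ≠ 0 → |Cl x.1| ≤ n ∧ |(fc x).1| ≤ n ∧ |(fc x).2.1| ≤ n ∧ |(fc x).2.2| ≤ n ∧ |vb x.1| ≤ nv)
    (sf : SFinite ν) (hρ : Measurable ρ) (hbar : ∀ l, k8cBar ρ l ≠ ⊤) (hprob : k8cMu ν ρ Set.univ = 1)
    (K0 K1 Kc : ℝ≥0∞) (hK0t : K0 ≠ ⊤) (hK0 : ∀ x, ρ x ≤ K0) (π : ℤ → ℝ≥0∞) (χ : ℝ)
    (hcond : ∀ C y b, k8cMu ν ρ {x | Cl x.1 = C ∧ fc x = y ∧ vb x.1 = b} ≤ Kc * π b * k8cMu ν ρ {x | Cl x.1 = C ∧ fc x = y})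
    (base : Lam × ℝ → ℝ × ℝ × ℝ) (bs : ℤ × ℤ × ℤ → ℝ × ℝ × ℝ) (R ξ ε : ℝ) (hR : 1 ≤ R) (hξ : 0 ≤ ξ) (hε : 0 ≤ ε)
    (hsmall : 2000 * R ^ 6 * (ξ + ε) ≤ 1) (hbdd : ∀ x, ρ x ≠ 0 → ‖base x‖ ≤ R ∧ |x.2| ≤ R) (hvel : (nv : ℝ) * |χ| ≤ R)
    (hstate : ∀ x, ρ x ≠ 0 → dist (base x) (bs (fc x)) ≤ ξ)
    (hflow : ∀ l t τ, ρ (l, t) ≠ 0 → ρ (l, τ) ≠ 0 → dist (base (l, τ)) (k8cStep (base (l, t)) (vb l * χ) τ) ≤ ε)
    (κ : ℝ) (hκ : 0 < κ) (Kπ ηπ : ℝ≥0∞) (hπ : ∑ b ∈ Finset.Icc (-(nv : ℤ)) nv, π b ≤ Kπ)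
    (hint : ∀ b : ℤ, ∑ b' ∈ (Finset.Icc (-(nv : ℤ)) nv).filter (fun b' : ℤ => |(b' : ℝ) * χ - b * χ| < κ), π b' ≤ ηπ)
    (ω : ℝ) (hω : 0 < ω) (U : ℕ)
    (hU : ∀ S : Finset ((ℤ × ℤ × ℤ) × ℤ), (∀ y ∈ S, ∃ x, ρ x ≠ 0 ∧ (k7bCell ω (bs (fc x)), Cl x.1) = y) → S.card ≤ U) :
    ∃ C0 : ℤ, 1 ≤ (3 * (K1⁻¹ * ν Set.univ) + 2 * (Kc * ηπ) + Kc * (Kπ * (K1 * K0 * ENNReal.ofReal (2 * κ))))
      + (Kc * (K1 * K0)) ^ 3 * Kπ ^ 3 * ENNReal.ofReal (8 * (ω + ξ + 2000 * R ^ 6 * (ξ + ε)) ^ 3 / κ ^ 3) * U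
        * k8cMu ν ρ {x | Cl x.1 = C0} := by
  classical
  -- the finite types
  let I := ↥(Finset.Icc (-(n : ℤ)) n)
  let Iv := ↥(Finset.Icc (-(nv : ℤ)) nv)
  let S := I × (I × I × I)
  let cl3 : ℤ × ℤ × ℤ → I × I × I := fun y => (k8cCl n y.1, k8cCl n y.2.1, k8cCl n y.2.2)
  let un3 : I × I × I → ℤ × ℤ × ℤ := fun y => ((y.1 : ℤ), (y.2.1 : ℤ), (y.2.2 : ℤ))
  let σ : Lam × ℝ → S := fun x => (k8cCl n (Cl x.1), cl3 (fc x))
  let c : Lam → Iv := fun l => k8cCl nv (vb l)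
  let cv : Iv → ℝ := fun b => ((b : ℤ) : ℝ) * χ
  let π' : Iv → ℝ≥0∞ := fun b => π (b : ℤ)
  let bs' : S → ℝ × ℝ × ℝ := fun s => bs (un3 s.2)
  let good : Set Lam := {l | 1 ≤ K1 * k8cBar ρ l}
  -- clamps are the identity on the support
  have hun : ∀ x, ρ x ≠ 0 → un3 (cl3 (fc x)) = fc x := by
    intro x hx
    obtain ⟨_, h1, h2, h3, _⟩ := hbd x hx
    show (((k8cCl n (fc x).1 : I) : ℤ), ((k8cCl n (fc x).2.1 : I) : ℤ), ((k8cCl n (fc x).2.2 : I) : ℤ)) = fc x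
    rw [k8c_cl_val n _ h1, k8c_cl_val n _ h2, k8c_cl_val n _ h3]
  have hcl3 : ∀ x, ρ x ≠ 0 → ∀ y : I × I × I, cl3 (fc x) = y ↔ fc x = un3 y := by
    intro x hx y
    constructor
    · intro e
      rw [← e, hun x hx]
    · intro e
      obtain ⟨_, h1, h2, h3, _⟩ := hbd x hx
      have e1 : (fc x).1 = (y.1 : ℤ) := congrArg Prod.fst e
      have e2 : (fc x).2.1 = (y.2.1 : ℤ) := congrArg (fun p : ℤ × ℤ × ℤ => p.2.1) e
      have e3 : (fc x).2.2 = (y.2.2 : ℤ) := congrArg (fun p : ℤ × ℤ × ℤ => p.2.2) e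
      show (k8cCl n (fc x).1, k8cCl n (fc x).2.1, k8cCl n (fc x).2.2) = y
      rw [(k8c_cl_eq_iff n _ h1 y.1).2 e1, (k8c_cl_eq_iff n _ h2 y.2.1).2 e2, (k8c_cl_eq_iff n _ h3 y.2.2).2 e3]
  have hσ : ∀ x, ρ x ≠ 0 → ∀ s : S, σ x = s ↔ (Cl x.1 = (s.1 : ℤ) ∧ fc x = un3 s.2) := by
    intro x hx s
    have h0 := (hbd x hx).1
    constructor
    · intro e
      exact ⟨(k8c_cl_eq_iff n _ h0 s.1).1 (congrArg Prod.fst e), (hcl3 x hx s.2).1 (congrArg Prod.snd e)⟩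
    · rintro ⟨e1, e2⟩
      exact Prod.ext ((k8c_cl_eq_iff n _ h0 s.1).2 e1) ((hcl3 x hx s.2).2 e2)
  -- measurability
  have hCl1 : ∀ C, MeasurableSet ((fun x : Lam × ℝ => Cl x.1) ⁻¹' {C}) := fun C => measurable_fst (hCl C)
  have hlab : ∀ s : S, MeasurableSet (σ ⁻¹' {s}) := by
    intro s
    have : σ ⁻¹' {s} = {x | k8cCl n (Cl x.1) ∈ ({s.1} : Set I)} ∩ {x | cl3 (fc x) ∈ ({s.2} : Set (I × I × I))} := by
      ext x
      simp only [Set.mem_preimage, Set.mem_singleton_iff, Set.mem_inter_iff, Set.mem_ofPred_eq]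
      exact Prod.ext_iff
    rw [this]
    exact (k8c_fib_meas (fun x : Lam × ℝ => Cl x.1) hCl1 (k8cCl n) _).inter (k8c_fib_meas fc hfc cl3 _)
  have ok : K8cOk ν ρ σ := ⟨sf, hρ, hlab, hbar, hprob⟩
  have hgoodm : MeasurableSet good := measurableSet_le measurable_const ((k8c_bar_meas hρ).const_mul K1)
  have hcm : ∀ b : Iv, MeasurableSet (c ⁻¹' {b}) := fun b => k8c_fib_meas vb hvb (k8cCl nv) {b}
  have H : K8cCtl ν ρ σ c π' K0 K1 Kc good := by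
    refine ⟨ok, hK0t, hK0, hgoodm, fun l hl => hl, hcm, ?_⟩
    intro s b
    have e1 : k8cMu ν ρ (σ ⁻¹' {s} ∩ (fun x : Lam × ℝ => c x.1) ⁻¹' {b}) = k8cMu ν ρ {x | Cl x.1 = (s.1 : ℤ) ∧ fc x = un3 s.2 ∧ vb x.1 = (b : ℤ)} := by
      refine k8c_mu_congr ν ρ hρ _ _ fun x hx => ?_
      have hv := (hbd x hx).2.2.2.2
      simp only [Set.mem_inter_iff, Set.mem_preimage, Set.mem_singleton_iff, Set.mem_ofPred_eq]
      rw [hσ x hx s, k8c_cl_eq_iff nv _ hv b, and_assoc]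
    have e2 : k8cMu ν ρ (σ ⁻¹' {s}) = k8cMu ν ρ {x | Cl x.1 = (s.1 : ℤ) ∧ fc x = un3 s.2} := by
      refine k8c_mu_congr ν ρ hρ _ _ fun x hx => ?_
      simp only [Set.mem_preimage, Set.mem_singleton_iff, Set.mem_ofPred_eq]
      exact hσ x hx s
    rw [e1, e2]
    exact hcond _ _ _
  have G : K8cSim ρ σ c cv base bs' R ξ ε := by
    refine ⟨hR, hξ, hε, hsmall, hbdd, ?_, ?_, ?_⟩
    · intro b
      show |((b : ℤ) : ℝ) * χ| ≤ R
      rw [abs_mul]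
      have : |((b : ℤ) : ℝ)| ≤ nv := by
        have := k8c_cl_abs nv b
        exact_mod_cast this
      exact (mul_le_mul_of_nonneg_right this (abs_nonneg χ)).trans hvel
    · intro x hx
      show dist (base x) (bs (un3 (cl3 (fc x)))) ≤ ξ
      rw [hun x hx]
      exact hstate x hx
    · intro l t τ h1 h2
      show dist (base (l, τ)) (k8cStep (base (l, t)) (((k8cCl nv (vb l) : Iv) : ℤ) * χ) τ) ≤ ε
      rw [k8c_cl_val nv _ (hbd (l, t) h1).2.2.2.2]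
      exact hflow l t τ h1 h2
  have hπ' : ∑ b : Iv, π' b ≤ Kπ := by
    have : ∑ b : Iv, π' b = ∑ b ∈ Finset.Icc (-(nv : ℤ)) nv, π b := Finset.sum_coe_sort (Finset.Icc (-(nv : ℤ)) nv) π
    rw [this]
    exact hπ
  have hint' : ∀ b : Iv, ∑ b' : Iv, Set.indicator {b' | |cv b' - cv b| < κ} π' b' ≤ ηπ := by
    intro b
    have : ∑ b' : Iv, Set.indicator {b' | |cv b' - cv b| < κ} π' b'
        = ∑ b' ∈ Finset.Icc (-(nv : ℤ)) nv, if |(b' : ℝ) * χ - ((b : ℤ) : ℝ) * χ| < κ then π b' else 0 := by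
      rw [← Finset.sum_coe_sort (Finset.Icc (-(nv : ℤ)) nv) (fun b' : ℤ => if |(b' : ℝ) * χ - ((b : ℤ) : ℝ) * χ| < κ then π b' else 0)]
      refine Finset.sum_congr rfl fun b' _ => ?_
      rfl
    rw [this, ← Finset.sum_filter]
    exact hint b
  -- cells
  let Bf : Finset (ℤ × ℤ × ℤ) := Finset.univ.image fun s : S => k7bCell ω (bs' s)
  let cell : S → ↥Bf := fun s => ⟨k7bCell ω (bs' s), Finset.mem_image_of_mem _ (Finset.mem_univ s)⟩
  let ctr : ↥Bf → ℝ × ℝ × ℝ := fun β => (((β : ℤ × ℤ × ℤ).1 : ℝ) * ω, ((β : ℤ × ℤ × ℤ).2.1 : ℝ) * ω, ((β : ℤ × ℤ × ℤ).2.2 : ℝ) * ω)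
  have hcell : ∀ s, dist (bs' s) (ctr (cell s)) ≤ ω := by
    intro s
    show dist (bs' s) (((k7bBin ω (bs' s).1 : ℤ) : ℝ) * ω, ((k7bBin ω (bs' s).2.1 : ℤ) : ℝ) * ω, ((k7bBin ω (bs' s).2.2 : ℤ) : ℝ) * ω) ≤ ω
    rw [Prod.dist_eq, Prod.dist_eq, Real.dist_eq, Real.dist_eq, Real.dist_eq]
    exact max_le (k8c_bin_dist ω hω _) (max_le (k8c_bin_dist ω hω _) (k8c_bin_dist ω hω _))
  have hCl' : ∀ C : I, MeasurableSet ((fun l => k8cCl n (Cl l)) ⁻¹' {C}) := fun C => k8c_fib_meas Cl hCl (k8cCl n) {C}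
  have hU' : (Finset.univ.filter fun p : ↥Bf × I => k8cMu ν ρ {x | cell (σ x) = p.1 ∧ Prod.fst (σ x) = p.2} ≠ 0).card ≤ U := by
    let emb : ↥Bf × I → (ℤ × ℤ × ℤ) × ℤ := fun p => ((p.1 : ℤ × ℤ × ℤ), (p.2 : ℤ))
    have hemb : Function.Injective emb := by
      intro p p' e
      exact Prod.ext (Subtype.ext (congrArg Prod.fst e)) (Subtype.ext (congrArg Prod.snd e))
    rw [← Finset.card_image_of_injective _ hemb]
    refine hU _ fun y hy => ?_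
    obtain ⟨p, hp, rfl⟩ := Finset.mem_image.1 hy
    have hne := (Finset.mem_filter.1 hp).2
    have : ∃ x ∈ {x | cell (σ x) = p.1 ∧ Prod.fst (σ x) = p.2}, ρ x ≠ 0 := by
      by_contra hcon
      push Not at hcon
      exact hne (k8c_mu_null ν ρ hρ _ hcon)
    obtain ⟨x, ⟨hx1, hx2⟩, hx⟩ := this
    refine ⟨x, hx, ?_⟩
    have a1 : k7bCell ω (bs (fc x)) = (p.1 : ℤ × ℤ × ℤ) := by
      have : k7bCell ω (bs (un3 (cl3 (fc x)))) = (p.1 : ℤ × ℤ × ℤ) := congrArg Subtype.val hx1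
      rwa [hun x hx] at this
    have a2 : Cl x.1 = (p.2 : ℤ) := (k8c_cl_eq_iff n _ (hbd x hx).1 p.2).1 hx2
    show (k7bCell ω (bs (fc x)), Cl x.1) = ((p.1 : ℤ × ℤ × ℤ), (p.2 : ℤ))
    rw [a1, a2]
  obtain ⟨C0, hC0⟩ := k8c_core H G κ hκ Kπ ηπ hπ' hint' cell ctr ω hω.le hcell Prod.fst (fun l => k8cCl n (Cl l)) hCl' (fun x => rfl) U hU'
  refine ⟨(C0 : ℤ), hC0.trans ?_⟩
  have b1 : k8cMu ν ρ {x | x.1 ∉ good} ≤ K1⁻¹ * ν Set.univ := k8c_bad_mass ok K1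
  have b2 : k8cMu ν ρ {x | k8cCl n (Cl x.1) = C0} = k8cMu ν ρ {x | Cl x.1 = (C0 : ℤ)} :=
    k8c_mu_congr ν ρ hρ _ _ fun x hx => k8c_cl_eq_iff n _ (hbd x hx).1 C0
  rw [b2]
  gcongr

end Claimed.Agent.R252

end PkS8cCoreInt
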