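-- KEEP
import Claimed.Agent.R252.S8c.PkA

/-! PACKED FILE (unit S8c = P8.2, architect helper54; CLOSED, FROZEN, 0 sorry): parts S8c.H3Rbins, S8c.H4Fit.  Each part is wrapped in its own `section`. -/

section PkS8cH3Rbins

/-!
# Row 252, S8c, leaves L-252-S8c-H3a (`k8c_pair_count`), H3b (`k8c_interp_count`), H3c (`k8c_row_opt`), H3 (`k8c_rowbins`)      CONTRACT: sorries.      08 l.118-124      (architect helper54)
PAPER-FREE.

`k8c_pair_count` (double counting).   `∑_{r ∈ 𝓡} ∑_{b ∈ sup r} ∑_{b' ∈ sup r \ near b} w b w b' ≥ #𝓡 θ (θ - θ/2)`, and `= ∑_{b, b' ∉ near b} w b w b' #{r | b, b' ∈ sup r} ≤ n (∑ w)² ≤ n`.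

`k8c_interp_count` : integer pairs `(R₁, R₂)` with `|R₁ + v R₂ - y| ≤ A`, `|R₁ + v' R₂ - y'| ≤ A`, `|v - v'| ≥ κ`, `|v| ≤ K` : `R₂` lies in an interval of length `4A/κ`, then `R₁` in an interval of length `2A + 4 A K/κ`.

`k8c_row_opt` : the datum `d z = (lab s z, k8cPc H s m z, k8cGb H (3s) a z)` has `≤ C K^C` options per end history: `ehlab` (labels of depths `s`, `3s`), `ehpt` (`≤ K` fine cells of mesh `ξ`);
measurability ON `E` : there `entOf (3s) z` lies in the finite set `⋃ q, ent q` (`entmem`), fibres of `entOf`, `lab` are measurable (`ment`, `mlab`), `base` is measurable;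
a fine cell leaves `≤ 4` position cells (`ξ / bl q ≤ K ξ / h ≤ m`); `≤ K` entries of `lab (3s)`; for a fixed entry the row moves by `|γ| ξ ≤ 2 K ξ ≤ a` in a fine cell (`Slopes`) : `≤ 4` bins.

`k8c_rowbins`.   `k8c_cond` with this datum, `Cf = Prod.snd` : `E' ⊆ E`, ceiling `Kc = 4 n K³/ε²`, no null states.   Fix `(q, P)` and a finite set `𝓡` of occurring row bins.
For `R ∈ 𝓡` the state `(q, P, R)` has mass `μ₀ ∈ (0, ∞)`; `sup R` = the velocity bins `b` with `lam (E' ∩ state ∩ vT b) ≠ 0` (finitely many: `|v| ≤ K`); `μ₀ = ∑_b .. ≤ Kc μ₀ ∑_{b ∈ sup R} pal (k7bIv χ b)` : `θ = 1/Kc`.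
`near b = {b' | |b' - b| χ < κ}`, `palcap` with `r = κ + χ` : `K (κ + χ)^S ≤ θ/2` for `κ = (1/(4 K Kc))^(1/S) / 2`, `χ ≤ κ` (this is where `C` depends on `S`).
`b, b' ∈ sup R` give witnesses `z, z'` in the state; `K8cRowOk` and `K8cDList` : `|R₁ + b χ R₂ - y| ≤ C K` for some `y` in the list of `(q, P, b)`, the same for `b'`; `k8c_interp_count` : `n = Kd² (C K / κ)²`.
-/

set_option autoImplicit false

namespace Claimed.Agent.R252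

open MeasureTheory
open scoped ENNReal BigOperators

/-- NOTE (helper202): hypothesis `hn0 : 0 ≤ n` ADDED (without it the statement fails when `hn` is vacuous, e.g. `B` empty, `n = -1`). -/
theorem k8c_pair_count {R B : Type*} [Fintype B] [DecidableEq B] (Rs : Finset R) (w : B → ℝ) (hw : ∀ b, 0 ≤ w b) (hw1 : ∑ b, w b ≤ 1)
    (sup : R → Finset B) (θ : ℝ) (hθ : 0 ≤ θ) (hsup : ∀ r ∈ Rs, θ ≤ ∑ b ∈ sup r, w b) (near : B → Finset B)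
    (hnear : ∀ b, ∑ b' ∈ near b, w b' ≤ θ / 2) (n : ℝ) (hn0 : 0 ≤ n)
    (hn : ∀ b b', b' ∉ near b → ((Rs.filter fun r => b ∈ sup r ∧ b' ∈ sup r).card : ℝ) ≤ n) :
    (Rs.card : ℝ) * (θ ^ 2 / 2) ≤ n := by
  classical
  obtain ⟨f, hf⟩ : ∃ f : R → B → B → ℝ, f = fun r b b' => if b ∈ sup r ∧ b' ∈ sup r \ near b then w b * w b' else 0 := ⟨_, rfl⟩
  have hf0 : ∀ r b b', 0 ≤ f r b b' := by
    intro r b b'
    rw [hf]
    simp only
    split_ifs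
    · exact mul_nonneg (hw _) (hw _)
    · exact le_rfl
  have lower : ∀ r ∈ Rs, θ ^ 2 / 2 ≤ ∑ b, ∑ b', f r b b' := by
    intro r hr
    have h1 : ∀ b ∈ sup r, w b * (θ / 2) ≤ ∑ b', f r b b' := by
      intro b hb
      have e : ∑ b', f r b b' = w b * ∑ b' ∈ sup r \ near b, w b' := by
        rw [hf, Finset.mul_sum]
        simp only [hb, true_and]
        rw [Finset.sum_ite_mem, Finset.univ_inter]
      rw [e]
      refine mul_le_mul_of_nonneg_left ?_ (hw b)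
      have h2 := Finset.sum_inter_add_sum_sdiff (sup r) (near b) w
      have h3 : ∑ x ∈ sup r ∩ near b, w x ≤ ∑ x ∈ near b, w x :=
        Finset.sum_le_sum_of_subset_of_nonneg Finset.inter_subset_right fun i _ _ => hw i
      have h4 := hsup r hr
      have h5 := hnear b
      linarith
    calc θ ^ 2 / 2 = θ * (θ / 2) := by ring
      _ ≤ (∑ b ∈ sup r, w b) * (θ / 2) := mul_le_mul_of_nonneg_right (hsup r hr) (by positivity)
      _ = ∑ b ∈ sup r, w b * (θ / 2) := Finset.sum_mul _ _ _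
      _ ≤ ∑ b ∈ sup r, ∑ b', f r b b' := Finset.sum_le_sum h1
      _ ≤ ∑ b, ∑ b', f r b b' :=
        Finset.sum_le_sum_of_subset_of_nonneg (Finset.subset_univ _) fun b _ _ => Finset.sum_nonneg fun b' _ => hf0 r b b'
  have upper : ∀ b b', ∑ r ∈ Rs, f r b b' ≤ n * (w b * w b') := by
    intro b b'
    have hww : 0 ≤ w b * w b' := mul_nonneg (hw _) (hw _)
    by_cases hb : b' ∈ near b
    · have : ∀ r ∈ Rs, f r b b' = 0 := by
        intro r _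
        rw [hf]
        simp [hb]
      rw [Finset.sum_eq_zero this]
      exact mul_nonneg hn0 hww
    · have e : ∑ r ∈ Rs, f r b b' = ((Rs.filter fun r => b ∈ sup r ∧ b' ∈ sup r).card : ℝ) * (w b * w b') := by
        rw [hf]
        simp only [Finset.mem_sdiff, hb, not_false_eq_true, and_true]
        rw [← Finset.sum_filter, Finset.sum_const, nsmul_eq_mul]
      rw [e]
      exact mul_le_mul_of_nonneg_right (hn b b' hb) hww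
  have hs0 : 0 ≤ ∑ b, w b := Finset.sum_nonneg fun b _ => hw b
  calc (Rs.card : ℝ) * (θ ^ 2 / 2) = ∑ _r ∈ Rs, θ ^ 2 / 2 := by rw [Finset.sum_const, nsmul_eq_mul]
    _ ≤ ∑ r ∈ Rs, ∑ b, ∑ b', f r b b' := Finset.sum_le_sum lower
    _ = ∑ b, ∑ b', ∑ r ∈ Rs, f r b b' := by
        rw [Finset.sum_comm]
        refine Finset.sum_congr rfl fun b _ => ?_
        rw [Finset.sum_comm]
    _ ≤ ∑ b, ∑ b', n * (w b * w b') := Finset.sum_le_sum fun b _ => Finset.sum_le_sum fun b' _ => upper b b'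
    _ = n * ((∑ b, w b) * ∑ b, w b) := by
        rw [Finset.sum_mul_sum, Finset.mul_sum]
        refine Finset.sum_congr rfl fun b _ => ?_
        rw [Finset.mul_sum]
    _ ≤ n * 1 := mul_le_mul_of_nonneg_left (by nlinarith) hn0
    _ = n := mul_one n

/-- integers in a real interval -/
theorem k8c_int_count (T : Finset ℤ) (a r : ℝ) (hr : 0 ≤ r) (h : ∀ k ∈ T, |(k : ℝ) - a| ≤ r) : (T.card : ℝ) ≤ 2 * r + 1 := by
  have hsub : T ⊆ Finset.Icc ⌈a - r⌉ ⌊a + r⌋ := by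
    intro k hk
    have h1 := abs_le.1 (h k hk)
    rw [Finset.mem_Icc]
    exact ⟨Int.ceil_le.2 (by linarith [h1.1]), Int.le_floor.2 (by linarith [h1.2])⟩
  have h1 : (T.card : ℝ) ≤ ((Finset.Icc ⌈a - r⌉ ⌊a + r⌋).card : ℝ) := by exact_mod_cast Finset.card_le_card hsub
  refine h1.trans ?_
  rw [Int.card_Icc]
  have h2 : (((⌊a + r⌋ + 1 - ⌈a - r⌉).toNat : ℤ) : ℝ) ≤ 2 * r + 1 := by
    rcases le_total 0 (⌊a + r⌋ + 1 - ⌈a - r⌉) with h0 | h0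
    · rw [Int.toNat_of_nonneg h0]
      push_cast
      have e1 := Int.floor_le (a + r)
      have e2 := Int.le_ceil (a - r)
      linarith
    · rw [Int.toNat_of_nonpos h0]
      push_cast
      linarith
  exact_mod_cast h2

theorem k8c_interp_count (A K κ v v' y y' : ℝ) (hA : 0 ≤ A) (hK : 1 ≤ K) (hκ : 0 < κ) (hv : |v| ≤ K) (hsep : κ ≤ |v - v'|)
    (S : Finset (ℤ × ℤ)) (hS : ∀ R ∈ S, |(R.1 : ℝ) + v * R.2 - y| ≤ A ∧ |(R.1 : ℝ) + v' * R.2 - y'| ≤ A) :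
    (S.card : ℝ) ≤ (4 * A / κ + 1) * (2 * A + 4 * A * K / κ + 1) := by
  classical
  have hd : 0 < |v - v'| := lt_of_lt_of_le hκ hsep
  have hd0 : v - v' ≠ 0 := abs_pos.1 hd
  have h2 : ((S.image Prod.snd).card : ℝ) ≤ 2 * (2 * A / κ) + 1 := by
    refine k8c_int_count _ ((y - y') / (v - v')) _ (by positivity) fun k hk => ?_
    obtain ⟨R, hR, rfl⟩ := Finset.mem_image.1 hk
    obtain ⟨a1, a2⟩ := hS R hR
    have e : ((R.2 : ℝ) - (y - y') / (v - v')) = (((R.1 : ℝ) + v * R.2 - y) - ((R.1 : ℝ) + v' * R.2 - y')) / (v - v') := by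
      field_simp
      ring
    rw [e, abs_div, div_le_div_iff₀ hd hκ]
    have e2 : |((R.1 : ℝ) + v * R.2 - y) - ((R.1 : ℝ) + v' * R.2 - y')| ≤ 2 * A := by
      refine (abs_sub _ _).trans ?_
      linarith
    calc |((R.1 : ℝ) + v * R.2 - y) - ((R.1 : ℝ) + v' * R.2 - y')| * κ ≤ 2 * A * κ := mul_le_mul_of_nonneg_right e2 hκ.le
      _ ≤ 2 * A * |v - v'| := mul_le_mul_of_nonneg_left hsep (by positivity)
  have h1 : ∀ k ∈ S.image Prod.snd, ((S.filter fun R => R.2 = k).card : ℝ) ≤ 2 * A + 1 := by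
    intro k _
    have hinj : Set.InjOn Prod.fst ((S.filter fun R => R.2 = k : Finset (ℤ × ℤ)) : Set (ℤ × ℤ)) := by
      intro R hR R' hR' he
      have r1 := (Finset.mem_filter.1 (Finset.mem_coe.1 hR)).2
      have r2 := (Finset.mem_filter.1 (Finset.mem_coe.1 hR')).2
      exact Prod.ext he (r1.trans r2.symm)
    rw [← Finset.card_image_of_injOn hinj]
    refine k8c_int_count _ (y - v * k) A hA fun i hi => ?_
    obtain ⟨R, hR, rfl⟩ := Finset.mem_image.1 hi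
    obtain ⟨hR1, hR2⟩ := Finset.mem_filter.1 hR
    have := (hS R hR1).1
    rw [hR2] at this
    rwa [show (R.1 : ℝ) - (y - v * k) = (R.1 : ℝ) + v * k - y by ring]
  have hc : (S.card : ℝ) = ∑ k ∈ S.image Prod.snd, ((S.filter fun R => R.2 = k).card : ℝ) := by
    rw [Finset.card_eq_sum_card_image Prod.snd S]
    push_cast
    rfl
  have hx : 0 ≤ 4 * A * K / κ := by positivity
  calc (S.card : ℝ) = ∑ k ∈ S.image Prod.snd, ((S.filter fun R => R.2 = k).card : ℝ) := hc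
    _ ≤ ∑ _k ∈ S.image Prod.snd, (2 * A + 1) := Finset.sum_le_sum h1
    _ = ((S.image Prod.snd).card : ℝ) * (2 * A + 1) := by rw [Finset.sum_const, nsmul_eq_mul]
    _ ≤ (2 * (2 * A / κ) + 1) * (2 * A + 1) := mul_le_mul_of_nonneg_right h2 (by positivity)
    _ = (4 * A / κ + 1) * (2 * A + 1) := by ring
    _ ≤ (4 * A / κ + 1) * (2 * A + 4 * A * K / κ + 1) := mul_le_mul_of_nonneg_left (by linarith) (by positivity)

/-! ### helpers of `k8c_row_opt` (prefix `k8c_ro_`) -/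

theorem k8c_ro_floor (x x₀ : ℝ) (h : |x - x₀| ≤ 1) : ⌊x⌋ - ⌊x₀⌋ ∈ Finset.Icc (-1 : ℤ) 1 := by
  have hx1 := Int.floor_le x
  have hx2 := Int.lt_floor_add_one x
  have hy1 := Int.floor_le x₀
  have hy2 := Int.lt_floor_add_one x₀
  obtain ⟨h1, h2⟩ := abs_le.1 h
  have a1 : ((⌊x⌋ : ℤ) : ℝ) < ((⌊x₀⌋ + 2 : ℤ) : ℝ) := by
    push_cast
    linarith
  have a2 : ((⌊x₀⌋ : ℤ) : ℝ) < ((⌊x⌋ + 2 : ℤ) : ℝ) := by
    push_cast
    linarith
  have b1 : ⌊x⌋ < ⌊x₀⌋ + 2 := by exact_mod_cast a1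
  have b2 : ⌊x₀⌋ < ⌊x⌋ + 2 := by exact_mod_cast a2
  rw [Finset.mem_Icc]
  constructor <;> omega

theorem k8c_ro_bin {m : ℝ} (hm : 0 < m) {x x₀ : ℝ} (h : |x - x₀| ≤ m) : k7bBin m x - k7bBin m x₀ ∈ Finset.Icc (-1 : ℤ) 1 := by
  refine k8c_ro_floor _ _ ?_
  rw [← sub_div, abs_div, abs_of_pos hm, div_le_one hm]
  exact h

theorem k8c_ro_corner {ξ : ℝ} (hξ : 0 < ξ) (x : ℝ) : |x - (k7bBin ξ x : ℝ) * ξ| ≤ ξ := by
  unfold k7bBin
  have h1 := Int.floor_le (x / ξ)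
  have h2 := Int.lt_floor_add_one (x / ξ)
  rw [le_div_iff₀ hξ] at h1
  rw [div_lt_iff₀ hξ] at h2
  rw [abs_le]
  constructor <;> nlinarith

theorem k8c_ro_mbin {Ω : Type*} [MeasurableSpace Ω] {φ : Ω → ℝ} (hφ : Measurable φ) (m : ℝ) : Measurable fun z => k7bBin m (φ z) := by
  unfold k7bBin
  exact (hφ.div_const m).floor

/-- the elementary facts on the scales -/
theorem k8c_ro_rel {c : K7bPar} {s g η m ω δ K : ℝ} (hR : K8cRel c s g η m ω δ) (hK : 1 ≤ K) (hδ : 2 * K * δ ≤ 1) :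
    0 < c.a s ∧ 0 < c.h s ∧ K * c.ξ ≤ m * c.h s ∧ 2 * K * c.ξ ≤ c.a s ∧ c.a (3 * s) / c.h (3 * s) ^ 2 = 1 := by
  have hN1 := hR.wf.N1
  have hN : 0 < c.N := by linarith
  have ha0 : 0 < c.a s := Real.rpow_pos_of_pos hN _
  have ha1 : c.a s ≤ 1 := Real.rpow_le_one_of_one_le_of_nonpos hN1 (by linarith [hR.s0])
  have hh0 : 0 < c.h s := Real.rpow_pos_of_pos hN _
  have hh1 : c.h s ≤ 1 := hR.r_h.trans hR.δ1
  have hha : ∀ u, c.h u ^ 2 = c.a u := by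
    intro u
    unfold K7bPar.h K7bPar.a
    rw [← Real.rpow_natCast, ← Real.rpow_mul hN.le, hR.khalf]
    congr 1
    push_cast
    ring
  have ha'0 : 0 < c.a (s + g) := Real.rpow_pos_of_pos hN _
  have ha'1 : c.a (s + g) ≤ c.a s := Real.rpow_le_rpow_of_exponent_le hN1 (by linarith [hR.g0])
  have hη1 : η ≤ 1 := hR.r_η.trans (mul_le_one₀ hR.δ1 ha0.le ha1)
  have hm1 : m ≤ 1 := hR.r_m.trans (mul_le_one₀ hR.δ1 hR.η0.le hη1)
  have hω1 : ω ≤ 1 := hR.r_ω.trans (mul_le_one₀ hR.δ1 (by positivity) (pow_le_one₀ ha'0.le (ha'1.trans ha1)))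
  have hK0 : 0 < K := by linarith
  have hm0 := hR.m0
  have hω0 := hR.ω0
  have hδ0 := hR.δ0
  have hξ := hR.r_ξ
  refine ⟨ha0, hh0, ?_, ?_, ?_⟩
  · have e1 : c.a s ^ 2 ≤ c.h s := by
      rw [← hha s]
      calc (c.h s ^ 2) ^ 2 = c.h s * c.h s ^ 3 := by ring
        _ ≤ c.h s * 1 := mul_le_mul_of_nonneg_left (pow_le_one₀ hh0.le hh1) hh0.le
        _ = c.h s := mul_one _
    have e2 : ω * c.a s ^ 2 ≤ c.h s := by
      calc ω * c.a s ^ 2 ≤ 1 * c.a s ^ 2 := mul_le_mul_of_nonneg_right hω1 (by positivity)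
        _ ≤ c.h s := by rw [one_mul]; exact e1
    have e3 : K * δ ≤ 1 := by nlinarith
    calc K * c.ξ ≤ K * (δ * (m * ω * c.a s ^ 2)) := mul_le_mul_of_nonneg_left hξ hK0.le
      _ = (K * δ) * (m * (ω * c.a s ^ 2)) := by ring
      _ ≤ 1 * (m * c.h s) := mul_le_mul e3 (mul_le_mul_of_nonneg_left e2 hm0.le) (by positivity) zero_le_one
      _ = m * c.h s := one_mul _
  · have e1 : m * ω * c.a s ^ 2 ≤ c.a s := by
      have e2 : m * ω ≤ 1 := mul_le_one₀ hm1 hω0.le hω1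
      have e3 : c.a s ^ 2 ≤ c.a s := by nlinarith
      calc m * ω * c.a s ^ 2 ≤ 1 * c.a s := mul_le_mul e2 e3 (by positivity) zero_le_one
        _ = c.a s := one_mul _
    calc 2 * K * c.ξ ≤ 2 * K * (δ * (m * ω * c.a s ^ 2)) := mul_le_mul_of_nonneg_left hξ (by positivity)
      _ = (2 * K * δ) * (m * ω * c.a s ^ 2) := by ring
      _ ≤ 1 * c.a s := mul_le_mul hδ e1 (by positivity) zero_le_one
      _ = c.a s := one_mul _
  · rw [hha]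
    exact div_self (Real.rpow_pos_of_pos hN _).ne'

/-- measurability on `E` -/
theorem k8c_ro_meas {c : K7bPar} {H : K7bHor} {K s m a : ℝ} (h : H.Ok c K) (hs : s ∈ c.G) (hs3 : 3 * s ∈ c.G) {E : Set (H.Lam × ℝ)}
    (hE : E ⊆ H.Sp) (hEm : MeasurableSet E) (d0 : H.Q × (ℤ × ℤ) × (ℤ × ℤ)) :
    MeasurableSet (E ∩ (fun z => (H.lab s z, k8cPc H s m z, k8cGb H (3 * s) a z)) ⁻¹' {d0}) := by
  classical
  obtain ⟨q, P, B⟩ := d0
  have hmZ : Measurable fun z : H.Lam × ℝ => H.Zt z.1 z.2 :=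
    (h.mp.comp measurable_fst).add (measurable_snd.mul (h.mv.comp measurable_fst))
  have hm1 : Measurable fun z : H.Lam × ℝ => (k7bBin m (k8cTh H q z.2), k7bBin m (k8cZh H q (H.Zt z.1 z.2))) := by
    refine Measurable.prodMk (k8c_ro_mbin ?_ m) (k8c_ro_mbin ?_ m)
    · unfold k8cTh
      exact (measurable_snd.sub_const _).div_const _
    · unfold k8cZh
      exact (hmZ.sub_const _).div_const _
  have hm2 : ∀ L : ℝ × ℝ × ℝ × ℝ, Measurable fun z : H.Lam × ℝ => (k7bBin a (k8cRow L (H.base z)).1, k7bBin a (k8cRow L (H.base z)).2) := by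
    intro L
    refine Measurable.prodMk (k8c_ro_mbin ?_ a) (k8c_ro_mbin ?_ a)
    · show Measurable fun z : H.Lam × ℝ => L.2.1 - L.2.2.2 * H.Zt z.1 z.2
      exact (hmZ.const_mul _).const_sub _
    · show Measurable fun z : H.Lam × ℝ => L.2.2.1 + L.2.2.2 * z.2
      exact (measurable_snd.const_mul _).const_add _
  have hset : E ∩ (fun z => (H.lab s z, k8cPc H s m z, k8cGb H (3 * s) a z)) ⁻¹' {(q, P, B)}
      = E ∩ (H.lab s ⁻¹' {q} ∩ (fun z : H.Lam × ℝ => (k7bBin m (k8cTh H q z.2), k7bBin m (k8cZh H q (H.Zt z.1 z.2)))) ⁻¹' {P}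
        ∩ ⋃ L ∈ Finset.univ.biUnion H.ent, (H.entOf (3 * s) ⁻¹' {L}
          ∩ (fun z : H.Lam × ℝ => (k7bBin a (k8cRow L (H.base z)).1, k7bBin a (k8cRow L (H.base z)).2)) ⁻¹' {B})) := by
    ext z
    simp only [Set.mem_inter_iff, Set.mem_preimage, Set.mem_singleton_iff, Prod.mk.injEq, Set.mem_iUnion, exists_prop]
    constructor
    · rintro ⟨hz, h1, h2, h3⟩
      refine ⟨hz, ⟨h1, ?_⟩, H.entOf (3 * s) z, ?_, rfl, ?_⟩
      · rw [← h2, ← h1]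
        rfl
      · exact Finset.mem_biUnion.2 ⟨_, Finset.mem_univ _, h.entmem _ hs3 z (hE hz)⟩
      · rw [← h3]
        rfl
    · rintro ⟨hz, ⟨h1, h2⟩, L, -, h3, h4⟩
      refine ⟨hz, h1, ?_, ?_⟩
      · rw [← h2, ← h1]
        rfl
      · rw [← h4, ← h3]
        rfl
  rw [hset]
  refine hEm.inter (((h.mlab s hs q).inter (hm1 (measurableSet_singleton P))).inter ?_)
  refine Finset.measurableSet_biUnion _ fun L _ => ?_
  exact (h.ment _ hs3 L).inter (hm2 L (measurableSet_singleton B))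

theorem k8c_row_opt : ∃ C : ℕ, ∀ (c : K7bPar) (H : K7bHor) (K s g η m ω δ : ℝ) (E : Set (H.Lam × ℝ)),
    K8cRel c s g η m ω δ → 1 ≤ K → (C : ℝ) * K ^ C * δ ≤ 1 → H.Ok c K → E ⊆ H.Sp → MeasurableSet E → H.Slopes c K E →
    (∀ d0, MeasurableSet (E ∩ (fun z => (H.lab s z, k8cPc H s m z, k8cGb H (3 * s) (c.a s) z)) ⁻¹' {d0})) ∧
    ∀ e, ∃ L : Finset (H.Q × (ℤ × ℤ) × (ℤ × ℤ)), (L.card : ℝ) ≤ (C : ℝ) * K ^ C ∧
      ∀ z ∈ E, H.eh z = e → (H.lab s z, k8cPc H s m z, k8cGb H (3 * s) (c.a s) z) ∈ L := by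
  refine ⟨81, ?_⟩
  intro c H K s g η m ω δ E hR hK hδ h hE hEm hSl
  classical
  have hK0 : 0 < K := by linarith
  have hKp : K ≤ K ^ 81 := le_self_pow₀ hK (by norm_num)
  have hK2 : K ^ 2 ≤ K ^ 81 := pow_le_pow_right₀ hK (by norm_num)
  push_cast at hδ ⊢
  have hδ2 : 2 * K * δ ≤ 1 := by
    have h0 : 2 * K * δ ≤ (81 : ℝ) * K ^ 81 * δ := by
      refine mul_le_mul_of_nonneg_right ?_ hR.δ0.le
      nlinarith
    linarith
  obtain ⟨ha0, hh0, hA1, hA2, hA3⟩ := k8c_ro_rel hR hK hδ2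
  refine ⟨k8c_ro_meas h hR.sG hR.s3G hE hEm, fun e => ?_⟩
  by_cases hne : ∃ z₀ ∈ E, H.eh z₀ = e
  swap
  · refine ⟨∅, ?_, fun z hz he => absurd ⟨z, hz, he⟩ hne⟩
    simp only [Finset.card_empty, Nat.cast_zero]
    positivity
  obtain ⟨z₀, hz₀, he₀⟩ := hne
  obtain ⟨Lp, hLp1, hLp2⟩ := h.ehpt e
  obtain ⟨q, hq0⟩ : ∃ q, q = H.lab s z₀ := ⟨_, rfl⟩
  obtain ⟨q3, hq30⟩ : ∃ q3, q3 = H.lab (3 * s) z₀ := ⟨_, rfl⟩
  obtain ⟨I, hI⟩ : ∃ I : Finset ℤ, I = Finset.Icc (-1) 1 := ⟨_, rfl⟩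
  have hIc : I.card = 3 := by
    rw [hI]
    rfl
  refine ⟨(((Lp ×ˢ H.ent q3) ×ˢ ((I ×ˢ I) ×ˢ (I ×ˢ I))).image
    fun x : (((ℤ × ℤ × ℤ) × ℤ) × (ℝ × ℝ × ℝ × ℝ)) × ((ℤ × ℤ) × (ℤ × ℤ)) =>
    (q, (k7bBin m (k8cTh H q ((x.1.1.1.1 : ℝ) * c.ξ)) + x.2.1.1, k7bBin m (k8cZh H q ((x.1.1.1.2.1 : ℝ) * c.ξ)) + x.2.1.2),
      (k7bBin (c.a s) (k8cRow x.1.2 ((x.1.1.1.1 : ℝ) * c.ξ, (x.1.1.1.2.1 : ℝ) * c.ξ, 0)).1 + x.2.2.1,
       k7bBin (c.a s) (k8cRow x.1.2 ((x.1.1.1.1 : ℝ) * c.ξ, (x.1.1.1.2.1 : ℝ) * c.ξ, 0)).2 + x.2.2.2))), ?_, ?_⟩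
  · refine (Nat.cast_le.2 Finset.card_image_le).trans ?_
    rw [Finset.card_product, Finset.card_product, Finset.card_product, Finset.card_product, hIc]
    push_cast
    have h1 := h.entcard q3
    have h2 : (Lp.card : ℝ) * ((H.ent q3).card : ℝ) ≤ K * K := mul_le_mul hLp1 h1 (Nat.cast_nonneg _) hK0.le
    nlinarith
  · intro z hz he
    have hzS := hE hz
    have hq : H.lab s z = q := (h.ehlab s hR.sG z hzS z₀ (hE hz₀) (he.trans he₀.symm)).trans hq0.symm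
    have hq3 : H.lab (3 * s) z = q3 := (h.ehlab _ hR.s3G z hzS z₀ (hE hz₀) (he.trans he₀.symm)).trans hq30.symm
    have hpt := hLp2 z hzS he
    have hent : H.entOf (3 * s) z ∈ H.ent q3 := hq3 ▸ h.entmem _ hR.s3G z hzS
    have ht := k8c_ro_corner hR.wf.ξ0 z.2
    have hZ := k8c_ro_corner hR.wf.ξ0 (H.Zt z.1 z.2)
    have hbl : c.h s / K ≤ H.bl q := (h.bllen s hR.sG q (hq ▸ (h.labmem s hR.sG z hzS).1)).1
    have hbl0 : 0 < H.bl q := lt_of_lt_of_le (by positivity) hbl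
    have hξbl : c.ξ ≤ m * H.bl q := by
      calc c.ξ = K * c.ξ / K := by field_simp
        _ ≤ m * c.h s / K := div_le_div_of_nonneg_right hA1 hK0.le
        _ = m * (c.h s / K) := by ring
        _ ≤ m * H.bl q := mul_le_mul_of_nonneg_left hbl hR.m0.le
    have d1 : k7bBin m (k8cTh H q z.2) - k7bBin m (k8cTh H q ((k7bBin c.ξ z.2 : ℝ) * c.ξ)) ∈ I := by
      rw [hI]
      refine k8c_ro_bin hR.m0 ?_
      unfold k8cTh
      rw [← sub_div, abs_div, abs_of_pos hbl0, div_le_iff₀ hbl0]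
      calc |z.2 - H.bt q - ((k7bBin c.ξ z.2 : ℝ) * c.ξ - H.bt q)| = |z.2 - (k7bBin c.ξ z.2 : ℝ) * c.ξ| := by
            congr 1
            ring
        _ ≤ c.ξ := ht
        _ ≤ _ := hξbl
    have d2 : k7bBin m (k8cZh H q (H.Zt z.1 z.2)) - k7bBin m (k8cZh H q ((k7bBin c.ξ (H.Zt z.1 z.2) : ℝ) * c.ξ)) ∈ I := by
      rw [hI]
      refine k8c_ro_bin hR.m0 ?_
      unfold k8cZh
      rw [← sub_div, abs_div, abs_of_pos hbl0, div_le_iff₀ hbl0]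
      calc |H.Zt z.1 z.2 - H.cZ q - ((k7bBin c.ξ (H.Zt z.1 z.2) : ℝ) * c.ξ - H.cZ q)|
          = |H.Zt z.1 z.2 - (k7bBin c.ξ (H.Zt z.1 z.2) : ℝ) * c.ξ| := by
            congr 1
            ring
        _ ≤ c.ξ := hZ
        _ ≤ _ := hξbl
    have hγ : |(H.entOf (3 * s) z).2.2.2| ≤ 2 * K := by
      have h0 := (hSl _ hR.s3G z hz).2.2
      rw [hA3] at h0
      linarith
    have d3 : k7bBin (c.a s) (k8cRow (H.entOf (3 * s) z) (H.base z)).1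
        - k7bBin (c.a s) (k8cRow (H.entOf (3 * s) z) ((k7bBin c.ξ z.2 : ℝ) * c.ξ, (k7bBin c.ξ (H.Zt z.1 z.2) : ℝ) * c.ξ, 0)).1 ∈ I := by
      rw [hI]
      refine k8c_ro_bin ha0 ?_
      show |(H.entOf (3 * s) z).2.1 - (H.entOf (3 * s) z).2.2.2 * H.Zt z.1 z.2
        - ((H.entOf (3 * s) z).2.1 - (H.entOf (3 * s) z).2.2.2 * ((k7bBin c.ξ (H.Zt z.1 z.2) : ℝ) * c.ξ))| ≤ c.a s
      calc _ = |(H.entOf (3 * s) z).2.2.2| * |H.Zt z.1 z.2 - (k7bBin c.ξ (H.Zt z.1 z.2) : ℝ) * c.ξ| := by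
            rw [← abs_mul, ← abs_neg]
            congr 1
            ring
        _ ≤ 2 * K * c.ξ := mul_le_mul hγ hZ (abs_nonneg _) (by positivity)
        _ ≤ c.a s := hA2
    have d4 : k7bBin (c.a s) (k8cRow (H.entOf (3 * s) z) (H.base z)).2
        - k7bBin (c.a s) (k8cRow (H.entOf (3 * s) z) ((k7bBin c.ξ z.2 : ℝ) * c.ξ, (k7bBin c.ξ (H.Zt z.1 z.2) : ℝ) * c.ξ, 0)).2 ∈ I := by
      rw [hI]
      refine k8c_ro_bin ha0 ?_
      show |(H.entOf (3 * s) z).2.2.1 + (H.entOf (3 * s) z).2.2.2 * z.2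
        - ((H.entOf (3 * s) z).2.2.1 + (H.entOf (3 * s) z).2.2.2 * ((k7bBin c.ξ z.2 : ℝ) * c.ξ))| ≤ c.a s
      calc _ = |(H.entOf (3 * s) z).2.2.2| * |z.2 - (k7bBin c.ξ z.2 : ℝ) * c.ξ| := by
            rw [← abs_mul]
            congr 1
            ring
        _ ≤ 2 * K * c.ξ := mul_le_mul hγ ht (abs_nonneg _) (by positivity)
        _ ≤ c.a s := hA2
    refine Finset.mem_image.2 ⟨((H.pt c.ξ c.ϱ z, H.entOf (3 * s) z),
      ((k7bBin m (k8cTh H q z.2) - k7bBin m (k8cTh H q ((k7bBin c.ξ z.2 : ℝ) * c.ξ)),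
        k7bBin m (k8cZh H q (H.Zt z.1 z.2)) - k7bBin m (k8cZh H q ((k7bBin c.ξ (H.Zt z.1 z.2) : ℝ) * c.ξ))),
       (k7bBin (c.a s) (k8cRow (H.entOf (3 * s) z) (H.base z)).1
          - k7bBin (c.a s) (k8cRow (H.entOf (3 * s) z) ((k7bBin c.ξ z.2 : ℝ) * c.ξ, (k7bBin c.ξ (H.Zt z.1 z.2) : ℝ) * c.ξ, 0)).1,
        k7bBin (c.a s) (k8cRow (H.entOf (3 * s) z) (H.base z)).2
          - k7bBin (c.a s) (k8cRow (H.entOf (3 * s) z) ((k7bBin c.ξ z.2 : ℝ) * c.ξ, (k7bBin c.ξ (H.Zt z.1 z.2) : ℝ) * c.ξ, 0)).2))), ?_, ?_⟩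
    · simp only [Finset.mem_product]
      exact ⟨⟨hpt, hent⟩, ⟨d1, d2⟩, ⟨d3, d4⟩⟩
    · have e1 : ∀ x y : ℤ, y + (x - y) = x := fun x y => by ring
      show (q, (k7bBin m (k8cTh H q ((k7bBin c.ξ z.2 : ℝ) * c.ξ)) + _, k7bBin m (k8cZh H q ((k7bBin c.ξ (H.Zt z.1 z.2) : ℝ) * c.ξ)) + _),
        (k7bBin (c.a s) (k8cRow (H.entOf (3 * s) z) ((k7bBin c.ξ z.2 : ℝ) * c.ξ, (k7bBin c.ξ (H.Zt z.1 z.2) : ℝ) * c.ξ, 0)).1 + _,
         k7bBin (c.a s) (k8cRow (H.entOf (3 * s) z) ((k7bBin c.ξ z.2 : ℝ) * c.ξ, (k7bBin c.ξ (H.Zt z.1 z.2) : ℝ) * c.ξ, 0)).2 + _)) = _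
      rw [e1, e1, e1, e1, ← hq]
      rfl

/-! ### auxiliary lemmas for `k8c_rowbins` -/

theorem k8c_rb_floor {a x : ℝ} {r : ℤ} (ha : 0 < a) (e : k7bBin a x = r) : -1 < (r : ℝ) - x / a ∧ (r : ℝ) - x / a ≤ 0 := by
  unfold k7bBin at e
  have h1 := Int.floor_le (x / a)
  have h2 := Int.lt_floor_add_one (x / a)
  rw [e] at h1 h2
  constructor <;> linarith

theorem k8c_rb_pt {a χ K x1 G1 G2 vv : ℝ} {r1 r2 b y : ℤ} (ha : 0 < a) (hχ : 0 < χ) (hχa : χ ≤ a) (hχ1 : χ ≤ 1) (hK : 1 ≤ K)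
    (h1 : |x1 - (G1 + vv * G2)| ≤ K * a) (hG2 : |G2| ≤ K) (hv : |vv| ≤ K)
    (e1 : k7bBin a G1 = r1) (e2 : k7bBin a G2 = r2) (eb : k7bBin χ vv = b) (ey : k7bBin a x1 = y) :
    |(r1 : ℝ) + ((b : ℝ) * χ) * r2 - y| ≤ 3 * K + 3 ∧ |(b : ℝ) * χ| ≤ K + 1 := by
  obtain ⟨p1, p1'⟩ := k8c_rb_floor ha e1
  obtain ⟨p2, p2'⟩ := k8c_rb_floor ha e2
  obtain ⟨p3, p3'⟩ := k8c_rb_floor hχ eb
  obtain ⟨p4, p4'⟩ := k8c_rb_floor ha ey
  have hv' := abs_le.1 hv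
  have q3 : -χ < (b : ℝ) * χ - vv ∧ (b : ℝ) * χ - vv ≤ 0 := by
    have e : (b : ℝ) * χ - vv = ((b : ℝ) - vv / χ) * χ := by field_simp
    rw [e]
    constructor <;> nlinarith
  have hb : |(b : ℝ) * χ| ≤ K + 1 := by
    rw [abs_le]
    constructor <;> linarith [q3.1, q3.2]
  refine ⟨?_, hb⟩
  have hg2 : |G2 / a| ≤ K / a := by
    rw [abs_div, abs_of_pos ha]
    exact div_le_div_of_nonneg_right hG2 ha.le
  have t1 : |((b : ℝ) * χ - vv) * (G2 / a)| ≤ K := by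
    rw [abs_mul]
    have : |(b : ℝ) * χ - vv| ≤ χ := by
      rw [abs_le]
      constructor <;> linarith [q3.1, q3.2]
    calc _ ≤ χ * (K / a) := mul_le_mul this hg2 (abs_nonneg _) hχ.le
      _ = K * (χ / a) := by ring
      _ ≤ K * 1 := by
          refine mul_le_mul_of_nonneg_left ?_ (by linarith)
          rw [div_le_one ha]
          exact hχa
      _ = K := mul_one K
  have t2 : |((b : ℝ) * χ) * ((r2 : ℝ) - G2 / a)| ≤ K + 1 := by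
    rw [abs_mul]
    have : |(r2 : ℝ) - G2 / a| ≤ 1 := by
      rw [abs_le]
      constructor <;> linarith
    calc _ ≤ (K + 1) * 1 := mul_le_mul hb this (abs_nonneg _) (by linarith)
      _ = K + 1 := mul_one _
  have t3 : |G1 / a + vv * (G2 / a) - x1 / a| ≤ K := by
    have e : G1 / a + vv * (G2 / a) - x1 / a = -((x1 - (G1 + vv * G2)) / a) := by field_simp; ring
    rw [e, abs_neg, abs_div, abs_of_pos ha, div_le_iff₀ ha]
    exact h1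
  have e : (r1 : ℝ) + ((b : ℝ) * χ) * r2 - y = ((r1 : ℝ) - G1 / a) - ((y : ℝ) - x1 / a) + ((b : ℝ) * χ) * ((r2 : ℝ) - G2 / a)
      + ((b : ℝ) * χ - vv) * (G2 / a) + (G1 / a + vv * (G2 / a) - x1 / a) := by ring
  rw [e]
  have t1' := abs_le.1 t1
  have t2' := abs_le.1 t2
  have t3' := abs_le.1 t3
  rw [abs_le]
  constructor <;> linarith [t1'.1, t1'.2, t2'.1, t2'.2, t3'.1, t3'.2]

theorem k8c_rb_range {χ K x : ℝ} (hχ : 0 < χ) (hx : |x| ≤ K) : k7bBin χ x ∈ Finset.Icc (-(⌈K / χ⌉ + 1)) (⌈K / χ⌉ + 1) := by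
  obtain ⟨p, p'⟩ := k8c_rb_floor (r := k7bBin χ x) hχ rfl
  have hx' := abs_le.1 hx
  have h1 : x / χ ≤ K / χ := div_le_div_of_nonneg_right hx'.2 hχ.le
  have h2 : -(K / χ) ≤ x / χ := by
    rw [← neg_div]
    exact div_le_div_of_nonneg_right hx'.1 hχ.le
  have h3 := Int.le_ceil (K / χ)
  rw [Finset.mem_Icc]
  constructor
  · have : ((-(⌈K / χ⌉ + 1) : ℤ) : ℝ) < (k7bBin χ x : ℝ) + 1 := by
      push_cast
      linarith
    have h4 : (-(⌈K / χ⌉ + 1) : ℤ) < k7bBin χ x + 1 := by exact_mod_cast this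
    omega
  · have : ((k7bBin χ x : ℤ) : ℝ) ≤ ((⌈K / χ⌉ + 1 : ℤ) : ℝ) := by
      push_cast
      linarith
    exact_mod_cast this

theorem k8c_rb_iv_disj {χ : ℝ} (hχ : 0 < χ) {b b' : ℤ} (h : b ≠ b') : Disjoint (k7bIv χ b) (k7bIv χ b') := by
  rw [Set.disjoint_left]
  intro x hx hx'
  unfold k7bIv at hx hx'
  obtain ⟨h1, h2⟩ := hx
  obtain ⟨h3, h4⟩ := hx'
  apply h
  have a1 : (b : ℝ) < b' + 1 := by
    by_contra hc
    rw [not_lt] at hc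
    nlinarith
  have a2 : (b' : ℝ) < b + 1 := by
    by_contra hc
    rw [not_lt] at hc
    nlinarith
  have b1 : b < b' + 1 := by exact_mod_cast a1
  have b2 : b' < b + 1 := by exact_mod_cast a2
  omega

theorem k8c_rb_pal_sum (pal : Measure ℝ) {χ : ℝ} (hχ : 0 < χ) (T : Finset ℤ) :
    ∑ b ∈ T, pal (k7bIv χ b) = pal (⋃ b ∈ T, k7bIv χ b) := by
  rw [measure_biUnion_finset]
  · intro b _ b' _ hbb
    exact k8c_rb_iv_disj hχ hbb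
  · intro b _
    exact measurableSet_Ico

theorem k8c_rb_sum_sub (T : Finset ℤ) (p : ℤ → Prop) [DecidablePred p] (w : ℤ → ℝ) :
    ∑ b ∈ (Finset.univ : Finset T).filter (fun b => p b.1), w b.1 = ∑ b ∈ T.filter p, w b := by
  rw [Finset.sum_filter, Finset.sum_filter]
  exact Finset.sum_coe_sort T (fun b => if p b then w b else 0)

/-- `k8c_pair_count` for a finite set of integers -/
theorem k8c_rb_pair_count {R : Type*} (T : Finset ℤ) (Rs : Finset R) (w : ℤ → ℝ) (hw : ∀ b, 0 ≤ w b) (hw1 : ∑ b ∈ T, w b ≤ 1)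
    (sup : R → ℤ → Prop) (θ : ℝ) (hθ : 0 ≤ θ) [∀ r, DecidablePred (sup r)] (hsup : ∀ r ∈ Rs, θ ≤ ∑ b ∈ T.filter (sup r), w b)
    (near : ℤ → ℤ → Prop) [∀ b, DecidablePred (near b)]
    (hnear : ∀ b, ∑ b' ∈ T.filter (near b), w b' ≤ θ / 2) (n : ℝ) (hn0 : 0 ≤ n)
    (hn : ∀ b b', ¬ near b b' → ((Rs.filter fun r => sup r b ∧ sup r b').card : ℝ) ≤ n) :
    (Rs.card : ℝ) * (θ ^ 2 / 2) ≤ n := by
  classical
  refine k8c_pair_count (B := T) Rs (fun b => w b.1) (fun b => hw b.1) ?_ (fun r => Finset.univ.filter (fun b => sup r b.1)) θ hθ ?_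
    (fun b => Finset.univ.filter (fun b' => near b.1 b'.1)) ?_ n hn0 ?_
  · rw [Finset.sum_coe_sort T w]
    exact hw1
  · intro r hr
    rw [k8c_rb_sum_sub T (sup r) w]
    exact hsup r hr
  · intro b
    rw [k8c_rb_sum_sub T (near b.1) w]
    exact hnear b.1
  · intro b b' hb
    have hb' : ¬ near b.1 b'.1 := by
      intro h
      exact hb (Finset.mem_filter.2 ⟨Finset.mem_univ _, h⟩)
    have := hn b.1 b'.1 hb'
    refine le_trans (le_of_eq ?_) this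
    congr 2
    ext r
    simp only [Finset.mem_filter, Finset.mem_univ, true_and]

/-- the velocity bins which occur in a state carry palette mass `≥ 1 / Kc` -/
theorem k8c_rb_sup (c : K7bPar) (H : K7bHor) {K Kc : ℝ} (h : H.Ok c K) {S' : Type*} (st : H.Lam × ℝ → S') {E' : Set (H.Lam × ℝ)}
    (hE' : E' ⊆ H.Sp) (hm : MeasurableSet E') (hc : K8cCond H c st Kc E') {z0 : H.Lam × ℝ} (hz0 : z0 ∈ E') (T : Finset ℤ)
    (hT : ∀ z ∈ H.Sp, k7bBin c.χ (H.v z.1) ∈ T) [DecidablePred fun b : ℤ => H.lam (E' ∩ {z | st z = st z0} ∩ H.vT c.χ b) ≠ 0] :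
    1 ≤ ENNReal.ofReal Kc * ∑ b ∈ T.filter (fun b => H.lam (E' ∩ {z | st z = st z0} ∩ H.vT c.χ b) ≠ 0), H.pal (k7bIv c.χ b) := by
  have h0 : H.lam (E' ∩ {z | st z = st z0}) ≠ 0 := hc.pos z0 hz0
  have ht : H.lam (E' ∩ {z | st z = st z0}) ≠ ⊤ := ne_top_of_le_ne_top ENNReal.ofReal_ne_top (k8c_lam_le c H h _)
  have hcov : E' ∩ {z | st z = st z0} ⊆ ⋃ b ∈ T, (E' ∩ {z | st z = st z0} ∩ H.vT c.χ b) := by
    intro z hz
    simp only [Set.mem_iUnion]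
    exact ⟨k7bBin c.χ (H.v z.1), hT z (hE' hz.1), hz, rfl⟩
  have h1 : H.lam (E' ∩ {z | st z = st z0}) ≤ ∑ b ∈ T, H.lam (E' ∩ {z | st z = st z0} ∩ H.vT c.χ b) :=
    (measure_mono hcov).trans (measure_biUnion_finset_le _ _)
  have h2 : ∑ b ∈ T, H.lam (E' ∩ {z | st z = st z0} ∩ H.vT c.χ b)
      = ∑ b ∈ T.filter (fun b => H.lam (E' ∩ {z | st z = st z0} ∩ H.vT c.χ b) ≠ 0), H.lam (E' ∩ {z | st z = st z0} ∩ H.vT c.χ b) := by
    rw [Finset.sum_filter]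
    refine Finset.sum_congr rfl fun b _ => ?_
    by_cases hb : H.lam (E' ∩ {z | st z = st z0} ∩ H.vT c.χ b) = 0
    · rw [if_neg (not_not.2 hb), hb]
    · rw [if_pos hb]
  have h3 : ∀ b, H.lam (E' ∩ {z | st z = st z0} ∩ H.vT c.χ b)
      ≤ ENNReal.ofReal Kc * H.pal (k7bIv c.χ b) * H.lam (E' ∩ {z | st z = st z0}) := by
    intro b
    have := hc.cond (st z0) b
    unfold ksMass at this
    rw [Measure.restrict_apply' hm, Measure.restrict_apply' hm] at this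
    have e1 : st ⁻¹' {st z0} ∩ H.vT c.χ b ∩ E' = E' ∩ {z | st z = st z0} ∩ H.vT c.χ b := by
      ext z
      simp only [Set.mem_inter_iff, Set.mem_preimage, Set.mem_singleton_iff, Set.mem_ofPred_eq]
      tauto
    have e2 : st ⁻¹' {st z0} ∩ E' = E' ∩ {z | st z = st z0} := by
      ext z
      simp only [Set.mem_inter_iff, Set.mem_preimage, Set.mem_singleton_iff, Set.mem_ofPred_eq]
      tauto
    rw [e1, e2] at this
    exact this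
  have h4 : 1 * H.lam (E' ∩ {z | st z = st z0})
      ≤ (ENNReal.ofReal Kc * ∑ b ∈ T.filter (fun b => H.lam (E' ∩ {z | st z = st z0} ∩ H.vT c.χ b) ≠ 0), H.pal (k7bIv c.χ b))
        * H.lam (E' ∩ {z | st z = st z0}) := by
    rw [one_mul, Finset.mul_sum, Finset.sum_mul]
    calc _ ≤ _ := h1
      _ = _ := h2
      _ ≤ _ := Finset.sum_le_sum fun b _ => h3 b
  exact (ENNReal.mul_le_mul_iff_left h0 ht).1 h4

/-- the palette mass of the near bins -/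
theorem k8c_rb_near (c : K7bPar) (H : K7bHor) {K κ : ℝ} (h : H.Ok c K) (hχ : 0 < c.χ) (hκ : 0 < κ) (hκ1 : κ + c.χ ≤ 1) (T : Finset ℤ) (b : ℤ)
    [DecidablePred fun b' : ℤ => |(b' : ℝ) - b| * c.χ < κ] :
    ∑ b' ∈ T.filter (fun b' : ℤ => |(b' : ℝ) - b| * c.χ < κ), H.pal (k7bIv c.χ b') ≤ ENNReal.ofReal (K * (κ + c.χ) ^ c.S) := by
  rw [k8c_rb_pal_sum H.pal hχ]
  refine (measure_mono ?_).trans (h.palcap ((b : ℝ) * c.χ) (κ + c.χ) (by linarith) hκ1)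
  intro x hx
  simp only [Set.mem_iUnion] at hx
  obtain ⟨b', hb', hx⟩ := hx
  have hb2 := (Finset.mem_filter.1 hb').2
  unfold k7bIv at hx
  obtain ⟨x1, x2⟩ := hx
  have e : |(b' : ℝ) - b| * c.χ = |(b' : ℝ) * c.χ - b * c.χ| := by
    rw [← sub_mul, abs_mul, abs_of_pos hχ]
  rw [e] at hb2
  have := abs_lt.1 hb2
  constructor <;> nlinarith [this.1, this.2]

/-- the row bins compatible with two separated velocity bins -/
theorem k8c_rb_two (c : K7bPar) (H : K7bHor) {K s m κ : ℝ} (h : H.Ok c K) (hK : 1 ≤ K) (ha : 0 < c.a s) (hχ : 0 < c.χ) (hχa : c.χ ≤ c.a s)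
    (hχ1 : c.χ ≤ 1) (hκ : 0 < κ) {E' : Set (H.Lam × ℝ)} (hE' : E' ⊆ H.Sp) (hD : K8cDList H c s m K E') (hR : K8cRowOk H c s (3 * s) K E')
    (q : H.Q) (P : ℤ × ℤ) (Rs : Finset (ℤ × ℤ)) (b b' : ℤ) (hsep : κ ≤ |(b : ℝ) * c.χ - (b' : ℝ) * c.χ|)
    (hw : ∀ r ∈ Rs, (∃ z ∈ E', H.lab s z = q ∧ k8cPc H s m z = P ∧ k8cGb H (3 * s) (c.a s) z = r ∧ k7bBin c.χ (H.v z.1) = b) ∧
      (∃ z ∈ E', H.lab s z = q ∧ k8cPc H s m z = P ∧ k8cGb H (3 * s) (c.a s) z = r ∧ k7bBin c.χ (H.v z.1) = b')) :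
    (Rs.card : ℝ) ≤ K ^ 2 * ((4 * (3 * K + 3) / κ + 1) * (2 * (3 * K + 3) + 4 * (3 * K + 3) * (K + 1) / κ + 1)) := by
  classical
  have key : ∀ (β : ℤ) (r : ℤ × ℤ), (∃ z ∈ E', H.lab s z = q ∧ k8cPc H s m z = P ∧ k8cGb H (3 * s) (c.a s) z = r ∧ k7bBin c.χ (H.v z.1) = β) →
      ∃ y : ℤ, (∃ z ∈ E', H.lab s z = q ∧ k8cPc H s m z = P ∧ k7bBin c.χ (H.v z.1) = β ∧ k7bBin (c.a s) (H.x1 z.1) = y) ∧
        |(r.1 : ℝ) + ((β : ℝ) * c.χ) * r.2 - y| ≤ 3 * K + 3 ∧ |(β : ℝ) * c.χ| ≤ K + 1 := by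
    rintro β r ⟨z, hz, h1, h2, h3, h4⟩
    refine ⟨k7bBin (c.a s) (H.x1 z.1), ⟨z, hz, h1, h2, h4, rfl⟩, ?_⟩
    obtain ⟨r1, r2, r3⟩ := hR z hz
    have e1 : k7bBin (c.a s) (k8cG H (3 * s) z).1 = r.1 := by rw [← h3]; rfl
    have e2 : k7bBin (c.a s) (k8cG H (3 * s) z).2 = r.2 := by rw [← h3]; rfl
    exact k8c_rb_pt ha hχ hχa hχ1 hK r1 r3 (h.bdd z (hE' hz)).2.1 e1 e2 h4 rfl
  have k1 : ∀ r ∈ Rs, ∃ y : ℤ × ℤ,
      ((∃ z ∈ E', H.lab s z = q ∧ k8cPc H s m z = P ∧ k7bBin c.χ (H.v z.1) = b ∧ k7bBin (c.a s) (H.x1 z.1) = y.1) ∧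
        |(r.1 : ℝ) + ((b : ℝ) * c.χ) * r.2 - y.1| ≤ 3 * K + 3 ∧ |(b : ℝ) * c.χ| ≤ K + 1) ∧
      ((∃ z ∈ E', H.lab s z = q ∧ k8cPc H s m z = P ∧ k7bBin c.χ (H.v z.1) = b' ∧ k7bBin (c.a s) (H.x1 z.1) = y.2) ∧
        |(r.1 : ℝ) + ((b' : ℝ) * c.χ) * r.2 - y.2| ≤ 3 * K + 3 ∧ |(b' : ℝ) * c.χ| ≤ K + 1) := by
    intro r hr
    obtain ⟨y, hy⟩ := key b r (hw r hr).1
    obtain ⟨y', hy'⟩ := key b' r (hw r hr).2
    exact ⟨(y, y'), hy, hy'⟩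
  choose! f hf using k1
  have c1 : ((Rs.image fun r => (f r).1).card : ℝ) ≤ K := by
    refine hD q P b _ fun y hy => ?_
    obtain ⟨r, hr, rfl⟩ := Finset.mem_image.1 hy
    exact (hf r hr).1.1
  have c2 : ((Rs.image fun r => (f r).2).card : ℝ) ≤ K := by
    refine hD q P b' _ fun y hy => ?_
    obtain ⟨r, hr, rfl⟩ := Finset.mem_image.1 hy
    exact (hf r hr).2.1
  have c3 : ((Rs.image f).card : ℝ) ≤ K ^ 2 := by
    have hsub : Rs.image f ⊆ (Rs.image fun r => (f r).1) ×ˢ (Rs.image fun r => (f r).2) := by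
      intro y hy
      obtain ⟨r, hr, rfl⟩ := Finset.mem_image.1 hy
      exact Finset.mem_product.2 ⟨Finset.mem_image_of_mem _ hr, Finset.mem_image_of_mem _ hr⟩
    have := Finset.card_le_card hsub
    rw [Finset.card_product] at this
    have h2 : ((Rs.image f).card : ℝ) ≤ ((Rs.image fun r => (f r).1).card : ℝ) * ((Rs.image fun r => (f r).2).card : ℝ) := by
      exact_mod_cast this
    calc _ ≤ _ := h2
      _ ≤ K * K := mul_le_mul c1 c2 (Nat.cast_nonneg _) (by linarith)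
      _ = K ^ 2 := by ring
  have c4 : ∀ y ∈ Rs.image f, ((Rs.filter fun r => f r = y).card : ℝ)
      ≤ (4 * (3 * K + 3) / κ + 1) * (2 * (3 * K + 3) + 4 * (3 * K + 3) * (K + 1) / κ + 1) := by
    intro y hy
    obtain ⟨r0, hr0, rfl⟩ := Finset.mem_image.1 hy
    refine k8c_interp_count (3 * K + 3) (K + 1) κ ((b : ℝ) * c.χ) ((b' : ℝ) * c.χ) ((f r0).1 : ℝ) ((f r0).2 : ℝ) (by linarith) (by linarith) hκ
      (hf r0 hr0).1.2.2 hsep _ fun r hr => ?_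
    obtain ⟨hr1, hr2⟩ := Finset.mem_filter.1 hr
    rw [← hr2]
    exact ⟨(hf r hr1).1.2.1, (hf r hr1).2.2.1⟩
  have hN0 : 0 ≤ (4 * (3 * K + 3) / κ + 1) * (2 * (3 * K + 3) + 4 * (3 * K + 3) * (K + 1) / κ + 1) := by positivity
  have hc : (Rs.card : ℝ) = ∑ y ∈ Rs.image f, ((Rs.filter fun r => f r = y).card : ℝ) := by
    rw [Finset.card_eq_sum_card_image f Rs]
    push_cast
    rfl
  calc (Rs.card : ℝ) = _ := hc
    _ ≤ ∑ _y ∈ Rs.image f, (4 * (3 * K + 3) / κ + 1) * (2 * (3 * K + 3) + 4 * (3 * K + 3) * (K + 1) / κ + 1) := Finset.sum_le_sum c4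
    _ = ((Rs.image f).card : ℝ) * ((4 * (3 * K + 3) / κ + 1) * (2 * (3 * K + 3) + 4 * (3 * K + 3) * (K + 1) / κ + 1)) := by
        rw [Finset.sum_const, nsmul_eq_mul]
    _ ≤ _ := mul_le_mul_of_nonneg_right c3 hN0

theorem k8c_rb_core (c : K7bPar) (H : K7bHor) {K Kc s m κ : ℝ} (h : H.Ok c K) (hK : 1 ≤ K) (hKc : 0 < Kc) (ha : 0 < c.a s) (hχ : 0 < c.χ)
    (hχa : c.χ ≤ c.a s) (hχ1 : c.χ ≤ 1) (hκ : 0 < κ) (hκ1 : κ + c.χ ≤ 1) (hpal : K * (κ + c.χ) ^ c.S ≤ 1 / (2 * Kc))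
    {E' : Set (H.Lam × ℝ)} (hE' : E' ⊆ H.Sp) (hm : MeasurableSet E')
    (hc : K8cCond H c (fun z => (H.lab s z, k8cPc H s m z, k8cGb H (3 * s) (c.a s) z)) Kc E')
    (hD : K8cDList H c s m K E') (hR : K8cRowOk H c s (3 * s) K E') :
    K8cRBins H c s (3 * s) m
      (2 * Kc ^ 2 * (K ^ 2 * ((4 * (3 * K + 3) / κ + 1) * (2 * (3 * K + 3) + 4 * (3 * K + 3) * (K + 1) / κ + 1)))) E' := by
  classical
  intro q P Rs hRs
  obtain ⟨T, hTdef⟩ : ∃ T : Finset ℤ, T = Finset.Icc (-(⌈K / c.χ⌉ + 1)) (⌈K / c.χ⌉ + 1) := ⟨_, rfl⟩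
  have hT : ∀ z ∈ H.Sp, k7bBin c.χ (H.v z.1) ∈ T := fun z hz => by
    rw [hTdef]
    exact k8c_rb_range hχ (h.bdd z hz).2.1
  have hfin : ∀ A : Set ℝ, H.pal A ≠ ⊤ := fun A =>
    ne_top_of_le_ne_top ENNReal.one_ne_top ((measure_mono (Set.subset_univ A)).trans h.palle)
  have hsumfin : ∀ T' : Finset ℤ, (∑ b ∈ T', H.pal (k7bIv c.χ b)).toReal = ∑ b ∈ T', (H.pal (k7bIv c.χ b)).toReal :=
    fun T' => ENNReal.toReal_sum fun b _ => hfin _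
  have hn0 : 0 ≤ K ^ 2 * ((4 * (3 * K + 3) / κ + 1) * (2 * (3 * K + 3) + 4 * (3 * K + 3) * (K + 1) / κ + 1)) := by positivity
  have main := k8c_rb_pair_count T Rs (fun b => (H.pal (k7bIv c.χ b)).toReal) (fun b => ENNReal.toReal_nonneg) ?_
    (fun r b => H.lam (E' ∩ {z | (H.lab s z, k8cPc H s m z, k8cGb H (3 * s) (c.a s) z) = (q, P, r)} ∩ H.vT c.χ b) ≠ 0)
    (1 / Kc) (by positivity) ?_ (fun b b' => |(b' : ℝ) - b| * c.χ < κ) ?_ _ hn0 ?_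
  · have e : (Rs.card : ℝ) * ((1 / Kc) ^ 2 / 2) = (Rs.card : ℝ) / (2 * Kc ^ 2) := by
      field_simp
    rw [e, div_le_iff₀ (by positivity)] at main
    linarith
  · rw [← hsumfin, k8c_rb_pal_sum H.pal hχ]
    exact ENNReal.toReal_mono ENNReal.one_ne_top ((measure_mono (Set.subset_univ _)).trans h.palle)
  · intro r hr
    obtain ⟨z0, hz0, e1, e2, e3⟩ := hRs r hr
    have hst : (H.lab s z0, k8cPc H s m z0, k8cGb H (3 * s) (c.a s) z0) = (q, P, r) := by rw [e1, e2, e3]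
    have := k8c_rb_sup c H h (fun z => (H.lab s z, k8cPc H s m z, k8cGb H (3 * s) (c.a s) z)) hE' hm hc hz0 T hT
    simp only [hst] at this
    rw [← hsumfin]
    have hne : (∑ b ∈ T.filter (fun b => H.lam (E' ∩ {z | (H.lab s z, k8cPc H s m z, k8cGb H (3 * s) (c.a s) z) = (q, P, r)} ∩ H.vT c.χ b) ≠ 0),
        H.pal (k7bIv c.χ b)) ≠ ⊤ := by
      rw [k8c_rb_pal_sum H.pal hχ]
      exact hfin _
    have h2 := ENNReal.toReal_mono (ENNReal.mul_ne_top ENNReal.ofReal_ne_top hne) this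
    rw [ENNReal.toReal_mul, ENNReal.toReal_ofReal hKc.le, ENNReal.toReal_one] at h2
    rw [div_le_iff₀ hKc]
    linarith
  · intro b
    rw [← hsumfin]
    have := k8c_rb_near c H h hχ hκ hκ1 T b
    have h2 := ENNReal.toReal_mono ENNReal.ofReal_ne_top this
    rw [ENNReal.toReal_ofReal (by positivity)] at h2
    refine h2.trans (hpal.trans (le_of_eq ?_))
    field_simp
  · intro b b' hb
    rw [not_lt] at hb
    refine k8c_rb_two c H h hK ha hχ hχa hχ1 hκ hE' hD hR q P _ b b' ?_ fun r hr => ?_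
    · have e : |(b' : ℝ) - b| * c.χ = |(b : ℝ) * c.χ - b' * c.χ| := by
        rw [← sub_mul, abs_mul, abs_of_pos hχ, abs_sub_comm]
      rw [← e]
      exact hb
    · obtain ⟨-, hr1, hr2⟩ := Finset.mem_filter.1 hr
      obtain ⟨z, hz⟩ := nonempty_of_measure_ne_zero hr1
      obtain ⟨z', hz'⟩ := nonempty_of_measure_ne_zero hr2
      have g1 : (H.lab s z, k8cPc H s m z, k8cGb H (3 * s) (c.a s) z) = (q, P, r) := hz.1.2
      have g2 : (H.lab s z', k8cPc H s m z', k8cGb H (3 * s) (c.a s) z') = (q, P, r) := hz'.1.2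
      simp only [Prod.mk.injEq] at g1 g2
      exact ⟨⟨z, hz.1.1, g1.1, g1.2.1, g1.2.2, hz.2⟩, ⟨z', hz'.1.1, g2.1, g2.2.1, g2.2.2, hz'.2⟩⟩

theorem k8c_rb_pw {Y a : ℝ} (hY : 1 ≤ Y) {b D : ℕ} (ha : a ≤ D) (hb : b ≤ D) : a * Y ^ b ≤ (D : ℝ) * Y ^ D := by
  have h1 : Y ^ b ≤ Y ^ D := pow_le_pow_right₀ hY hb
  have h2 : (0 : ℝ) ≤ Y ^ b := by positivity
  calc a * Y ^ b ≤ (D : ℝ) * Y ^ b := mul_le_mul_of_nonneg_right ha h2
    _ ≤ (D : ℝ) * Y ^ D := mul_le_mul_of_nonneg_left h1 (Nat.cast_nonneg D)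

/-- the final product of slacks, in terms of `X = K / ε`, `Kc ≤ c₁ X^e₁`, `1/κ ≤ c₂ X^e₂` -/
theorem k8c_rb_num1 {K X Kc κ : ℝ} {c₁ e₁ c₂ e₂ : ℕ} (hK : 1 ≤ K) (hKX : K ≤ X) (hKc0 : 0 ≤ Kc) (hKc : Kc ≤ (c₁ : ℝ) * X ^ e₁) (hκ : 0 < κ)
    (hc₂ : 1 ≤ c₂) (hκY : 1 ≤ κ * ((c₂ : ℝ) * X ^ e₂)) :
    2 * Kc ^ 2 * (K ^ 2 * ((4 * (3 * K + 3) / κ + 1) * (2 * (3 * K + 3) + 4 * (3 * K + 3) * (K + 1) / κ + 1)))
      ≤ ((3050 * c₁ ^ 2 * c₂ ^ 2 : ℕ) : ℝ) * X ^ (2 * e₁ + 2 * e₂ + 5) := by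
  have hX : 1 ≤ X := hK.trans hKX
  obtain ⟨Z, hZ⟩ : ∃ Z : ℝ, Z = (c₂ : ℝ) * X ^ e₂ := ⟨_, rfl⟩
  rw [← hZ] at hκY
  have huZ : 1 / κ ≤ Z := by
    rw [div_le_iff₀ hκ]
    linarith
  have hu0 : 0 < 1 / κ := by positivity
  have hZ1 : 1 ≤ Z := by
    have hp : (1 : ℝ) ≤ X ^ e₂ := one_le_pow₀ hX
    have : (1 : ℝ) ≤ (c₂ : ℝ) := by exact_mod_cast hc₂
    rw [hZ]
    nlinarith
  have hA : 3 * K + 3 ≤ 6 * X := by linarith
  have hXZ : 1 ≤ X * Z := by nlinarith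
  have hX2 : X ≤ X ^ 2 := by nlinarith
  have t1 : 4 * (3 * K + 3) / κ + 1 ≤ 25 * (X * Z) := by
    have e : 4 * (3 * K + 3) / κ = 4 * ((3 * K + 3) * (1 / κ)) := by ring
    have : (3 * K + 3) * (1 / κ) ≤ (6 * X) * Z := mul_le_mul hA huZ hu0.le (by linarith)
    rw [e]
    linarith
  have t2 : 2 * (3 * K + 3) + 4 * (3 * K + 3) * (K + 1) / κ + 1 ≤ 61 * (X ^ 2 * Z) := by
    have e : 4 * (3 * K + 3) * (K + 1) / κ = 4 * (((3 * K + 3) * (K + 1)) * (1 / κ)) := by ring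
    have h1 : (3 * K + 3) * (K + 1) ≤ (6 * X) * (2 * X) := mul_le_mul hA (by linarith) (by linarith) (by linarith)
    have h2 : ((3 * K + 3) * (K + 1)) * (1 / κ) ≤ ((6 * X) * (2 * X)) * Z := mul_le_mul h1 huZ hu0.le (by positivity)
    have h3 : X ≤ X ^ 2 * Z := by nlinarith [mul_le_mul hX2 hZ1 zero_le_one (by positivity : (0:ℝ) ≤ X ^ 2)]
    have h4 : 1 ≤ X ^ 2 * Z := by linarith
    rw [e]
    nlinarith
  have p1 : 0 ≤ 4 * (3 * K + 3) / κ + 1 := by positivity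
  have p2 : 0 ≤ 2 * (3 * K + 3) + 4 * (3 * K + 3) * (K + 1) / κ + 1 := by positivity
  have s1 : Kc ^ 2 ≤ ((c₁ : ℝ) * X ^ e₁) ^ 2 := pow_le_pow_left₀ hKc0 hKc 2
  have s2 : K ^ 2 ≤ X ^ 2 := pow_le_pow_left₀ (by linarith) hKX 2
  calc _ ≤ 2 * ((c₁ : ℝ) * X ^ e₁) ^ 2 * (X ^ 2 * ((25 * (X * Z)) * (61 * (X ^ 2 * Z)))) := by gcongr
    _ = _ := by
        rw [hZ]
        push_cast
        ring

/-- the choice of the separation `κ` -/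
theorem k8c_rb_kap {S K X Kc : ℝ} {c₁ e₁ : ℕ} (hS : 0 < S) (hK : 1 ≤ K) (hKX : K ≤ X) (hKc1 : 1 ≤ Kc) (hKc : Kc ≤ (c₁ : ℝ) * X ^ e₁) :
    ∃ κ : ℝ, 0 < κ ∧ 2 * κ ≤ 1 ∧ K * (2 * κ) ^ S ≤ 1 / (2 * Kc) ∧
      1 ≤ κ * (((2 * (4 * c₁) ^ ⌈1 / S⌉₊ : ℕ) : ℝ) * X ^ ((e₁ + 1) * ⌈1 / S⌉₊)) := by
  have hX : 1 ≤ X := hK.trans hKX
  obtain ⟨B, hB⟩ : ∃ B : ℝ, B = 4 * K * Kc := ⟨_, rfl⟩
  have hB1 : 1 ≤ B := by rw [hB]; nlinarith
  have hB0 : 0 < B := by linarith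
  have hBle : B ≤ (4 * c₁ : ℝ) * X ^ (e₁ + 1) := by
    rw [hB, pow_succ]
    have : K * Kc ≤ X * ((c₁ : ℝ) * X ^ e₁) := mul_le_mul hKX hKc (by linarith) (by linarith)
    nlinarith
  have hr0 : 0 < B ^ (1 / S) := Real.rpow_pos_of_pos hB0 _
  have hr1 : 1 ≤ B ^ (1 / S) := Real.one_le_rpow hB1 (by positivity)
  have hrp : B ^ (1 / S) ≤ B ^ ⌈1 / S⌉₊ := by
    rw [← Real.rpow_natCast]
    exact Real.rpow_le_rpow_of_exponent_le hB1 (Nat.le_ceil _)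
  refine ⟨(B ^ (1 / S))⁻¹ / 2, by positivity, ?_, ?_, ?_⟩
  · have : (B ^ (1 / S))⁻¹ ≤ 1 := inv_le_one_of_one_le₀ hr1
    linarith
  · have e1 : 2 * ((B ^ (1 / S))⁻¹ / 2) = (B ^ (1 / S))⁻¹ := by ring
    rw [e1, Real.inv_rpow hr0.le, ← Real.rpow_mul hB0.le, one_div_mul_cancel hS.ne', Real.rpow_one, hB]
    have e2 : K * (4 * K * Kc)⁻¹ = 1 / (4 * Kc) := by
      field_simp
    rw [e2]
    apply one_div_le_one_div_of_le (by linarith)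
    linarith
  · have h1 : B ^ ⌈1 / S⌉₊ ≤ ((4 * c₁ : ℝ) * X ^ (e₁ + 1)) ^ ⌈1 / S⌉₊ := pow_le_pow_left₀ hB0.le hBle _
    have e : (((2 * (4 * c₁) ^ ⌈1 / S⌉₊ : ℕ) : ℝ) * X ^ ((e₁ + 1) * ⌈1 / S⌉₊)) = 2 * ((4 * c₁ : ℝ) * X ^ (e₁ + 1)) ^ ⌈1 / S⌉₊ := by
      push_cast
      rw [mul_pow (4 * (c₁ : ℝ)), mul_pow, ← pow_mul]
      ring
    rw [e]
    have h2 : B ^ (1 / S) ≤ ((4 * c₁ : ℝ) * X ^ (e₁ + 1)) ^ ⌈1 / S⌉₊ := hrp.trans h1
    have e3 : (B ^ (1 / S))⁻¹ / 2 * (2 * ((4 * c₁ : ℝ) * X ^ (e₁ + 1)) ^ ⌈1 / S⌉₊) = ((4 * c₁ : ℝ) * X ^ (e₁ + 1)) ^ ⌈1 / S⌉₊ / B ^ (1 / S) := by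
      field_simp
    rw [e3, le_div_iff₀ hr0]
    linarith

theorem k8c_rel_le_one {c : K7bPar} {s g η m ω δ : ℝ} (hr : K8cRel c s g η m ω δ) :
    0 < c.a s ∧ c.a s ≤ 1 ∧ ω ≤ 1 ∧ c.χ ≤ δ ∧ c.χ ≤ c.a s := by
  have hN1 := hr.wf.N1
  have hN0 : 0 < c.N := by linarith
  have ha0 : 0 < c.a s := Real.rpow_pos_of_pos hN0 _
  have ha1 : c.a s ≤ 1 := Real.rpow_le_one_of_one_le_of_nonpos hN1 (by linarith [hr.s0])
  have ha0' : 0 < c.a (s + g) := Real.rpow_pos_of_pos hN0 _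
  have ha1' : c.a (s + g) ≤ 1 := Real.rpow_le_one_of_one_le_of_nonpos hN1 (by linarith [hr.s0, hr.g0])
  have hω : ω ≤ 1 := by
    have h1 := hr.r_ω
    have h2 : c.a (s + g) ^ 2 ≤ 1 := pow_le_one₀ ha0'.le ha1'
    have h3 : δ * c.a (s + g) ^ 2 ≤ 1 * 1 := mul_le_mul hr.δ1 h2 (by positivity) zero_le_one
    linarith
  have h4 : ω * c.a s ^ 2 ≤ c.a s := by
    have : ω * c.a s ^ 2 ≤ 1 * (c.a s * 1) := by
      refine mul_le_mul hω ?_ (by positivity) zero_le_one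
      rw [pow_two]
      exact mul_le_mul_of_nonneg_left ha1 ha0.le
    linarith
  have h5 : 0 ≤ ω * c.a s ^ 2 := mul_nonneg hr.ω0.le (by positivity)
  refine ⟨ha0, ha1, hω, ?_, ?_⟩
  · refine hr.r_χ.trans ?_
    have : δ * (ω * c.a s ^ 2) ≤ δ * 1 := mul_le_mul_of_nonneg_left (h4.trans ha1) hr.δ0.le
    linarith
  · refine hr.r_χ.trans ?_
    have : δ * (ω * c.a s ^ 2) ≤ 1 * c.a s := mul_le_mul hr.δ1 h4 h5 zero_le_one
    linarith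

theorem k8c_rowbins (S : ℝ) (hS : 0 < S) : ∃ C : ℕ, ∀ (c : K7bPar) (H : K7bHor) (K ε s g η m ω δ : ℝ) (E : Set (H.Lam × ℝ)),
    c.S = S → K8cRel c s g η m ω δ → 1 ≤ K → 0 < ε → ε ≤ 1 → (C : ℝ) * (K / ε) ^ C * δ ≤ 1 → H.Ok c K → E ⊆ H.Sp → MeasurableSet E →
    H.Slopes c K E → K8cDList H c s m K E → K8cRowOk H c s (3 * s) K E →
    ∃ E' ⊆ E, MeasurableSet E' ∧ H.lam (E \ E') ≤ ENNReal.ofReal ε ∧ K8cRBins H c s (3 * s) m ((C : ℝ) * (K / ε) ^ C) E' := by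
  obtain ⟨C₀, hC₀⟩ := k8c_row_opt
  obtain ⟨c₁, hc₁⟩ : ∃ c₁ : ℕ, c₁ = 4 * (C₀ + 2) := ⟨_, rfl⟩
  obtain ⟨e₁, he₁⟩ : ∃ e₁ : ℕ, e₁ = C₀ + 3 := ⟨_, rfl⟩
  obtain ⟨c₂, hc₂⟩ : ∃ c₂ : ℕ, c₂ = 2 * (4 * c₁) ^ ⌈1 / S⌉₊ := ⟨_, rfl⟩
  obtain ⟨e₂, he₂⟩ : ∃ e₂ : ℕ, e₂ = (e₁ + 1) * ⌈1 / S⌉₊ := ⟨_, rfl⟩
  have hc₂1 : 1 ≤ c₂ := by
    rw [hc₂]
    have : 1 ≤ (4 * c₁) ^ ⌈1 / S⌉₊ := Nat.one_le_pow _ _ (by omega)
    omega
  refine ⟨3050 * c₁ ^ 2 * c₂ ^ 2 + (2 * e₁ + 2 * e₂ + 5) + c₂ + C₀, ?_⟩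
  obtain ⟨C, hC⟩ : ∃ C : ℕ, C = 3050 * c₁ ^ 2 * c₂ ^ 2 + (2 * e₁ + 2 * e₂ + 5) + c₂ + C₀ := ⟨_, rfl⟩
  rw [← hC]
  intro c H K ε s g η m ω δ E hcS hr hK hε hε1 hδ h hE hm hSl hD hR
  have hKX : K ≤ K / ε := by
    rw [le_div_iff₀ hε]
    nlinarith
  have hX : 1 ≤ K / ε := hK.trans hKX
  obtain ⟨ha0, ha1, hω1, hχδ, hχa⟩ := k8c_rel_le_one hr
  -- options
  have hδ0 : (C₀ : ℝ) * K ^ C₀ * δ ≤ 1 := by
    refine le_trans (mul_le_mul_of_nonneg_right ?_ hr.δ0.le) hδ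
    calc (C₀ : ℝ) * K ^ C₀ ≤ (C₀ : ℝ) * (K / ε) ^ C₀ := by gcongr
      _ ≤ _ := k8c_rb_pw hX (by exact_mod_cast (by omega : C₀ ≤ C)) (by omega)
  obtain ⟨hmeas, hopt⟩ := hC₀ c H K s g η m ω δ E hr hK hδ0 h hE hm hSl
  obtain ⟨n, hn⟩ : ∃ n : ℕ, n = ⌈(C₀ : ℝ) * K ^ C₀⌉₊ + 1 := ⟨_, rfl⟩
  have hn1 : (1 : ℝ) ≤ n := by rw [hn]; push_cast; linarith [Nat.cast_nonneg (α := ℝ) ⌈(C₀ : ℝ) * K ^ C₀⌉₊]
  have hnle : (n : ℝ) ≤ (C₀ : ℝ) * K ^ C₀ + 2 := by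
    rw [hn]
    push_cast
    have := Nat.ceil_lt_add_one (show (0 : ℝ) ≤ (C₀ : ℝ) * K ^ C₀ by positivity)
    linarith
  have hopt' : ∀ e, ∃ L : Finset (H.Q × (ℤ × ℤ) × (ℤ × ℤ)), L.card ≤ n ∧
      ∀ z ∈ E, H.eh z = e → (H.lab s z, k8cPc H s m z, k8cGb H (3 * s) (c.a s) z) ∈ L := by
    intro e
    obtain ⟨L, hL1, hL2⟩ := hopt e
    refine ⟨L, ?_, hL2⟩
    have : L.card ≤ ⌈(C₀ : ℝ) * K ^ C₀⌉₊ := by
      have h1 : (L.card : ℝ) ≤ (⌈(C₀ : ℝ) * K ^ C₀⌉₊ : ℝ) := hL1.trans (Nat.le_ceil _)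
      exact_mod_cast h1
    omega
  obtain ⟨E', hE'E, hE'm, hloss, hcond⟩ := k8c_cond c H n hK hε h hE hm
    (fun z => (H.lab s z, k8cPc H s m z, k8cGb H (3 * s) (c.a s) z)) hmeas hopt' Prod.snd
  refine ⟨E', hE'E, hE'm, hloss, ?_⟩
  -- the numbers
  have eKc : 4 * (n : ℝ) * K ^ 3 / ε ^ 2 = 4 * n * K * (K / ε) ^ 2 := by
    field_simp
  have hKc1 : 1 ≤ 4 * (n : ℝ) * K ^ 3 / ε ^ 2 := by
    rw [eKc]
    have h1 : (1 : ℝ) ≤ (K / ε) ^ 2 := one_le_pow₀ hX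
    have h2 : (1 : ℝ) ≤ n * K := by nlinarith
    nlinarith
  have hKcle : 4 * (n : ℝ) * K ^ 3 / ε ^ 2 ≤ (c₁ : ℝ) * (K / ε) ^ e₁ := by
    rw [eKc, hc₁, he₁]
    push_cast
    have h1 : K ^ C₀ ≤ (K / ε) ^ C₀ := pow_le_pow_left₀ (by linarith) hKX _
    have h2 : (1 : ℝ) ≤ (K / ε) ^ C₀ := one_le_pow₀ hX
    have h3 : (n : ℝ) ≤ ((C₀ : ℝ) + 2) * (K / ε) ^ C₀ := by nlinarith
    have h4 : (n : ℝ) * K ≤ (((C₀ : ℝ) + 2) * (K / ε) ^ C₀) * (K / ε) := mul_le_mul h3 hKX (by linarith) (by positivity)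
    have h5 : (n : ℝ) * K * (K / ε) ^ 2 ≤ (((C₀ : ℝ) + 2) * (K / ε) ^ C₀) * (K / ε) * (K / ε) ^ 2 :=
      mul_le_mul_of_nonneg_right h4 (by positivity)
    calc 4 * (n : ℝ) * K * (K / ε) ^ 2 = 4 * ((n : ℝ) * K * (K / ε) ^ 2) := by ring
      _ ≤ 4 * ((((C₀ : ℝ) + 2) * (K / ε) ^ C₀) * (K / ε) * (K / ε) ^ 2) := by linarith
      _ = _ := by ring
  obtain ⟨κ, hκ0, hκ1, hκS, hκY⟩ := k8c_rb_kap hS hK hKX hKc1 hKcle
  rw [← hc₂, ← he₂] at hκY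
  have hχκ : c.χ ≤ κ := by
    have h1 : (c₂ : ℝ) * (K / ε) ^ e₂ ≤ (C : ℝ) * (K / ε) ^ C :=
      k8c_rb_pw hX (by exact_mod_cast (by omega : c₂ ≤ C)) (by omega)
    have h2 : (c₂ : ℝ) * (K / ε) ^ e₂ * δ ≤ 1 := (mul_le_mul_of_nonneg_right h1 hr.δ0.le).trans hδ
    have h3 : 0 < (c₂ : ℝ) * (K / ε) ^ e₂ := by
      have : (0 : ℝ) < c₂ := by exact_mod_cast hc₂1
      positivity
    have h4 : (c₂ : ℝ) * (K / ε) ^ e₂ * δ ≤ (c₂ : ℝ) * (K / ε) ^ e₂ * κ := by linarith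
    exact hχδ.trans (le_of_mul_le_mul_left h4 h3)
  have hχ0 := hr.wf.χ0
  have hpal : K * (κ + c.χ) ^ c.S ≤ 1 / (2 * (4 * (n : ℝ) * K ^ 3 / ε ^ 2)) := by
    rw [hcS]
    refine le_trans ?_ hκS
    refine mul_le_mul_of_nonneg_left ?_ (by linarith)
    exact Real.rpow_le_rpow (by linarith) (by linarith) hS.le
  have hcore := k8c_rb_core c H h hK (by linarith) ha0 hχ0 hχa hr.wf.χ1 hκ0 (by linarith) hpal (hE'E.trans hE) hE'm hcond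
    (fun q P b T hT => hD q P b T fun y hy => by
      obtain ⟨z, hz, hrest⟩ := hT y hy
      exact ⟨z, hE'E hz, hrest⟩)
    (fun z hz => hR z (hE'E hz))
  intro q P Rs hRs
  refine (hcore q P Rs hRs).trans ?_
  refine (k8c_rb_num1 hK hKX (by linarith) hKcle hκ0 hc₂1 hκY).trans ?_
  exact k8c_rb_pw hX (by exact_mod_cast (by omega : 3050 * c₁ ^ 2 * c₂ ^ 2 ≤ C)) (by omega)

end Claimed.Agent.R252

end PkS8cH3Rbins

section PkS8cH4Fit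

/-!
# Row 252, S8c, leaves L-252-S8c-H4a (`k8c_joint_cap`), H4b (`k8c_law_dom`), H4 (`k8c_fit_data`)      CONTRACT: sorries.      08 l.125-133      (architect helper54)
PAPER-FREE.  Read `Re6/FitDefs.lean` (structure `Re6Fit`), `S7b/HorDefs.lean`, `S8c/HDefs.lean`.   `a = c.a s = h²`, `h = c.h s`.

`k8c_joint_cap`.  The event lies in: `(t, Z)` in a square of side `m bl q ≤ K h m`; `|Y - plane_q (t, Z)| ≤ K h²` (`box`, `labmem`), `|ct q| ≤ 1 + K h`, `|cZ q| ≤ 3K`; `v ∈ [k m, (k+1) m)`, `m = n χ` : exactly the `n` bins `b = k n, .., k n + n - 1` of mesh `χ`,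
`∑_b pal (k7bIv χ b) = pal (k7bIv m k)` (disjoint union).   Cover the base by cells of mesh `ξ` : `≤ (K h m/ξ + 2)²` columns, `≤ (2 K h² + 8 K ξ)/ξ + 2` cells per column.
In a fine cell `Cc` and for an entry `L ∈ ent q` (`≤ K`; `entmem`) : `|X z - k7bAff L (corner of Cc)| ≤ K a + (ordinary slopes of L ≤ C K²)·3ξ ≤ (K + 1) a =: r` (`entfit`, `Slopes` at a witness), `ϱ ≤ r ≤ 1`.
`capJ` : `K ξ³ r^d pal (k7bIv χ b)`, `r^d ≤ (K + 1) a^d`.     Sum `≤ C K^C h⁴ m² a^d pal (k7bIv m k)`;   `mQ q ≥ (h/K) (a^d h³/K)` (`bllen`, `νQ`).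

`k8c_law_dom`.  `E ∩ k8cOn ⊆ asg q ×ˢ blk q` (`labmem`);  `lam ≤ K ν ⊗ time`;  the map `t ↦ (t - bt)/bl` sends `volume.restrict (blk q)` to `bl q • volume.restrict [0,1)`;  `mQ q = bl q ν(asg q) ∈ (0, ∞)`.

`k8c_fit_data` : the fields of `Re6Fit` one by one.  `hTm` : on `k8cW0` the entry takes finitely many values (`entmem`), fibres measurable (`ment`).   `hpal` : `palcap` with `x = (a+b)/2`, `r = b - a ≥ m ≥ χ`.   `hbd` : `|Z - cZ| ≤ K h ≤ K² bl q`.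
`hcap` : `k8c_joint_cap` (`re6Zc m (k8cZ0 H q) H.v w = k8cPc H s m (k8cBack H q w)` on `k8cW0`, `Z0 + v t̂ = (Z(t) - cZ)/bl`).   `hbins` : `K8cRBins` (the set of occurring bins is finite with `≤ K` elements; centres `(R₁ a, R₂ a)`).   `hrow`, `hT` : `K8cRowOk`.
-/

set_option autoImplicit false

namespace Claimed.Agent.R252

open MeasureTheory
open scoped ENNReal BigOperators

/-! ### helpers of `k8c_joint_cap` (prefix `k8c_jc_`) -/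

/-- the elementary facts on the scales -/
theorem k8c_jc_rel {c : K7bPar} {s g η m ω δ : ℝ} (hR : K8cRel c s g η m ω δ) :
    0 < c.a s ∧ c.a s ≤ 1 ∧ 0 < c.h s ∧ c.h s ≤ 1 ∧ c.h s ^ 2 = c.a s ∧ m ≤ 1 ∧ ω ≤ 1 ∧ 0 < c.a (s + g) ∧ c.a (s + g) ≤ c.a s := by
  have hN1 := hR.wf.N1
  have hN : 0 < c.N := by linarith
  have ha0 : 0 < c.a s := Real.rpow_pos_of_pos hN _
  have ha1 : c.a s ≤ 1 := Real.rpow_le_one_of_one_le_of_nonpos hN1 (by linarith [hR.s0])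
  have hh0 : 0 < c.h s := Real.rpow_pos_of_pos hN _
  have hh1 : c.h s ≤ 1 := hR.r_h.trans hR.δ1
  have hha : c.h s ^ 2 = c.a s := by
    unfold K7bPar.h K7bPar.a
    rw [← Real.rpow_natCast, ← Real.rpow_mul hN.le, hR.khalf]
    congr 1
    push_cast
    ring
  have ha'0 : 0 < c.a (s + g) := Real.rpow_pos_of_pos hN _
  have ha'1 : c.a (s + g) ≤ c.a s := Real.rpow_le_rpow_of_exponent_le hN1 (by linarith [hR.g0])
  have hη1 : η ≤ 1 := hR.r_η.trans (mul_le_one₀ hR.δ1 ha0.le ha1)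
  have hm1 : m ≤ 1 := hR.r_m.trans (mul_le_one₀ hR.δ1 hR.η0.le hη1)
  have hω1 : ω ≤ 1 := hR.r_ω.trans (mul_le_one₀ hR.δ1 (by positivity) (pow_le_one₀ ha'0.le (ha'1.trans ha1)))
  exact ⟨ha0, ha1, hh0, hh1, hha, hm1, hω1, ha'0, ha'1⟩

theorem k8c_jc_iv {χ : ℝ} (hχ : 0 < χ) (b : ℤ) (x : ℝ) : k7bBin χ x = b ↔ (b : ℝ) * χ ≤ x ∧ x < ((b : ℝ) + 1) * χ := by
  unfold k7bBin
  rw [Int.floor_eq_iff, le_div_iff₀ hχ, div_lt_iff₀ hχ]

theorem k8c_jc_bins {ξ : ℝ} (hξ : 0 < ξ) (x₀ w : ℝ) (hw : 0 ≤ w) :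
    ((Finset.Icc ⌊x₀ / ξ⌋ ⌊(x₀ + w) / ξ⌋).card : ℝ) ≤ w / ξ + 2 ∧
      ∀ x, x₀ ≤ x → x ≤ x₀ + w → k7bBin ξ x ∈ Finset.Icc ⌊x₀ / ξ⌋ ⌊(x₀ + w) / ξ⌋ := by
  constructor
  · rw [Int.card_Icc]
    have h1 : ⌊x₀ / ξ⌋ ≤ ⌊(x₀ + w) / ξ⌋ := Int.floor_le_floor (div_le_div_of_nonneg_right (by linarith) hξ.le)
    have h2 : ((⌊(x₀ + w) / ξ⌋ + 1 - ⌊x₀ / ξ⌋).toNat : ℤ) = ⌊(x₀ + w) / ξ⌋ + 1 - ⌊x₀ / ξ⌋ := Int.toNat_of_nonneg (by omega)
    have h3 : ((⌊(x₀ + w) / ξ⌋ + 1 - ⌊x₀ / ξ⌋).toNat : ℝ) = (⌊(x₀ + w) / ξ⌋ : ℝ) + 1 - (⌊x₀ / ξ⌋ : ℝ) := by exact_mod_cast h2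
    rw [h3]
    have h4 := Int.floor_le ((x₀ + w) / ξ)
    have h5 := Int.lt_floor_add_one (x₀ / ξ)
    have h6 : (x₀ + w) / ξ = x₀ / ξ + w / ξ := add_div _ _ _
    linarith
  · intro x h1 h2
    rw [Finset.mem_Icc]
    exact ⟨Int.floor_le_floor (div_le_div_of_nonneg_right h1 hξ.le), Int.floor_le_floor (div_le_div_of_nonneg_right h2 hξ.le)⟩

theorem k8c_jc_cover {α ι : Type*} [MeasurableSpace α] (μ : Measure α) (A : Set α) (T : Finset ι) (B : Finset ℤ) (φ : α → ι) (β : α → ℤ)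
    (hφ : ∀ z ∈ A, φ z ∈ T) (hβ : ∀ z ∈ A, β z ∈ B) (c₀ : ℝ≥0∞) (p : ℤ → ℝ≥0∞)
    (h : ∀ i ∈ T, ∀ b ∈ B, μ (A ∩ {z | φ z = i ∧ β z = b}) ≤ c₀ * p b) : μ A ≤ T.card * c₀ * ∑ b ∈ B, p b := by
  have hsub : A ⊆ ⋃ τ ∈ T ×ˢ B, (A ∩ {z | φ z = τ.1 ∧ β z = τ.2}) := by
    intro z hz
    simp only [Set.mem_iUnion]
    exact ⟨(φ z, β z), Finset.mem_product.2 ⟨hφ z hz, hβ z hz⟩, hz, rfl, rfl⟩
  calc μ A ≤ μ (⋃ τ ∈ T ×ˢ B, (A ∩ {z | φ z = τ.1 ∧ β z = τ.2})) := measure_mono hsub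
    _ ≤ ∑ τ ∈ T ×ˢ B, μ (A ∩ {z | φ z = τ.1 ∧ β z = τ.2}) := measure_biUnion_finset_le _ _
    _ ≤ ∑ τ ∈ T ×ˢ B, c₀ * p τ.2 :=
        Finset.sum_le_sum fun τ hτ => h τ.1 (Finset.mem_product.1 hτ).1 τ.2 (Finset.mem_product.1 hτ).2
    _ = ∑ i ∈ T, ∑ b ∈ B, c₀ * p b := Finset.sum_product _ _ _
    _ = T.card * c₀ * ∑ b ∈ B, p b := by rw [Finset.sum_const, ← Finset.mul_sum, nsmul_eq_mul, mul_assoc]

/-- the palette bins nest -/
theorem k8c_jc_pal (pal : Measure ℝ) {χ m : ℝ} (hχ : 0 < χ) (n : ℕ) (hm : m = n * χ) (k : ℤ) :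
    ∑ b ∈ Finset.Ico (k * n) (k * n + n), pal (k7bIv χ b) ≤ pal (k7bIv m k) := by
  rw [← measure_biUnion_finset]
  · refine measure_mono ?_
    intro x hx
    simp only [Set.mem_iUnion] at hx
    obtain ⟨b, hb, hx1, hx2⟩ := hx
    rw [Finset.mem_Ico] at hb
    have b1 : ((k * n : ℤ) : ℝ) ≤ (b : ℝ) := by exact_mod_cast hb.1
    have b2 : (b : ℝ) + 1 ≤ ((k * n + n : ℤ) : ℝ) := by exact_mod_cast hb.2
    push_cast at b1 b2
    constructor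
    · calc (k : ℝ) * m = (k * n) * χ := by rw [hm]; ring
        _ ≤ b * χ := mul_le_mul_of_nonneg_right b1 hχ.le
        _ ≤ x := hx1
    · calc x < (b + 1) * χ := hx2
        _ ≤ (k * n + n) * χ := mul_le_mul_of_nonneg_right b2 hχ.le
        _ = ((k : ℝ) + 1) * m := by rw [hm]; ring
  · intro b _ b' _ hbb
    refine Set.disjoint_left.2 fun x hx hx' => hbb ?_
    have e1 := (k8c_jc_iv hχ b x).2 hx
    have e2 := (k8c_jc_iv hχ b' x).2 hx'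
    exact e1.symm.trans e2
  · intro b _
    exact measurableSet_Ico

theorem k8c_jc_sub {χ m : ℝ} (hχ : 0 < χ) (n : ℕ) (hm : m = n * χ) (hm0 : 0 < m) {k : ℤ} {v : ℝ} (h : k7bBin m v = k) :
    k7bBin χ v ∈ Finset.Ico (k * n) (k * n + n) := by
  obtain ⟨h1, h2⟩ := (k8c_jc_iv hm0 k v).1 h
  rw [Finset.mem_Ico]
  unfold k7bBin
  constructor
  · rw [Int.le_floor, le_div_iff₀ hχ]
    push_cast
    calc (k : ℝ) * n * χ = k * m := by rw [hm]; ring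
      _ ≤ v := h1
  · rw [Int.floor_lt, div_lt_iff₀ hχ]
    push_cast
    calc v < ((k : ℝ) + 1) * m := h2
      _ = (k * n + n) * χ := by rw [hm]; ring

/-- the geometry of a point of `Sp` in its label -/
theorem k8c_jc_geo {c : K7bPar} {H : K7bHor} {K s : ℝ} (hK : 1 ≤ K) (h : H.Ok c K) (hs : s ∈ c.G) (hh0 : 0 < c.h s) (hh1 : c.h s ≤ 1)
    {z : H.Lam × ℝ} (hz : z ∈ H.Sp) :
    z.2 ∈ Set.Icc (0 : ℝ) 1 ∧ |H.Zt z.1 z.2| ≤ 2 * K ∧ |H.ct (H.lab s z)| ≤ 2 * K ∧ |H.cZ (H.lab s z)| ≤ 3 * K ∧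
      H.base z ∈ k7bBox (H.ct (H.lab s z)) (H.cZ (H.lab s z)) (H.cY (H.lab s z)) (c.h s) K := by
  have ht := h.time z hz
  obtain ⟨b1, b2, b3, b4⟩ := h.bdd z hz
  obtain ⟨l1, l2, l3⟩ := h.labmem s hs z hz
  have hbox := h.box s hs _ l1 _ l3 _ l2
  have hZ : |H.Zt z.1 z.2| ≤ 2 * K := by
    unfold K7bHor.Zt
    calc |H.p z.1 + z.2 * H.v z.1| ≤ |H.p z.1| + |z.2 * H.v z.1| := abs_add_le _ _
      _ ≤ K + 1 * K := by
          rw [abs_mul]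
          exact add_le_add b1 (mul_le_mul (by rw [abs_of_nonneg ht.1]; exact ht.2) b2 (abs_nonneg _) zero_le_one)
      _ = 2 * K := by ring
  have hKh : K * c.h s ≤ K := mul_le_of_le_one_right (by linarith) hh1
  obtain ⟨x1, x2, x3⟩ := hbox
  have x1' : |z.2 - H.ct (H.lab s z)| ≤ K * c.h s := x1
  have x2' : |H.Zt z.1 z.2 - H.cZ (H.lab s z)| ≤ K * c.h s := x2
  refine ⟨ht, hZ, ?_, ?_, ⟨x1, x2, x3⟩⟩
  · rw [abs_le] at x1' ⊢
    constructor <;> linarith [ht.1, ht.2, x1'.1, x1'.2]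
  · rw [abs_le] at x2' hZ ⊢
    constructor <;> linarith [x2'.1, x2'.2, hZ.1, hZ.2]

/-- the ordinary slopes of an entry of depth `s` (`a = h²`) -/
theorem k8c_jc_slopes {c : K7bPar} {H : K7bHor} {K s : ℝ} (hK : 1 ≤ K) (h : H.Ok c K) (hs : s ∈ c.G) (hh0 : 0 < c.h s) (hh1 : c.h s ≤ 1)
    (hha : c.h s ^ 2 = c.a s) {E : Set (H.Lam × ℝ)} (hE : E ⊆ H.Sp) (hSl : H.Slopes c K E) {z : H.Lam × ℝ} (hz : z ∈ E) :
    |(H.entOf s z).2.1| ≤ 6 * K ^ 2 ∧ |(H.entOf s z).2.2.1| ≤ 4 * K ∧ |(H.entOf s z).2.2.2| ≤ 2 * K := by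
  obtain ⟨s1, s2, s3⟩ := hSl s hs z hz
  obtain ⟨ht, hZ, -⟩ := k8c_jc_geo hK h hs hh0 hh1 (hE hz)
  have e1 : c.a s / c.h s = c.h s := by
    rw [← hha]; field_simp
  have e2 : c.a s / c.h s ^ 2 = 1 := by
    rw [hha]; exact div_self (by rw [← hha]; positivity)
  rw [e1] at s1 s2
  rw [e2] at s3
  have hK0 : 0 ≤ K := by linarith
  have q1 : K * (1 + c.h s) ≤ 2 * K := by nlinarith
  have q3 : |(H.entOf s z).2.2.2| ≤ 2 * K := by linarith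
  have q4 : |(H.entOf s z).2.2.2 * -(H.Zt z.1 z.2)| ≤ 2 * K * (2 * K) := by
    rw [abs_mul, abs_neg]
    exact mul_le_mul q3 hZ (abs_nonneg _) (by linarith)
  have q5 : |(H.entOf s z).2.2.2 * z.2| ≤ 2 * K * 1 := by
    rw [abs_mul]
    exact mul_le_mul q3 (by rw [abs_of_nonneg ht.1]; exact ht.2) (abs_nonneg _) (by linarith)
  refine ⟨?_, ?_, q3⟩
  · have : |(H.entOf s z).2.1| ≤ |(H.entOf s z).2.1 + (H.entOf s z).2.2.2 * -(H.Zt z.1 z.2)| + |(H.entOf s z).2.2.2 * -(H.Zt z.1 z.2)| := by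
      have := abs_sub ((H.entOf s z).2.1 + (H.entOf s z).2.2.2 * -(H.Zt z.1 z.2)) ((H.entOf s z).2.2.2 * -(H.Zt z.1 z.2))
      simpa using this
    nlinarith
  · have : |(H.entOf s z).2.2.1| ≤ |(H.entOf s z).2.2.1 + (H.entOf s z).2.2.2 * z.2| + |(H.entOf s z).2.2.2 * z.2| := by
      have := abs_sub ((H.entOf s z).2.2.1 + (H.entOf s z).2.2.2 * z.2) ((H.entOf s z).2.2.2 * z.2)
      simpa using this
    linarith

theorem k8c_jc_same {ξ : ℝ} (hξ : 0 < ξ) {x y : ℝ} (h : k7bBin ξ x = k7bBin ξ y) : |x - y| ≤ ξ := by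
  obtain ⟨a1, a2⟩ := (k8c_jc_iv hξ _ x).1 h
  obtain ⟨b1, b2⟩ := (k8c_jc_iv hξ _ y).1 rfl
  rw [abs_le]
  constructor <;> linarith

/-- same fine cell, same entry: the residuals are close -/
theorem k8c_jc_close {c : K7bPar} {H : K7bHor} {K s : ℝ} (hK : 1 ≤ K) (h : H.Ok c K) (hs : s ∈ c.G) (hh0 : 0 < c.h s) (hh1 : c.h s ≤ 1)
    (hha : c.h s ^ 2 = c.a s) (hξ : 0 < c.ξ) {E : Set (H.Lam × ℝ)} (hE : E ⊆ H.Sp) (hSl : H.Slopes c K E) {z z' : H.Lam × ℝ} (hz : z ∈ E)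
    (hz' : z' ∈ E) (hcell : k7bCell c.ξ (H.base z) = k7bCell c.ξ (H.base z')) (hent : H.entOf s z = H.entOf s z') :
    |H.X z - H.X z'| ≤ 2 * K * c.a s + 12 * K ^ 2 * c.ξ := by
  obtain ⟨q1, q2, q3⟩ := k8c_jc_slopes hK h hs hh0 hh1 hha hE hSl hz
  have f1 := h.entfit s hs z (hE hz) z.2 (h.labmem s hs z (hE hz)).2.1
  have f2 := h.entfit s hs z' (hE hz') z'.2 (h.labmem s hs z' (hE hz')).2.1
  rw [← hent] at f2
  have c1 : |(H.base z).1 - (H.base z').1| ≤ c.ξ := k8c_jc_same hξ (congrArg Prod.fst hcell)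
  have c2 : |(H.base z).2.1 - (H.base z').2.1| ≤ c.ξ := k8c_jc_same hξ (congrArg (fun u => u.2.1) hcell)
  have c3 : |(H.base z).2.2 - (H.base z').2.2| ≤ c.ξ := k8c_jc_same hξ (congrArg (fun u => u.2.2) hcell)
  have hK0 : 0 ≤ K := by linarith
  have d1 : |(H.entOf s z).2.1 * ((H.base z).1 - (H.base z').1)| ≤ 6 * K ^ 2 * c.ξ := by
    rw [abs_mul]; exact mul_le_mul q1 c1 (abs_nonneg _) (by positivity)
  have d2 : |(H.entOf s z).2.2.1 * ((H.base z).2.1 - (H.base z').2.1)| ≤ 4 * K * c.ξ := by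
    rw [abs_mul]; exact mul_le_mul q2 c2 (abs_nonneg _) (by positivity)
  have d3 : |(H.entOf s z).2.2.2 * ((H.base z).2.2 - (H.base z').2.2)| ≤ 2 * K * c.ξ := by
    rw [abs_mul]; exact mul_le_mul q3 c3 (abs_nonneg _) (by positivity)
  have e : H.X z - H.X z' = (H.Xt z.1 z.2 - k7bAff (H.entOf s z) (H.bs z.1 z.2)) - (H.Xt z'.1 z'.2 - k7bAff (H.entOf s z) (H.bs z'.1 z'.2))
      + ((H.entOf s z).2.1 * ((H.base z).1 - (H.base z').1) + (H.entOf s z).2.2.1 * ((H.base z).2.1 - (H.base z').2.1)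
        + (H.entOf s z).2.2.2 * ((H.base z).2.2 - (H.base z').2.2)) := by
    unfold K7bHor.X K7bHor.base k7bAff
    ring
  have hKK : K * c.ξ ≤ K ^ 2 * c.ξ := mul_le_mul_of_nonneg_right (by nlinarith) hξ.le
  rw [e]
  rw [abs_le] at f1 f2 d1 d2 d3 ⊢
  constructor <;> linarith [f1.1, f1.2, f2.1, f2.2, d1.1, d1.2, d2.1, d2.2, d3.1, d3.2]

theorem k8c_joint_cap : ∃ C : ℕ, ∀ (c : K7bPar) (H : K7bHor) (K s g η m ω δ : ℝ) (E : Set (H.Lam × ℝ)) (q : H.Q) (P : ℤ × ℤ) (k : ℤ),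
    K8cRel c s g η m ω δ → 1 ≤ K → (C : ℝ) * K ^ C * δ ≤ 1 → H.Ok c K → E ⊆ H.Sp → H.Slopes c K E → q ∈ H.Qat s →
    H.lam (E ∩ {z | H.lab s z = q ∧ k8cPc H s m z = P ∧ k7bBin m (H.v z.1) = k})
      ≤ ENNReal.ofReal ((C : ℝ) * K ^ C * m ^ 2) * H.mQ q * H.pal (k7bIv m k) := by
  refine ⟨378, ?_⟩
  intro c H K s g η m ω δ E q P k hR hK hδ h hE hSl hq
  obtain ⟨ha0, ha1, hh0, hh1, hha, hm1, hω1, ha'0, ha'1⟩ := k8c_jc_rel hR
  have hs := hR.sG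
  have hξ := hR.wf.ξ0
  have hχ := hR.wf.χ0
  have hm0 := hR.m0
  have hK0 : 0 < K := by linarith
  obtain ⟨n, hn0, hmn⟩ := hR.mχ
  obtain ⟨A, hA⟩ : ∃ A : Set (H.Lam × ℝ), A = E ∩ {z | H.lab s z = q ∧ k8cPc H s m z = P ∧ k7bBin m (H.v z.1) = k} := ⟨_, rfl⟩
  rw [← hA]
  by_cases hne : A.Nonempty
  swap
  · rw [Set.not_nonempty_iff_eq_empty.1 hne]
    simp
  obtain ⟨z₁, hz₁⟩ := hne
  have hAm : ∀ z ∈ A, z ∈ E ∧ H.lab s z = q ∧ k8cPc H s m z = P ∧ k7bBin m (H.v z.1) = k := by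
    intro z hz
    rw [hA] at hz
    exact ⟨hz.1, hz.2⟩
  have hKC : ∀ (A₀ : ℝ) (e : ℕ), A₀ ≤ 378 → e ≤ 378 → A₀ * K ^ e * δ ≤ 1 := by
    intro A₀ e hA₀ he
    refine le_trans ?_ hδ
    refine mul_le_mul_of_nonneg_right ?_ hR.δ0.le
    calc A₀ * K ^ e ≤ 378 * K ^ e := mul_le_mul_of_nonneg_right hA₀ (by positivity)
      _ ≤ ((378 : ℕ) : ℝ) * K ^ 378 := by
          push_cast
          exact mul_le_mul_of_nonneg_left (pow_le_pow_right₀ hK he) (by norm_num)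
  obtain ⟨hbl1, hbl2⟩ := h.bllen s hs q hq
  have hbl0 : 0 < H.bl q := lt_of_lt_of_le (div_pos hh0 hK0) hbl1
  obtain ⟨-, -, hct, hcZ, -⟩ := k8c_jc_geo hK h hs hh0 hh1 (hE (hAm z₁ hz₁).1)
  rw [(hAm z₁ hz₁).2.1] at hct hcZ
  -- the fine mesh is small
  have e2 : c.a s ^ 2 ≤ c.a s := by nlinarith
  have e3 : c.a s ≤ c.h s := by rw [← hha]; nlinarith
  have e1 : m * ω * c.a s ^ 2 ≤ m * c.a s ^ 2 :=
    mul_le_mul_of_nonneg_right (mul_le_of_le_one_right hm0.le hω1) (sq_nonneg _)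
  have e0 : 0 ≤ m * ω * c.a s ^ 2 := by have := hR.ω0; positivity
  have hξX : c.ξ ≤ m * c.a s ^ 2 := (hR.r_ξ.trans (mul_le_of_le_one_left e0 hR.δ1)).trans e1
  have hξ1 : c.ξ ≤ c.h s * m := by
    calc c.ξ ≤ m * c.a s ^ 2 := hξX
      _ ≤ m * c.h s := mul_le_mul_of_nonneg_left (e2.trans e3) hm0.le
      _ = c.h s * m := mul_comm _ _
  have hξ2 : c.ξ ≤ c.h s ^ 2 := by
    calc c.ξ ≤ m * c.a s ^ 2 := hξX
      _ ≤ 1 * c.a s := mul_le_mul hm1 e2 (sq_nonneg _) zero_le_one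
      _ = c.h s ^ 2 := by rw [one_mul, hha]
  have hξ3 : 12 * K ^ 2 * c.ξ ≤ c.a s := by
    calc 12 * K ^ 2 * c.ξ ≤ 12 * K ^ 2 * (δ * (m * ω * c.a s ^ 2)) := mul_le_mul_of_nonneg_left hR.r_ξ (by positivity)
      _ = (12 * K ^ 2 * δ) * (m * ω * c.a s ^ 2) := by ring
      _ ≤ 1 * (m * ω * c.a s ^ 2) := mul_le_mul_of_nonneg_right (hKC 12 2 (by norm_num) (by norm_num)) e0
      _ ≤ c.a s := by
          rw [one_mul]
          calc m * ω * c.a s ^ 2 ≤ m * c.a s ^ 2 := e1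
            _ ≤ 1 * c.a s := mul_le_mul hm1 e2 (sq_nonneg _) zero_le_one
            _ = c.a s := one_mul _
  obtain ⟨r, hr⟩ : ∃ r : ℝ, r = 3 * K * c.a s := ⟨_, rfl⟩
  have hr0 : 0 < r := by rw [hr]; positivity
  have hr1 : r ≤ 1 := by
    rw [hr]
    calc 3 * K * c.a s ≤ 3 * K * δ := mul_le_mul_of_nonneg_left (e3.trans hR.r_h) (by positivity)
      _ = 3 * K ^ 1 * δ := by rw [pow_one]
      _ ≤ 1 := hKC 3 1 (by norm_num) (by norm_num)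
  have hϱ : c.ϱ ≤ r := by
    calc c.ϱ ≤ δ * c.a (s + g) := hR.r_ϱ
      _ ≤ 1 * c.a s := mul_le_mul hR.δ1 ha'1 ha'0.le zero_le_one
      _ ≤ r := by rw [hr]; nlinarith
  -- the index sets
  obtain ⟨w, hw⟩ : ∃ w : ℝ, w = H.bl q * m := ⟨_, rfl⟩
  have hw0 : 0 ≤ w := by rw [hw]; positivity
  obtain ⟨t₀, ht₀⟩ : ∃ t₀ : ℝ, t₀ = H.bt q + H.bl q * (P.1 * m) := ⟨_, rfl⟩
  obtain ⟨Z₀, hZ₀⟩ : ∃ Z₀ : ℝ, Z₀ = H.cZ q + H.bl q * (P.2 * m) := ⟨_, rfl⟩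
  obtain ⟨y₀, hy₀⟩ : ∃ y₀ : ℤ → ℤ → ℝ, y₀ = fun (i1 i2 : ℤ) => H.cY q + (-(H.cZ q) * ((i1 : ℝ) * c.ξ - H.ct q)
      + H.ct q * ((i2 : ℝ) * c.ξ - H.cZ q)) - K * c.h s ^ 2 - 5 * K * c.ξ := ⟨_, rfl⟩
  obtain ⟨Wd, hWd⟩ : ∃ Wd : ℝ, Wd = 2 * K * c.h s ^ 2 + 10 * K * c.ξ := ⟨_, rfl⟩
  have hWd0 : 0 ≤ Wd := by rw [hWd]; positivity
  obtain ⟨I1, hI1⟩ : ∃ I1 : Finset ℤ, I1 = Finset.Icc ⌊t₀ / c.ξ⌋ ⌊(t₀ + w) / c.ξ⌋ := ⟨_, rfl⟩
  obtain ⟨I2, hI2⟩ : ∃ I2 : Finset ℤ, I2 = Finset.Icc ⌊Z₀ / c.ξ⌋ ⌊(Z₀ + w) / c.ξ⌋ := ⟨_, rfl⟩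
  obtain ⟨Cells, hCells⟩ : ∃ Cells : Finset (ℤ × ℤ × ℤ), Cells = (I1 ×ˢ I2).biUnion fun i =>
      (Finset.Icc ⌊y₀ i.1 i.2 / c.ξ⌋ ⌊(y₀ i.1 i.2 + Wd) / c.ξ⌋).image fun i3 => (i.1, i.2, i3) := ⟨_, rfl⟩
  have hcells : (Cells.card : ℝ) ≤ (w / c.ξ + 2) * (w / c.ξ + 2) * (Wd / c.ξ + 2) := by
    have h1 : Cells.card ≤ ∑ i ∈ I1 ×ˢ I2, (Finset.Icc ⌊y₀ i.1 i.2 / c.ξ⌋ ⌊(y₀ i.1 i.2 + Wd) / c.ξ⌋).card := by
      rw [hCells]
      exact Finset.card_biUnion_le.trans (Finset.sum_le_sum fun i _ => Finset.card_image_le)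
    have h2 : (Cells.card : ℝ) ≤ ∑ i ∈ I1 ×ˢ I2, ((Finset.Icc ⌊y₀ i.1 i.2 / c.ξ⌋ ⌊(y₀ i.1 i.2 + Wd) / c.ξ⌋).card : ℝ) := by
      exact_mod_cast h1
    have c1 : (I1.card : ℝ) ≤ w / c.ξ + 2 := by rw [hI1]; exact (k8c_jc_bins hξ _ _ hw0).1
    have c2 : (I2.card : ℝ) ≤ w / c.ξ + 2 := by rw [hI2]; exact (k8c_jc_bins hξ _ _ hw0).1
    have p1 : 0 ≤ w / c.ξ + 2 := by positivity
    have p2 : 0 ≤ Wd / c.ξ + 2 := by positivity
    calc (Cells.card : ℝ) ≤ ∑ i ∈ I1 ×ˢ I2, ((Finset.Icc ⌊y₀ i.1 i.2 / c.ξ⌋ ⌊(y₀ i.1 i.2 + Wd) / c.ξ⌋).card : ℝ) := h2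
      _ ≤ ∑ _i ∈ I1 ×ˢ I2, (Wd / c.ξ + 2) := Finset.sum_le_sum fun i _ => (k8c_jc_bins hξ _ _ hWd0).1
      _ = (I1.card : ℝ) * (I2.card : ℝ) * (Wd / c.ξ + 2) := by
          rw [Finset.sum_const, Finset.card_product, nsmul_eq_mul]
          push_cast
          ring
      _ ≤ (w / c.ξ + 2) * (w / c.ξ + 2) * (Wd / c.ξ + 2) :=
          mul_le_mul_of_nonneg_right (mul_le_mul c1 c2 (Nat.cast_nonneg _) p1) p2
  -- every point of `A` is indexed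
  have hφ : ∀ z ∈ A, (k7bCell c.ξ (H.base z), H.entOf s z) ∈ Cells ×ˢ H.ent q := by
    intro z hz
    obtain ⟨hzE, hlab, hPc, -⟩ := hAm z hz
    obtain ⟨-, -, -, -, hbox⟩ := k8c_jc_geo hK h hs hh0 hh1 (hE hzE)
    rw [hlab] at hbox
    have hP1 : k7bBin m (k8cTh H (H.lab s z) z.2) = P.1 := congrArg Prod.fst hPc
    have hP2 : k7bBin m (k8cZh H (H.lab s z) (H.Zt z.1 z.2)) = P.2 := congrArg Prod.snd hPc
    rw [hlab] at hP1 hP2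
    obtain ⟨u1, u2⟩ := (k8c_jc_iv hm0 _ _).1 hP1
    obtain ⟨u3, u4⟩ := (k8c_jc_iv hm0 _ _).1 hP2
    unfold k8cTh at u1 u2
    unfold k8cZh at u3 u4
    rw [le_div_iff₀ hbl0] at u1 u3
    rw [div_lt_iff₀ hbl0] at u2 u4
    obtain ⟨v1, v2⟩ := (k8c_jc_iv hξ _ z.2).1 rfl
    obtain ⟨v3, v4⟩ := (k8c_jc_iv hξ _ (H.Zt z.1 z.2)).1 rfl
    refine Finset.mem_product.2 ⟨?_, ?_⟩
    · rw [hCells]
      refine Finset.mem_biUnion.2 ⟨(k7bBin c.ξ z.2, k7bBin c.ξ (H.Zt z.1 z.2)), Finset.mem_product.2 ⟨?_, ?_⟩,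
        Finset.mem_image.2 ⟨k7bBin c.ξ (H.Yt z.1 z.2), ?_, rfl⟩⟩
      · rw [hI1]
        refine (k8c_jc_bins hξ _ _ hw0).2 _ ?_ ?_
        · rw [ht₀]; linarith
        · rw [ht₀, hw]; linarith
      · rw [hI2]
        refine (k8c_jc_bins hξ _ _ hw0).2 _ ?_ ?_
        · rw [hZ₀]; linarith
        · rw [hZ₀, hw]; linarith
      · have hb3 : |H.Yt z.1 z.2 - H.cY q - (-H.cZ q * (z.2 - H.ct q) + H.ct q * (H.Zt z.1 z.2 - H.cZ q))| ≤ K * c.h s ^ 2 := hbox.2.2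
        have d1 : |H.cZ q * (z.2 - (k7bBin c.ξ z.2 : ℝ) * c.ξ)| ≤ 3 * K * c.ξ := by
          rw [abs_mul]
          refine mul_le_mul hcZ ?_ (abs_nonneg _) (by positivity)
          rw [abs_le]; constructor <;> linarith
        have d2 : |H.ct q * (H.Zt z.1 z.2 - (k7bBin c.ξ (H.Zt z.1 z.2) : ℝ) * c.ξ)| ≤ 2 * K * c.ξ := by
          rw [abs_mul]
          refine mul_le_mul hct ?_ (abs_nonneg _) (by positivity)
          rw [abs_le]; constructor <;> linarith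
        rw [abs_le] at hb3 d1 d2
        refine (k8c_jc_bins hξ _ _ hWd0).2 _ ?_ ?_
        · rw [hy₀]
          show H.cY q + (-(H.cZ q) * ((k7bBin c.ξ z.2 : ℝ) * c.ξ - H.ct q) + H.ct q * ((k7bBin c.ξ (H.Zt z.1 z.2) : ℝ) * c.ξ - H.cZ q))
            - K * c.h s ^ 2 - 5 * K * c.ξ ≤ H.Yt z.1 z.2
          linarith [hb3.1, d1.1, d1.2, d2.1, d2.2]
        · rw [hy₀, hWd]
          show H.Yt z.1 z.2 ≤ H.cY q + (-(H.cZ q) * ((k7bBin c.ξ z.2 : ℝ) * c.ξ - H.ct q) + H.ct q * ((k7bBin c.ξ (H.Zt z.1 z.2) : ℝ) * c.ξ - H.cZ q))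
            - K * c.h s ^ 2 - 5 * K * c.ξ + (2 * K * c.h s ^ 2 + 10 * K * c.ξ)
          linarith [hb3.2, d1.1, d1.2, d2.1, d2.2]
    · have := h.entmem s hs z (hE hzE)
      rwa [hlab] at this
  have hβ : ∀ z ∈ A, k7bBin c.χ (H.v z.1) ∈ Finset.Ico (k * n) (k * n + n) := fun z hz =>
    k8c_jc_sub hχ n hmn hm0 (hAm z hz).2.2.2
  have hpiece : ∀ τ ∈ Cells ×ˢ H.ent q, ∀ b ∈ Finset.Ico (k * n) (k * n + n),
      H.lam (A ∩ {z | (k7bCell c.ξ (H.base z), H.entOf s z) = τ ∧ k7bBin c.χ (H.v z.1) = b})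
        ≤ ENNReal.ofReal (K * c.ξ ^ 3 * r ^ c.d) * H.pal (k7bIv c.χ b) := by
    intro τ _ b _
    by_cases hne2 : (A ∩ {z | (k7bCell c.ξ (H.base z), H.entOf s z) = τ ∧ k7bBin c.χ (H.v z.1) = b}).Nonempty
    · obtain ⟨z₀, hz₀A, hz₀τ, hz₀b⟩ := hne2
      refine (measure_mono ?_).trans (h.capJ τ.1 (H.X z₀) r b hϱ hr1)
      rintro z ⟨hzA, hzτ, hzb⟩
      refine ⟨hE (hAm z hzA).1, congrArg Prod.fst hzτ, ?_, hzb⟩
      have := k8c_jc_close hK h hs hh0 hh1 hha hξ hE hSl (hAm z hzA).1 (hAm z₀ hz₀A).1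
        ((congrArg Prod.fst hzτ).trans (congrArg Prod.fst hz₀τ).symm) ((congrArg Prod.snd hzτ).trans (congrArg Prod.snd hz₀τ).symm)
      rw [hr]
      nlinarith
    · rw [Set.not_nonempty_iff_eq_empty.1 hne2]
      simp
  have hmain := k8c_jc_cover H.lam A (Cells ×ˢ H.ent q) (Finset.Ico (k * n) (k * n + n))
    (fun z => (k7bCell c.ξ (H.base z), H.entOf s z)) (fun z => k7bBin c.χ (H.v z.1)) hφ hβ _ _ hpiece
  -- the arithmetic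
  obtain ⟨ad, had⟩ : ∃ ad : ℝ, ad = c.a s ^ c.d := ⟨_, rfl⟩
  have had0 : 0 < ad := by rw [had]; exact Real.rpow_pos_of_pos ha0 _
  have hrd : r ^ c.d ≤ 3 * K * ad := by
    rw [hr, had, Real.mul_rpow (by positivity) ha0.le]
    refine mul_le_mul_of_nonneg_right ?_ (Real.rpow_nonneg ha0.le _)
    calc (3 * K) ^ c.d ≤ (3 * K) ^ (1 : ℝ) := Real.rpow_le_rpow_of_exponent_le (by linarith) hR.wf.d1.le
      _ = 3 * K := Real.rpow_one _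
  have hrd0 : 0 ≤ r ^ c.d := Real.rpow_nonneg hr0.le _
  have s1 : (Cells.card : ℝ) * c.ξ ^ 3 ≤ (3 * K * c.h s * m) * (3 * K * c.h s * m) * (14 * K * c.h s ^ 2) := by
    have t1 : w + 2 * c.ξ ≤ 3 * K * c.h s * m := by
      have : w ≤ K * c.h s * m := by rw [hw]; exact mul_le_mul_of_nonneg_right hbl2 hm0.le
      have : c.h s * m ≤ K * (c.h s * m) := le_mul_of_one_le_left (by positivity) hK
      linarith
    have t2 : Wd + 2 * c.ξ ≤ 14 * K * c.h s ^ 2 := by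
      rw [hWd]
      have : c.ξ ≤ K * c.ξ := le_mul_of_one_le_left hξ.le hK
      have : K * c.ξ ≤ K * c.h s ^ 2 := mul_le_mul_of_nonneg_left hξ2 hK0.le
      linarith
    calc (Cells.card : ℝ) * c.ξ ^ 3 ≤ ((w / c.ξ + 2) * (w / c.ξ + 2) * (Wd / c.ξ + 2)) * c.ξ ^ 3 :=
          mul_le_mul_of_nonneg_right hcells (by positivity)
      _ = (w + 2 * c.ξ) * (w + 2 * c.ξ) * (Wd + 2 * c.ξ) := by field_simp
      _ ≤ (3 * K * c.h s * m) * (3 * K * c.h s * m) * (14 * K * c.h s ^ 2) :=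
          mul_le_mul (mul_le_mul t1 t1 (by positivity) (by positivity)) t2 (by positivity) (by positivity)
  have s2 : (((Cells ×ˢ H.ent q).card : ℕ) : ℝ) * (K * c.ξ ^ 3 * r ^ c.d)
      ≤ ((378 : ℕ) : ℝ) * K ^ 378 * m ^ 2 * (c.h s / K * (ad * c.h s ^ 3 / K)) := by
    rw [Finset.card_product]
    push_cast
    calc (Cells.card : ℝ) * ((H.ent q).card : ℝ) * (K * c.ξ ^ 3 * r ^ c.d)
        = ((Cells.card : ℝ) * c.ξ ^ 3) * ((H.ent q).card : ℝ) * K * r ^ c.d := by ring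
      _ ≤ ((3 * K * c.h s * m) * (3 * K * c.h s * m) * (14 * K * c.h s ^ 2)) * K * K * (3 * K * ad) :=
          mul_le_mul (mul_le_mul_of_nonneg_right (mul_le_mul s1 (h.entcard q) (Nat.cast_nonneg _) (by positivity)) hK0.le) hrd hrd0
            (by positivity)
      _ = 378 * K ^ 8 * m ^ 2 * (c.h s / K * (ad * c.h s ^ 3 / K)) := by
          field_simp
          ring
      _ ≤ 378 * K ^ 378 * m ^ 2 * (c.h s / K * (ad * c.h s ^ 3 / K)) := by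
          refine mul_le_mul_of_nonneg_right ?_ (by positivity)
          refine mul_le_mul_of_nonneg_right ?_ (by positivity)
          exact mul_le_mul_of_nonneg_left (pow_le_pow_right₀ hK (by norm_num)) (by norm_num)
  have hmQ : ENNReal.ofReal (c.h s / K) * ENNReal.ofReal (ad * c.h s ^ 3 / K) ≤ H.mQ q := by
    unfold K7bHor.mQ
    rw [had]
    exact mul_le_mul' (ENNReal.ofReal_le_ofReal hbl1) (h.νQ s hs q hq).1
  calc H.lam A ≤ ((Cells ×ˢ H.ent q).card : ℝ≥0∞) * ENNReal.ofReal (K * c.ξ ^ 3 * r ^ c.d)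
        * ∑ b ∈ Finset.Ico (k * n) (k * n + n), H.pal (k7bIv c.χ b) := hmain
    _ ≤ ((Cells ×ˢ H.ent q).card : ℝ≥0∞) * ENNReal.ofReal (K * c.ξ ^ 3 * r ^ c.d) * H.pal (k7bIv m k) :=
        mul_le_mul' le_rfl (k8c_jc_pal H.pal hχ n hmn k)
    _ ≤ ENNReal.ofReal (((378 : ℕ) : ℝ) * K ^ 378 * m ^ 2) * H.mQ q * H.pal (k7bIv m k) := by
        refine mul_le_mul' ?_ le_rfl
        calc ((Cells ×ˢ H.ent q).card : ℝ≥0∞) * ENNReal.ofReal (K * c.ξ ^ 3 * r ^ c.d)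
            = ENNReal.ofReal ((((Cells ×ˢ H.ent q).card : ℕ) : ℝ) * (K * c.ξ ^ 3 * r ^ c.d)) := by
              rw [ENNReal.ofReal_mul (Nat.cast_nonneg _), ENNReal.ofReal_natCast]
          _ ≤ ENNReal.ofReal (((378 : ℕ) : ℝ) * K ^ 378 * m ^ 2 * (c.h s / K * (ad * c.h s ^ 3 / K))) := ENNReal.ofReal_le_ofReal s2
          _ = ENNReal.ofReal (((378 : ℕ) : ℝ) * K ^ 378 * m ^ 2) * (ENNReal.ofReal (c.h s / K) * ENNReal.ofReal (ad * c.h s ^ 3 / K)) := by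
              rw [ENNReal.ofReal_mul (p := ((378 : ℕ) : ℝ) * K ^ 378 * m ^ 2) (by positivity),
                ENNReal.ofReal_mul (p := c.h s / K) (by positivity)]
          _ ≤ ENNReal.ofReal (((378 : ℕ) : ℝ) * K ^ 378 * m ^ 2) * H.mQ q := mul_le_mul' le_rfl hmQ

/-- scaling of Lebesgue measure under `t ↦ (t - t₀)/q` -/
theorem k8c_ld_vol (t0 q : ℝ) (hq : 0 < q) (A : Set ℝ) : volume {t : ℝ | (t - t0) / q ∈ A} = ENNReal.ofReal q * volume A := by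
  have e : {t : ℝ | (t - t0) / q ∈ A} = (fun t : ℝ => t + (-t0)) ⁻¹' ((fun t : ℝ => q⁻¹ * t) ⁻¹' A) := by
    ext t
    simp only [Set.mem_ofPred_eq, Set.mem_preimage]
    rw [div_eq_inv_mul, sub_eq_add_neg]
  rw [e, measure_preimage_add_right, Real.volume_preimage_mul_left (inv_ne_zero hq.ne'), inv_inv, abs_of_pos hq]
theorem k8c_law_dom (c : K7bPar) (H : K7bHor) {K s : ℝ} (hc : c.WF) (hK : 1 ≤ K) (h : H.Ok c K) (hs : s ∈ c.G) {E : Set (H.Lam × ℝ)}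
    (hE : E ⊆ H.Sp) (hm : MeasurableSet E) {q : H.Q} (hq : q ∈ H.Qat s) :
    k8cLaw H s q E ≤ ENNReal.ofReal K • (k8cPr H q).prod (volume.restrict (Set.Icc (0 : ℝ) 1)) := by
  have hfin : IsFiniteMeasure H.ν := ⟨by rw [h.νprob]; exact ENNReal.one_lt_top⟩
  have hbl : 0 < H.bl q := by
    have h1 := (h.bllen s hs q hq).1
    have h2 : 0 < c.h s := Real.rpow_pos_of_pos (by linarith [hc.N1]) _
    have h3 : 0 < c.h s / K := by positivity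
    linarith
  have hTo : Measurable (k8cTo H q) :=
    measurable_fst.prodMk ((measurable_snd.sub_const _).div_const _)
  have hsub : E ∩ k8cOn H s q ⊆ H.asg q ×ˢ H.blk q := by
    rintro z ⟨hz, hzq⟩
    have h1 := h.labmem s hs z (hE hz)
    have hzq' : H.lab s z = q := hzq
    rw [hzq'] at h1
    exact ⟨h1.2.2, h1.2.1⟩
  have hblk : MeasurableSet (H.blk q) := measurableSet_Ico
  refine Measure.le_iff.2 fun A hA => ?_
  have hpre : MeasurableSet (k8cTo H q ⁻¹' A) := hTo hA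
  have hS : MeasurableSet (k8cTo H q ⁻¹' A ∩ H.asg q ×ˢ H.blk q) := hpre.inter ((h.masg q).prod hblk)
  have s1 : k8cLaw H s q E A ≤ (H.mQ q)⁻¹ * (ENNReal.ofReal K * (H.ν.prod k7bTime) (k8cTo H q ⁻¹' A ∩ H.asg q ×ˢ H.blk q)) := by
    rw [k8cLaw, Measure.smul_apply, Measure.map_apply hTo hA, Measure.restrict_apply hpre, smul_eq_mul]
    refine mul_le_mul_right ?_ _
    refine (h.dom _).trans ?_
    rw [Measure.smul_apply, smul_eq_mul]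
    exact mul_le_mul_right (measure_mono (Set.inter_subset_inter_right _ hsub)) _
  have s2 : (H.ν.prod k7bTime) (k8cTo H q ⁻¹' A ∩ H.asg q ×ˢ H.blk q) ≤
      ENNReal.ofReal (H.bl q) * ∫⁻ l in H.asg q, (volume.restrict (Set.Icc (0 : ℝ) 1)) (Prod.mk l ⁻¹' A) ∂(H.ν) := by
    rw [k7bTime, Measure.prod_apply hS, ← lintegral_const_mul' _ _ ENNReal.ofReal_ne_top, ← lintegral_indicator (h.masg q)]
    refine lintegral_mono fun l => ?_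
    by_cases hl : l ∈ H.asg q
    · rw [Set.indicator_of_mem hl, Measure.restrict_apply (measurable_prodMk_left hA), ← k8c_ld_vol (H.bt q) (H.bl q) hbl]
      refine (Measure.restrict_apply_le _ _).trans (measure_mono ?_)
      rintro t ⟨ht1, -, ht2⟩
      refine ⟨ht1, ?_⟩
      have ht2' : t ∈ Set.Ico (H.bt q) (H.bt q + H.bl q) := ht2
      constructor
      · exact div_nonneg (by linarith [ht2'.1]) hbl.le
      · rw [div_le_one hbl]; linarith [ht2'.2]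
    · rw [Set.indicator_of_notMem hl]
      have : Prod.mk l ⁻¹' (k8cTo H q ⁻¹' A ∩ H.asg q ×ˢ H.blk q) = ∅ := by
        ext t
        simp only [Set.mem_preimage, Set.mem_inter_iff, Set.mem_prod, Set.mem_empty_iff_false, iff_false]
        exact fun hh => hl hh.2.1
      rw [this, measure_empty]
  have s3 : (ENNReal.ofReal K • (k8cPr H q).prod (volume.restrict (Set.Icc (0 : ℝ) 1))) A =
      ENNReal.ofReal K * ((H.ν (H.asg q))⁻¹ * ∫⁻ l in H.asg q, (volume.restrict (Set.Icc (0 : ℝ) 1)) (Prod.mk l ⁻¹' A) ∂(H.ν)) := by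
    rw [Measure.smul_apply, k8cPr, Measure.prod_apply hA, lintegral_smul_measure, smul_eq_mul, smul_eq_mul]
  have hb0 : ENNReal.ofReal (H.bl q) ≠ 0 := by
    rw [Ne, ENNReal.ofReal_eq_zero, not_le]; exact hbl
  have s4 : (H.mQ q)⁻¹ * ENNReal.ofReal (H.bl q) = (H.ν (H.asg q))⁻¹ := by
    rw [K7bHor.mQ, ENNReal.mul_inv (Or.inl hb0) (Or.inl ENNReal.ofReal_ne_top), mul_comm, ← mul_assoc,
      ENNReal.mul_inv_cancel hb0 ENNReal.ofReal_ne_top, one_mul]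
  rw [s3]
  refine s1.trans ?_
  calc (H.mQ q)⁻¹ * (ENNReal.ofReal K * (H.ν.prod k7bTime) (k8cTo H q ⁻¹' A ∩ H.asg q ×ˢ H.blk q))
      ≤ (H.mQ q)⁻¹ * (ENNReal.ofReal K * (ENNReal.ofReal (H.bl q) * ∫⁻ l in H.asg q, (volume.restrict (Set.Icc (0 : ℝ) 1)) (Prod.mk l ⁻¹' A) ∂(H.ν))) :=
        mul_le_mul_right (mul_le_mul_right s2 _) _
    _ = ENNReal.ofReal K * (((H.mQ q)⁻¹ * ENNReal.ofReal (H.bl q)) * ∫⁻ l in H.asg q, (volume.restrict (Set.Icc (0 : ℝ) 1)) (Prod.mk l ⁻¹' A) ∂(H.ν)) := by ring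
    _ = _ := by rw [s4]

/-! ### helpers of `k8c_fit_data` (prefix `k8c_fd_`) -/

theorem k8c_fd_back_to (H : K7bHor) (q : H.Q) (hbl : H.bl q ≠ 0) (z : H.Lam × ℝ) : k8cBack H q (k8cTo H q z) = z := by
  unfold k8cBack k8cTo k8cTh
  refine Prod.ext rfl ?_
  show H.bt q + H.bl q * ((z.2 - H.bt q) / H.bl q) = z.2
  field_simp
  ring

theorem k8c_fd_meas_back (H : K7bHor) (q : H.Q) : Measurable (k8cBack H q) := by
  unfold k8cBack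
  exact measurable_fst.prodMk ((measurable_snd.const_mul _).const_add _)

theorem k8c_fd_meas_to (H : K7bHor) (q : H.Q) : Measurable (k8cTo H q) := by
  unfold k8cTo k8cTh
  exact measurable_fst.prodMk ((measurable_snd.sub_const _).div_const _)

/-- `Z0 + v t̂` is the position in block coordinates -/
theorem k8c_fd_pos (H : K7bHor) (q : H.Q) (hbl : H.bl q ≠ 0) (l : H.Lam) (u : ℝ) :
    k8cZ0 H q l + H.v l * u = k8cZh H q (H.Zt l (H.bt q + H.bl q * u)) := by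
  unfold k8cZ0 k8cZh K7bHor.Zt
  field_simp
  ring

theorem k8c_fd_th (H : K7bHor) (q : H.Q) (hbl : H.bl q ≠ 0) (u : ℝ) : k8cTh H q (H.bt q + H.bl q * u) = u := by
  unfold k8cTh
  field_simp
  ring

/-- the position cells agree -/
theorem k8c_fd_cell (H : K7bHor) (s m : ℝ) (q : H.Q) (hbl : H.bl q ≠ 0) (w : H.Lam × ℝ) (hw : H.lab s (k8cBack H q w) = q) :
    k8cPc H s m (k8cBack H q w) = re6Zc m (k8cZ0 H q) H.v w := by
  unfold k8cPc re6Zc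
  rw [hw]
  show (k7bBin m (k8cTh H q (H.bt q + H.bl q * w.2)), k7bBin m (k8cZh H q (H.Zt w.1 (H.bt q + H.bl q * w.2)))) = _
  rw [k8c_fd_th H q hbl, ← k8c_fd_pos H q hbl]
  rfl

theorem k8c_fd_meas_Z0 {c : K7bPar} {H : K7bHor} {K : ℝ} (h : H.Ok c K) (q : H.Q) : Measurable (k8cZ0 H q) := by
  unfold k8cZ0 k8cZh K7bHor.Zt
  exact ((h.mp.add (h.mv.const_mul _)).sub_const _).div_const _

theorem k8c_fd_meas_W0 {c : K7bPar} {H : K7bHor} {K s : ℝ} (h : H.Ok c K) (hs : s ∈ c.G) {E : Set (H.Lam × ℝ)} (hm : MeasurableSet E)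
    (q : H.Q) : MeasurableSet (k8cW0 H s q E) :=
  k8c_fd_meas_back H q (hm.inter (h.mlab s hs q))

/-- the row in block time is measurable -/
theorem k8c_fd_meas_T0 {c : K7bPar} {H : K7bHor} {K s s3 : ℝ} (h : H.Ok c K) (hs : s ∈ c.G) (hs3 : s3 ∈ c.G) {E : Set (H.Lam × ℝ)}
    (hE : E ⊆ H.Sp) (hm : MeasurableSet E) (q : H.Q) : Measurable (k8cT0 H s s3 q E) := by
  classical
  have hW := k8c_fd_meas_W0 h hs hm q
  have hrow : ∀ L : ℝ × ℝ × ℝ × ℝ, Measurable fun w : H.Lam × ℝ => k8cRow L (H.base (k8cBack H q w)) := by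
    intro L
    have ht : Measurable fun w : H.Lam × ℝ => H.bt q + H.bl q * w.2 := (measurable_snd.const_mul _).const_add _
    have hZ : Measurable fun w : H.Lam × ℝ => H.p w.1 + (H.bt q + H.bl q * w.2) * H.v w.1 :=
      (h.mp.comp measurable_fst).add (ht.mul (h.mv.comp measurable_fst))
    unfold k8cRow K7bHor.base K7bHor.bs k8cBack K7bHor.Zt
    exact ((hZ.const_mul _).const_sub _).prodMk ((ht.const_mul _).const_add _)
  have e : k8cT0 H s s3 q E = fun w => ∑ L ∈ Finset.univ.biUnion H.ent,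
      (k8cW0 H s q E ∩ k8cBack H q ⁻¹' (H.entOf s3 ⁻¹' {L})).indicator (fun w => k8cRow L (H.base (k8cBack H q w))) w := by
    funext w
    unfold k8cT0
    by_cases hw : w ∈ k8cW0 H s q E
    · rw [if_pos hw]
      have hz : k8cBack H q w ∈ H.Sp := hE hw.1
      have hmem : H.entOf s3 (k8cBack H q w) ∈ Finset.univ.biUnion H.ent :=
        Finset.mem_biUnion.2 ⟨_, Finset.mem_univ _, h.entmem s3 hs3 _ hz⟩
      rw [Finset.sum_eq_single_of_mem _ hmem]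
      · have hin : w ∈ k8cW0 H s q E ∩ k8cBack H q ⁻¹' (H.entOf s3 ⁻¹' {H.entOf s3 (k8cBack H q w)}) := ⟨hw, rfl⟩
        rw [Set.indicator_of_mem hin]
        rfl
      · intro L _ hL
        refine Set.indicator_of_notMem ?_ _
        rintro ⟨-, h2⟩
        exact hL (Eq.symm h2)
    · rw [if_neg hw]
      refine (Finset.sum_eq_zero fun L _ => ?_).symm
      exact Set.indicator_of_notMem (fun h2 => hw h2.1) _
  rw [e]
  refine Finset.measurable_sum _ fun L _ => ?_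
  exact (hrow L).indicator (hW.inter (k8c_fd_meas_back H q (h.ment s3 hs3 L)))

theorem k8c_fd_mQ {c : K7bPar} {H : K7bHor} {K s : ℝ} (hK : 1 ≤ K) (h : H.Ok c K) (hs : s ∈ c.G) (ha0 : 0 < c.a s) (hh0 : 0 < c.h s)
    {q : H.Q} (hq : q ∈ H.Qat s) : 0 < H.bl q ∧ H.mQ q ≠ 0 ∧ H.mQ q ≠ ∞ := by
  have hK0 : 0 < K := by linarith
  have hbl0 : 0 < H.bl q := lt_of_lt_of_le (div_pos hh0 hK0) (h.bllen s hs q hq).1
  refine ⟨hbl0, ?_, ?_⟩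
  · unfold K7bHor.mQ
    refine mul_ne_zero (by simpa using hbl0) ?_
    intro h0
    have h1 := (h.νQ s hs q hq).1
    rw [h0] at h1
    have h2 : ENNReal.ofReal (c.a s ^ c.d * c.h s ^ 3 / K) = 0 := le_antisymm h1 bot_le
    rw [ENNReal.ofReal_eq_zero] at h2
    have : 0 < c.a s ^ c.d * c.h s ^ 3 / K := by
      have := Real.rpow_pos_of_pos ha0 c.d
      positivity
    linarith
  · unfold K7bHor.mQ
    refine ENNReal.mul_ne_top ENNReal.ofReal_ne_top ?_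
    exact ne_top_of_le_ne_top ENNReal.one_ne_top ((measure_mono (Set.subset_univ _)).trans h.νle)

/-- the law of a measurable set -/
theorem k8c_fd_law (H : K7bHor) (s : ℝ) (E : Set (H.Lam × ℝ)) (q : H.Q) {S : Set (H.Lam × ℝ)} (hS : MeasurableSet S) :
    k8cLaw H s q E S = (H.mQ q)⁻¹ * H.lam (k8cTo H q ⁻¹' S ∩ (E ∩ k8cOn H s q)) := by
  unfold k8cLaw
  rw [Measure.smul_apply, smul_eq_mul, Measure.map_apply (k8c_fd_meas_to H q) hS,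
    Measure.restrict_apply (k8c_fd_meas_to H q hS)]

/-- a set all of whose finite subsets have `≤ K` elements is a `Finset` with `≤ K` elements -/
theorem k8c_fd_finite {α : Type*} (Occ : Set α) (K : ℝ) (h : ∀ S : Finset α, (∀ y ∈ S, y ∈ Occ) → (S.card : ℝ) ≤ K) :
    ∃ S : Finset α, (S.card : ℝ) ≤ K ∧ ∀ y, y ∈ Occ → y ∈ S := by
  have hfin : Occ.Finite := by
    by_contra hinf
    obtain ⟨t, ht1, ht2⟩ := Set.Infinite.exists_subset_card_eq hinf (⌊K⌋₊ + 1)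
    have h1 := h t fun y hy => ht1 hy
    rw [ht2] at h1
    have h2 := Nat.lt_floor_add_one K
    push_cast at h1
    linarith
  exact ⟨hfin.toFinset, h _ fun y hy => hfin.mem_toFinset.1 hy, fun y hy => hfin.mem_toFinset.2 hy⟩

theorem k8c_fit_data : ∃ C : ℕ, ∀ (c : K7bPar) (H : K7bHor) (K s g η m ω δ : ℝ) (E : Set (H.Lam × ℝ)) (q : H.Q),
    K8cRel c s g η m ω δ → 1 ≤ K → (C : ℝ) * K ^ C * δ ≤ 1 → H.Ok c K → E ⊆ H.Sp → MeasurableSet E → H.Slopes c K E →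
    K8cRBins H c s (3 * s) m K E → K8cRowOk H c s (3 * s) K E → q ∈ H.Qat s → H.mQ q ≤ ENNReal.ofReal K * H.lam (E ∩ k8cOn H s q) →
    Re6Fit m (c.a s) ((C : ℝ) * K ^ C) c.S (k8cPr H q) (k8cZ0 H q) H.v H.x1 (k8cT0 H s (3 * s) q E) (k8cW0 H s q E) (k8cLaw H s q E) H.pal := by
  obtain ⟨C₁, hjc⟩ := k8c_joint_cap
  refine ⟨C₁ + 2, ?_⟩
  intro c H K s g η m ω δ E q hR hK hδ h hE hm hSl hRB hRO hq hdense
  obtain ⟨ha0, ha1, hh0, hh1, hha, hm1, hω1, ha'0, ha'1⟩ := k8c_jc_rel hR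
  have hs := hR.sG
  have hs3 := hR.s3G
  have hK0 : 0 < K := by linarith
  obtain ⟨hbl0, hmQ0, hmQt⟩ := k8c_fd_mQ hK h hs ha0 hh0 hq
  obtain ⟨Kc, hKc⟩ : ∃ Kc : ℝ, Kc = ((C₁ + 2 : ℕ) : ℝ) * K ^ (C₁ + 2) := ⟨_, rfl⟩
  rw [← hKc] at hδ ⊢
  have hC₁0 : (0 : ℝ) ≤ C₁ := Nat.cast_nonneg C₁
  have hKc2 : K ^ 2 ≤ Kc := by
    rw [hKc]
    calc K ^ 2 ≤ K ^ (C₁ + 2) := pow_le_pow_right₀ hK (by omega)
      _ ≤ ((C₁ + 2 : ℕ) : ℝ) * K ^ (C₁ + 2) := le_mul_of_one_le_left (by positivity) (by push_cast; linarith)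
  have hKc1 : K ≤ Kc := le_trans (by nlinarith) hKc2
  have hKc0 : 1 ≤ Kc := hK.trans hKc1
  have hKcj : (C₁ : ℝ) * K ^ C₁ ≤ Kc := by
    rw [hKc]
    exact mul_le_mul (by push_cast; linarith) (pow_le_pow_right₀ hK (by omega)) (by positivity) (by positivity)
  have hδ1 : (C₁ : ℝ) * K ^ C₁ * δ ≤ 1 := (mul_le_mul_of_nonneg_right hKcj hR.δ0.le).trans hδ
  have hW0 : ∀ w ∈ k8cW0 H s q E, k8cBack H q w ∈ E ∧ H.lab s (k8cBack H q w) = q := fun w hw => hw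
  have hT0 : ∀ w ∈ k8cW0 H s q E, k8cT0 H s (3 * s) q E w = k8cG H (3 * s) (k8cBack H q w) := by
    intro w hw
    unfold k8cT0
    exact if_pos hw
  refine ⟨?_, k8c_fd_meas_Z0 h q, h.mv, k8c_fd_meas_T0 h hs hs3 hE hm q, k8c_fd_meas_W0 h hs hm q, ?_, ?_, ?_, ?_, ?_, h.palle, ?_, ?_, ?_,
    ?_, ?_⟩
  · -- hP
    unfold k8cPr
    rw [Measure.smul_apply, smul_eq_mul, Measure.restrict_apply_univ]
    exact ENNReal.inv_mul_le_one _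
  · -- hdom
    refine (k8c_law_dom c H hR.wf hK h hs hE hm hq).trans ?_
    refine Measure.le_iff'.2 fun S => ?_
    simp only [Measure.smul_apply, smul_eq_mul]
    exact mul_le_mul' (ENNReal.ofReal_le_ofReal hKc1) le_rfl
  · -- hW
    rw [k8c_fd_law H s E q (k8c_fd_meas_W0 h hs hm q).compl]
    have : k8cTo H q ⁻¹' (k8cW0 H s q E)ᶜ ∩ (E ∩ k8cOn H s q) = ∅ := by
      ext z
      simp only [Set.mem_inter_iff, Set.mem_preimage, Set.mem_compl_iff, Set.mem_empty_iff_false, iff_false]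
      rintro ⟨h1, h2⟩
      apply h1
      show k8cBack H q (k8cTo H q z) ∈ E ∩ k8cOn H s q
      rw [k8c_fd_back_to H q hbl0.ne']
      exact h2
    rw [this, measure_empty, mul_zero]
  · -- hmass
    rw [k8c_fd_law H s E q MeasurableSet.univ, Set.preimage_univ, Set.univ_inter]
    calc ENNReal.ofReal (1 / Kc) ≤ ENNReal.ofReal (1 / K) := ENNReal.ofReal_le_ofReal (one_div_le_one_div_of_le hK0 hKc1)
      _ = (ENNReal.ofReal K)⁻¹ := by rw [one_div, ENNReal.ofReal_inv_of_pos hK0]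
      _ = (H.mQ q)⁻¹ * (H.mQ q / ENNReal.ofReal K) := by
          rw [div_eq_mul_inv, ← mul_assoc, ENNReal.inv_mul_cancel hmQ0 hmQt, one_mul]
      _ ≤ (H.mQ q)⁻¹ * H.lam (E ∩ k8cOn H s q) := mul_le_mul' le_rfl (ENNReal.div_le_of_le_mul' hdense)
  · -- hWt
    intro w hw
    obtain ⟨h1, h2⟩ := hW0 w hw
    have h3 := (h.labmem s hs _ (hE h1)).2.1
    rw [h2] at h3
    have h4 : H.bt q ≤ H.bt q + H.bl q * w.2 := h3.1
    have h5 : H.bt q + H.bl q * w.2 < H.bt q + H.bl q := h3.2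
    constructor
    · by_contra hneg
      have := mul_neg_of_pos_of_neg hbl0 (not_le.1 hneg)
      linarith
    · by_contra hge
      have : H.bl q * 1 < H.bl q * w.2 := mul_lt_mul_of_pos_left (not_le.1 hge) hbl0
      linarith
  · -- hbd
    intro w hw
    obtain ⟨h1, h2⟩ := hW0 w hw
    obtain ⟨-, -, -, -, hbox⟩ := k8c_jc_geo hK h hs hh0 hh1 (hE h1)
    rw [h2] at hbox
    have hb2 : |H.Zt w.1 (H.bt q + H.bl q * w.2) - H.cZ q| ≤ K * c.h s := hbox.2.1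
    refine ⟨?_, (h.bdd _ (hE h1)).2.1.trans hKc1⟩
    rw [k8c_fd_pos H q hbl0.ne']
    unfold k8cZh
    rw [abs_div, abs_of_pos hbl0, div_le_iff₀ hbl0]
    calc |H.Zt w.1 (H.bt q + H.bl q * w.2) - H.cZ q| ≤ K * c.h s := hb2
      _ = K ^ 2 * (c.h s / K) := by field_simp
      _ ≤ Kc * H.bl q := mul_le_mul hKc2 (h.bllen s hs q hq).1 (by positivity) (by linarith)
  · -- hpal
    intro a b hab1 hab2
    have hχm : c.χ ≤ m := by
      obtain ⟨n, hn0, hmn⟩ := hR.mχ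
      rw [hmn]
      exact le_mul_of_one_le_left hR.wf.χ0.le (by exact_mod_cast hn0)
    have hm0 := hR.m0
    have h1 := h.palcap ((a + b) / 2) (b - a) (hχm.trans hab1) hab2
    refine (measure_mono ?_).trans (h1.trans (ENNReal.ofReal_le_ofReal ?_))
    · intro x hx
      constructor <;> linarith [hx.1, hx.2]
    · exact mul_le_mul_of_nonneg_right hKc1 (Real.rpow_nonneg (by linarith) _)
  · -- hcap
    intro P k
    have hSm : MeasurableSet {w : H.Lam × ℝ | re6Zc m (k8cZ0 H q) H.v w = P ∧ ⌊H.v w.1 / m⌋ = k} := by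
      have h1 : Measurable fun w : H.Lam × ℝ => re6Zc m (k8cZ0 H q) H.v w := by
        unfold re6Zc
        exact (Int.measurable_floor.comp (measurable_snd.div_const _)).prodMk (Int.measurable_floor.comp
          ((((k8c_fd_meas_Z0 h q).comp measurable_fst).add ((h.mv.comp measurable_fst).mul measurable_snd)).div_const _))
      have h2 : Measurable fun w : H.Lam × ℝ => ⌊H.v w.1 / m⌋ := Int.measurable_floor.comp ((h.mv.comp measurable_fst).div_const _)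
      exact (h1 (measurableSet_singleton P)).inter (h2 (measurableSet_singleton k))
    rw [k8c_fd_law H s E q hSm]
    have hsub : k8cTo H q ⁻¹' {w : H.Lam × ℝ | re6Zc m (k8cZ0 H q) H.v w = P ∧ ⌊H.v w.1 / m⌋ = k} ∩ (E ∩ k8cOn H s q)
        ⊆ E ∩ {z | H.lab s z = q ∧ k8cPc H s m z = P ∧ k7bBin m (H.v z.1) = k} := by
      rintro z ⟨⟨h1, h2⟩, h3, h4⟩
      refine ⟨h3, h4, ?_, h2⟩
      have h5 := k8c_fd_cell H s m q hbl0.ne' (k8cTo H q z) (by rw [k8c_fd_back_to H q hbl0.ne']; exact h4)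
      rw [k8c_fd_back_to H q hbl0.ne'] at h5
      exact h5.trans h1
    calc (H.mQ q)⁻¹ * H.lam (k8cTo H q ⁻¹' {w : H.Lam × ℝ | re6Zc m (k8cZ0 H q) H.v w = P ∧ ⌊H.v w.1 / m⌋ = k} ∩ (E ∩ k8cOn H s q))
        ≤ (H.mQ q)⁻¹ * (ENNReal.ofReal ((C₁ : ℝ) * K ^ C₁ * m ^ 2) * H.mQ q * H.pal (k7bIv m k)) :=
          mul_le_mul' le_rfl ((measure_mono hsub).trans (hjc c H K s g η m ω δ E q P k hR hK hδ1 h hE hSl hq))
      _ = ((H.mQ q)⁻¹ * H.mQ q) * (ENNReal.ofReal ((C₁ : ℝ) * K ^ C₁ * m ^ 2) * H.pal (k7bIv m k)) := by ring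
      _ = ENNReal.ofReal ((C₁ : ℝ) * K ^ C₁ * m ^ 2) * H.pal (k7bIv m k) := by rw [ENNReal.inv_mul_cancel hmQ0 hmQt, one_mul]
      _ ≤ ENNReal.ofReal (Kc * m ^ 2) * H.pal (Set.Ico (k * m) ((k + 1) * m)) :=
          mul_le_mul' (ENNReal.ofReal_le_ofReal (mul_le_mul_of_nonneg_right hKcj (sq_nonneg _))) le_rfl
  · -- hT
    intro w hw
    rw [hT0 w hw]
    obtain ⟨-, h2, h3⟩ := hRO _ (hW0 w hw).1
    exact ⟨h2.trans hKc1, h3.trans hKc1⟩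
  · -- hbins
    intro P
    obtain ⟨S, hS1, hS2⟩ := k8c_fd_finite {y : ℤ × ℤ | ∃ z ∈ E, H.lab s z = q ∧ k8cPc H s m z = P ∧ k8cGb H (3 * s) (c.a s) z = y} K
      (fun S hS => hRB q P S hS)
    classical
    refine ⟨S.image fun R => ((R.1 : ℝ) * c.a s, (R.2 : ℝ) * c.a s), ?_, ?_⟩
    · have : ((S.image fun R : ℤ × ℤ => ((R.1 : ℝ) * c.a s, (R.2 : ℝ) * c.a s)).card : ℝ) ≤ (S.card : ℝ) := by
        exact_mod_cast Finset.card_image_le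
      exact this.trans (hS1.trans hKc1)
    · intro w hw hwP
      obtain ⟨h1, h2⟩ := hW0 w hw
      have hy := hS2 (k8cGb H (3 * s) (c.a s) (k8cBack H q w)) ⟨_, h1, h2, (k8c_fd_cell H s m q hbl0.ne' w h2).trans hwP, rfl⟩
      refine ⟨_, Finset.mem_image.2 ⟨_, hy, rfl⟩, ?_⟩
      rw [hT0 w hw]
      obtain ⟨u1, u2⟩ := (k8c_jc_iv ha0 _ (k8cG H (3 * s) (k8cBack H q w)).1).1 rfl
      obtain ⟨u3, u4⟩ := (k8c_jc_iv ha0 _ (k8cG H (3 * s) (k8cBack H q w)).2).1 rfl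
      constructor
      · show |(k8cG H (3 * s) (k8cBack H q w)).1 - (k7bBin (c.a s) (k8cG H (3 * s) (k8cBack H q w)).1 : ℝ) * c.a s| ≤ c.a s
        rw [abs_le]; constructor <;> linarith
      · show |(k8cG H (3 * s) (k8cBack H q w)).2 - (k7bBin (c.a s) (k8cG H (3 * s) (k8cBack H q w)).2 : ℝ) * c.a s| ≤ c.a s
        rw [abs_le]; constructor <;> linarith
  · -- hrow
    intro w hw
    rw [hT0 w hw]
    obtain ⟨h1, -, -⟩ := hRO _ (hW0 w hw).1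
    have h1' : |H.x1 w.1 - ((k8cG H (3 * s) (k8cBack H q w)).1 + H.v w.1 * (k8cG H (3 * s) (k8cBack H q w)).2)| ≤ K * c.a s := h1
    rw [abs_sub_comm] at h1'
    exact h1'.trans (mul_le_mul_of_nonneg_right hKc1 ha0.le)

end Claimed.Agent.R252

end PkS8cH4Fit
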