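-- KEEP
import Claimed.Agent.R252.S8c.PkB
import Claimed.Agent.R252.S8c.PkA
import Claimed.Agent.R252.S7b.CoreB

/-! PACKED FILE (unit S8c = P8.2, architect helper54; CLOSED, FROZEN, 0 sorry): parts S8c.H5Prim, S8c.H6Switch, S8c.H7Upper.  Each part is wrapped in its own `section`. -/

section PkS8cH5Prim

/-!
# Row 252, S8c, leaves L-252-S8c-H5a (`k8c_prim_pt`), H5b (`k8c_int_fit`), H5 (`k8c_fit_all`)      CONTRACT: sorries.      08 l.133-152      (architect helper54)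
PAPER-FREE.   `a = c.a s`, `h = c.h s`.

`k8c_prim_pt` (pointwise algebra).  `Ẑ = (Z - cZ)/bl`, `t̂ = (t - bt)/bl`, `Z = p + t v`.   `G₁ + v G₂ = B₁ + v B₂ + λ (-Ẑ + v t̂) + O((1 + K) Kf a)`, `-Ẑ + v t̂ = (-p + cZ - v bt)/bl`;
`k8cD H (k8cF H q B₁ B₂ λ) l = B₁ + v B₂ + λ (cZ - v bt + y1)/bl`, `|y1 + p| ≤ N^(-e₀)`, `bl ≥ h/K`, `N^(-e₀) ≤ δ a h` (from `r_e`).    Slopes: `|cZ| ≤ 3K`, `|bt| ≤ 1 + ..` (`labmem`, `time`: `bt ≤ t ≤ 1`, `t < bt + bl`), `1 ≤ 1/h`.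

`k8c_int_fit` : `t ↦ Xt l t - k7bAff F (bs l t)` is affine with slope `x1 - k8cD H F l`; on the block `|t - mid| ≤ bl q ≤ K h`.

`k8c_fit_all`.  Use `k8c_fit_data` at the slack `2K` (`k8c_ok_mono`; `Slopes`, `K8cRBins`, `K8cRowOk` are monotone in the slack) and the monotonicity of `Re6Fit` in its slack (`k8c_re6fit_mono`, `k8c_fithyp_anti`, other monotonicity lemmas and the slack calculus `k8c_pw_*` : file `S8c/H9Mono.lean`, import it) to reach `C₁ K^C₁ ≥ C₀ (2K)^C₀`.   Dense labels `𝒟 = {q ∈ Qat s | mQ q ≤ 2K lam (E ∩ k8cOn q)}`; the light ones carry `≤ ∑ mQ q/(2K) ≤ 1/(2K)` (`budget`; `E = ⋃_{q ∈ Qat s} E ∩ k8cOn q` by `labmem`).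
For `q ∈ 𝒟` : `K8cFitHyp` gives `B₁, B₂, λ` and the set `A_q` in block time; `E_q = E ∩ k8cOn q ∩ k8cTo H q ⁻¹' A_q` is measurable, `lam E_q = mQ q · k8cLaw (A_q) ≥ mQ q/Kf`  (`Measure.map_apply`; `A_q` measurable: `hTm` etc.; `k8cBack (k8cTo z) = z`, `bl q ≠ 0`).
`lam (E ∩ k8cOn q) ≤ K mQ q` (`dom`, `labmem`).   `E' = ⋃_{q ∈ 𝒟} E_q`, `lam E' ≥ ∑_{𝒟} lam (E ∩ k8cOn q)/(K Kf) ≥ 1/(2 K² Kf)`.    `Fq q = k8cF H q B₁ B₂ λ`;  `k8c_prim_pt`.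
-/

set_option autoImplicit false

namespace Claimed.Agent.R252

open MeasureTheory
open scoped ENNReal BigOperators

theorem k8c_prim_div {K h bl x e : ℝ} (hK : 1 ≤ K) (hh : 0 < h) (hbl : h / K ≤ bl) (hx : |x| ≤ e) :
    |x / bl| ≤ K * e / h := by
  have hK0 : 0 < K := by linarith
  have hbl0 : 0 < bl := lt_of_lt_of_le (by positivity) hbl
  have h1 : h ≤ bl * K := (div_le_iff₀ hK0).1 hbl
  have he : 0 ≤ e := (abs_nonneg _).trans hx
  rw [abs_div, abs_of_pos hbl0, div_le_div_iff₀ hbl0 hh]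
  calc |x| * h ≤ e * (bl * K) := mul_le_mul hx h1 hh.le he
    _ = K * e * bl := by ring

theorem k8c_prim_alg {x1 G1 G2 v p y1 t cZ bt bl B1 B2 lam K Kf a h e : ℝ} (hK : 1 ≤ K) (hKf : 1 ≤ Kf) (hh : 0 < h) (ha : 0 < a)
    (hbl : h / K ≤ bl) (hrow : |x1 - (G1 + v * G2)| ≤ K * a) (f1 : |G1 - B1 + lam * ((p + t * v - cZ) / bl)| ≤ Kf * a)
    (f2 : |G2 - B2 - lam * ((t - bt) / bl)| ≤ Kf * a) (hv : |v| ≤ K) (hlam : |lam| ≤ Kf) (hy : |y1 + p| ≤ e) (he : e ≤ a * h) :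
    |x1 - ((B1 + lam * cZ / bl) + (B2 - lam * bt / bl) * v + lam / bl * y1)| ≤ 4 * (K * Kf) * a := by
  have e1 : x1 - ((B1 + lam * cZ / bl) + (B2 - lam * bt / bl) * v + lam / bl * y1)
      = (x1 - (G1 + v * G2)) + (G1 - B1 + lam * ((p + t * v - cZ) / bl)) + v * (G2 - B2 - lam * ((t - bt) / bl))
        - lam * ((y1 + p) / bl) := by ring
  have g1 : |v * (G2 - B2 - lam * ((t - bt) / bl))| ≤ K * (Kf * a) := by
    rw [abs_mul]; exact mul_le_mul hv f2 (abs_nonneg _) (by positivity)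
  have g2 : |lam * ((y1 + p) / bl)| ≤ Kf * (K * a) := by
    rw [abs_mul]
    refine mul_le_mul hlam ?_ (abs_nonneg _) (by positivity)
    refine (k8c_prim_div hK hh hbl hy).trans ?_
    rw [div_le_iff₀ hh]
    calc K * e ≤ K * (a * h) := by gcongr
      _ = K * a * h := by ring
  rw [e1]
  have g3 := abs_sub ((x1 - (G1 + v * G2)) + (G1 - B1 + lam * ((p + t * v - cZ) / bl)) + v * (G2 - B2 - lam * ((t - bt) / bl)))
    (lam * ((y1 + p) / bl))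
  have g4 := abs_add_le ((x1 - (G1 + v * G2)) + (G1 - B1 + lam * ((p + t * v - cZ) / bl))) (v * (G2 - B2 - lam * ((t - bt) / bl)))
  have g5 := abs_add_le (x1 - (G1 + v * G2)) (G1 - B1 + lam * ((p + t * v - cZ) / bl))
  have g6 : K * a ≤ K * Kf * a := by
    have : K * 1 ≤ K * Kf := by gcongr
    nlinarith
  have g7 : Kf * a ≤ K * Kf * a := by
    have : 1 * Kf ≤ K * Kf := by gcongr
    nlinarith
  linarith

theorem k8c_prim_pt : ∃ C : ℕ, ∀ (c : K7bPar) (H : K7bHor) (K Kf s g η m ω δ B1 B2 lam : ℝ) (z : H.Lam × ℝ),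
    K8cRel c s g η m ω δ → 1 ≤ K → 1 ≤ Kf → (C : ℝ) * (K * Kf) ^ C * δ ≤ 1 → H.Ok c K → z ∈ H.Sp →
    |H.x1 z.1 - ((k8cG H (3 * s) z).1 + H.v z.1 * (k8cG H (3 * s) z).2)| ≤ K * c.a s →
    |B1| ≤ Kf → |B2| ≤ Kf → |lam| ≤ Kf →
    |(k8cG H (3 * s) z).1 - B1 + lam * k8cZh H (H.lab s z) (H.Zt z.1 z.2)| ≤ Kf * c.a s →
    |(k8cG H (3 * s) z).2 - B2 - lam * k8cTh H (H.lab s z) z.2| ≤ Kf * c.a s →
    |H.x1 z.1 - k8cD H (k8cF H (H.lab s z) B1 B2 lam) z.1| ≤ (C : ℝ) * (K * Kf) ^ C * c.a s ∧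
      |(k8cF H (H.lab s z) B1 B2 lam).2.1| ≤ (C : ℝ) * (K * Kf) ^ C / c.h s ∧
      |(k8cF H (H.lab s z) B1 B2 lam).2.2.1| ≤ (C : ℝ) * (K * Kf) ^ C / c.h s ∧
      |(k8cF H (H.lab s z) B1 B2 lam).2.2.2| ≤ (C : ℝ) * (K * Kf) ^ C / c.h s := by
  refine ⟨4, ?_⟩
  intro c H K Kf s g η m ω δ B1 B2 lam z hR hK hKf hC h hz hrow hB1 hB2 hlam f1 f2
  have hc := hR.wf
  have hs := hR.sG
  have hN0 : 0 < c.N := by linarith [hc.N1]
  obtain ⟨hq, hb, hasg⟩ := h.labmem s hs z hz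
  have hbox := h.box s hs _ hq z.1 hasg z.2 hb
  have hl := h.bllen s hs _ hq
  have hh : 0 < c.h s := by
    unfold K7bPar.h
    exact Real.rpow_pos_of_pos hN0 _
  have ha0 : 0 < c.a s := by
    unfold K7bPar.a
    exact Real.rpow_pos_of_pos hN0 _
  have ha : c.a s = c.h s ^ 2 := by
    unfold K7bPar.a K7bPar.h
    rw [hR.khalf, ← Real.rpow_natCast, ← Real.rpow_mul hN0.le]
    congr 1
    push_cast
    ring
  have hh1 : c.h s ≤ 1 := hR.r_h.trans hR.δ1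
  have ha'1 : c.a (s + g) ≤ 1 := by
    unfold K7bPar.a
    exact Real.rpow_le_one_of_one_le_of_nonpos hc.N1 (by linarith [hR.s0, hR.g0])
  have ha'0 : 0 < c.a (s + g) := by
    unfold K7bPar.a
    exact Real.rpow_pos_of_pos hN0 _
  have hω1 : ω ≤ 1 := by
    have h1 : c.a (s + g) ^ 2 ≤ 1 := pow_le_one₀ ha'0.le ha'1
    have h2 : δ * c.a (s + g) ^ 2 ≤ 1 * 1 := mul_le_mul hR.δ1 h1 (by positivity) (by norm_num)
    linarith [hR.r_ω]
  have he : c.N ^ (-c.e0) ≤ c.a s * c.h s := by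
    have h1 : ω * c.a s ^ 2 ≤ 1 * c.a s ^ 2 := mul_le_mul_of_nonneg_right hω1 (by positivity)
    have h2 : δ * (ω * c.a s ^ 2) ≤ 1 * (1 * c.a s ^ 2) :=
      mul_le_mul hR.δ1 h1 (mul_nonneg hR.ω0.le (by positivity)) (by norm_num)
    have h3 : c.a s ^ 2 ≤ c.a s * c.h s := by
      have : c.a s ≤ c.h s := by rw [ha]; nlinarith
      nlinarith
    linarith [hR.r_e]
  have hKK : 1 ≤ K * Kf := by nlinarith
  have hK0 : 0 < K := by linarith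
  have hKf0 : 0 < Kf := by linarith
  have hP4 : K * Kf ≤ (K * Kf) ^ 4 := by
    calc K * Kf = (K * Kf) ^ 1 := (pow_one _).symm
      _ ≤ (K * Kf) ^ 4 := pow_le_pow_right₀ hKK (by norm_num)
  have hP2 : (K * Kf) ^ 2 ≤ (K * Kf) ^ 4 := pow_le_pow_right₀ hKK (by norm_num)
  have hKh : K * c.h s ≤ 1 := by
    have h1 : K ≤ 4 * (K * Kf) ^ 4 := by nlinarith
    calc K * c.h s ≤ (4 * (K * Kf) ^ 4) * δ := mul_le_mul h1 hR.r_h hh.le (by positivity)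
      _ ≤ 1 := by exact_mod_cast hC
  have ht := h.time z hz
  obtain ⟨hp, hv, -, -⟩ := h.bdd z hz
  have hcZ : |H.cZ (H.lab s z)| ≤ 3 * K := by
    have a1 := abs_le.1 (hbox.2.1.trans hKh)
    have a2 : |H.Zt z.1 z.2| ≤ 2 * K := by
      unfold K7bHor.Zt
      have : |z.2 * H.v z.1| ≤ 1 * K := by
        rw [abs_mul]
        exact mul_le_mul (abs_le.2 ⟨by linarith [ht.1], ht.2⟩) hv (abs_nonneg _) (by norm_num)
      have := abs_add_le (H.p z.1) (z.2 * H.v z.1)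
      linarith
    have a3 := abs_le.1 a2
    simp only [K7bHor.bs] at a1
    rw [abs_le]
    constructor <;> linarith [a1.1, a1.2, a3.1, a3.2]
  have hbt : |H.bt (H.lab s z)| ≤ 1 := by
    have b1 := hb.1
    have b2 := hb.2
    rw [abs_le]
    constructor <;> linarith [ht.1, ht.2, hl.2]
  push_cast
  have hone : 1 ≤ 1 / c.h s := by rw [le_div_iff₀ hh]; linarith
  have hKf_h : Kf ≤ Kf / c.h s := by
    rw [le_div_iff₀ hh]; nlinarith
  refine ⟨?_, ?_, ?_, ?_⟩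
  · have := k8c_prim_alg (x1 := H.x1 z.1) (p := H.p z.1) (t := z.2) (y1 := H.y1 z.1) (cZ := H.cZ (H.lab s z))
      (bt := H.bt (H.lab s z)) hK hKf hh ha0 hl.1 hrow f1 f2 hv hlam (h.heq z hz) he
    simp only [k8cD, k8cF]
    refine this.trans ?_
    have : 4 * (K * Kf) ≤ 4 * (K * Kf) ^ 4 := by linarith
    exact mul_le_mul_of_nonneg_right this ha0.le
  · simp only [k8cF]
    have g1 : |lam * H.cZ (H.lab s z)| ≤ Kf * (3 * K) := by
      rw [abs_mul]; exact mul_le_mul hlam hcZ (abs_nonneg _) hKf0.le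
    have g2 := k8c_prim_div hK hh hl.1 g1
    have g3 := abs_add_le B1 (lam * H.cZ (H.lab s z) / H.bl (H.lab s z))
    have g4 : Kf / c.h s + K * (Kf * (3 * K)) / c.h s ≤ 4 * (K * Kf) ^ 4 / c.h s := by
      rw [← add_div]
      refine div_le_div_of_nonneg_right ?_ hh.le
      have q1 : Kf ≤ (K * Kf) ^ 2 := by nlinarith
      have q2 : K * (Kf * (3 * K)) ≤ 3 * (K * Kf) ^ 2 := by
        have : K * (Kf * (3 * K)) = 3 * (K ^ 2 * Kf) := by ring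
        have q3 : (K * Kf) ^ 2 = K ^ 2 * Kf * Kf := by ring
        have q4 : K ^ 2 * Kf * 1 ≤ K ^ 2 * Kf * Kf := by gcongr
        linarith
      linarith
    linarith
  · simp only [k8cF]
    have g1 : |lam * H.bt (H.lab s z)| ≤ Kf * 1 := by
      rw [abs_mul]; exact mul_le_mul hlam hbt (abs_nonneg _) hKf0.le
    have g2 := k8c_prim_div hK hh hl.1 g1
    have g3 := abs_sub B2 (lam * H.bt (H.lab s z) / H.bl (H.lab s z))
    have g4 : Kf / c.h s + K * (Kf * 1) / c.h s ≤ 4 * (K * Kf) ^ 4 / c.h s := by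
      rw [← add_div]
      refine div_le_div_of_nonneg_right ?_ hh.le
      have q1 : Kf ≤ K * Kf := by nlinarith
      linarith
    linarith
  · simp only [k8cF]
    have g2 := k8c_prim_div hK hh hl.1 hlam
    refine g2.trans ?_
    refine div_le_div_of_nonneg_right ?_ hh.le
    linarith

/-- the intercept: `x - F = c_l + O(K² a h)` throughout the block -/
theorem k8c_int_fit (c : K7bPar) (H : K7bHor) {K s : ℝ} (hc : c.WF) (hK : 1 ≤ K) (h : H.Ok c K) (hs : s ∈ c.G)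
    (Fq : H.Q → ℝ × ℝ × ℝ × ℝ) {E : Set (H.Lam × ℝ)} (hE : E ⊆ H.Sp) (hP : K8cPrim H c s K Fq E) {z : H.Lam × ℝ} (hz : z ∈ E)
    {t : ℝ} (ht : t ∈ H.blk (H.lab s z)) :
    |H.Xt z.1 t - k7bAff (Fq (H.lab s z)) (H.bs z.1 t) - k8cInt H (Fq (H.lab s z)) (H.lab s z) z.1| ≤ K ^ 2 * (c.a s * c.h s) := by
  obtain ⟨hP1, -, -, -⟩ := hP z hz
  obtain ⟨hq, hb, hasg⟩ := h.labmem s hs z (hE hz)
  have hl := h.bllen s hs _ hq
  have hN0 : 0 < c.N := by linarith [hc.N1]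
  have hh : 0 < c.h s := by
    unfold K7bPar.h
    exact Real.rpow_pos_of_pos hN0 _
  have ha0 : 0 < c.a s := by
    unfold K7bPar.a
    exact Real.rpow_pos_of_pos hN0 _
  have e1 : H.Xt z.1 t - k7bAff (Fq (H.lab s z)) (H.bs z.1 t) - k8cInt H (Fq (H.lab s z)) (H.lab s z) z.1
      = (t - k8cMid H (H.lab s z)) * (H.x1 z.1 - k8cD H (Fq (H.lab s z)) z.1) := by
    simp only [k8cInt, k7bAff, K7bHor.bs, K7bHor.Xt, K7bHor.Zt, K7bHor.Yt, k8cD]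
    ring
  rw [e1, abs_mul]
  have e2 : |t - k8cMid H (H.lab s z)| ≤ K * c.h s := by
    unfold k8cMid
    have b1 := ht.1
    have b2 := ht.2
    rw [abs_le]
    constructor <;> linarith [hl.2]
  calc |t - k8cMid H (H.lab s z)| * |H.x1 z.1 - k8cD H (Fq (H.lab s z)) z.1|
      ≤ (K * c.h s) * (K * c.a s) := mul_le_mul e2 hP1 (abs_nonneg _) (by positivity)
    _ = K ^ 2 * (c.a s * c.h s) := by ring

/-! ### helpers of `k8c_fit_all` (prefix `k8c_fa_`) -/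

open Classical in
theorem k8c_fa_dense {α ι : Type*} [MeasurableSpace α] (μ : Measure α) (T : Finset ι) (B : ι → Set α) (w : ι → ℝ≥0∞) (E : Set α)
    {K : ℝ} (hK : 1 ≤ K) (hcov : E ⊆ ⋃ q ∈ T, B q) (hw : ∑ q ∈ T, w q ≤ 1) (hE : ENNReal.ofReal (1 / K) ≤ μ E) :
    ENNReal.ofReal (1 / (2 * K)) ≤ ∑ q ∈ T.filter (fun q => w q ≤ ENNReal.ofReal (2 * K) * μ (B q)), μ (B q) := by
  have hK0 : 0 < K := by linarith
  have h1 : μ E ≤ ∑ q ∈ T, μ (B q) := (measure_mono hcov).trans (measure_biUnion_finset_le _ _)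
  rw [← Finset.sum_filter_add_sum_filter_not T (fun q => w q ≤ ENNReal.ofReal (2 * K) * μ (B q))] at h1
  have h2 : ∑ q ∈ T.filter (fun q => ¬ w q ≤ ENNReal.ofReal (2 * K) * μ (B q)), μ (B q) ≤ ENNReal.ofReal (1 / (2 * K)) := by
    refine k8c_cancel (a := 2 * K) (by positivity) ?_
    rw [Finset.mul_sum]
    calc ∑ q ∈ T.filter (fun q => ¬ w q ≤ ENNReal.ofReal (2 * K) * μ (B q)), ENNReal.ofReal (2 * K) * μ (B q)
        ≤ ∑ q ∈ T.filter (fun q => ¬ w q ≤ ENNReal.ofReal (2 * K) * μ (B q)), w q :=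
          Finset.sum_le_sum fun q hq => (not_le.1 (Finset.mem_filter.1 hq).2).le
      _ ≤ ∑ q ∈ T, w q := Finset.sum_le_sum_of_subset (Finset.filter_subset _ _)
      _ ≤ 1 := hw
      _ = ENNReal.ofReal (2 * K * (1 / (2 * K))) := by
          rw [mul_one_div_cancel (by positivity), ENNReal.ofReal_one]
  have e : ENNReal.ofReal (1 / K) = ENNReal.ofReal (1 / (2 * K)) + ENNReal.ofReal (1 / (2 * K)) := by
    rw [← ENNReal.ofReal_add (by positivity) (by positivity)]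
    congr 1
    field_simp
    norm_num
  have h3 := (hE.trans h1).trans (add_le_add le_rfl h2)
  rw [e] at h3
  exact (ENNReal.add_le_add_iff_right ENNReal.ofReal_ne_top).1 h3

theorem k8c_fa_on_le (c : K7bPar) (H : K7bHor) {K s : ℝ} (h : H.Ok c K) (hs : s ∈ c.G) {E : Set (H.Lam × ℝ)} (hE : E ⊆ H.Sp) (q : H.Q) :
    H.lam (E ∩ k8cOn H s q) ≤ ENNReal.ofReal K * H.mQ q := by
  have hsf : SFinite k7bTime := by unfold k7bTime; infer_instance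
  have hsub : E ∩ k8cOn H s q ⊆ H.asg q ×ˢ H.blk q := by
    rintro z ⟨hz, hq⟩
    obtain ⟨-, h2, h3⟩ := h.labmem s hs z (hE hz)
    have hq' : H.lab s z = q := hq
    rw [hq'] at h2 h3
    exact ⟨h3, h2⟩
  have ht : k7bTime (H.blk q) ≤ ENNReal.ofReal (H.bl q) := by
    unfold k7bTime K7bHor.blk
    refine (Measure.restrict_le_self _).trans (le_of_eq ?_)
    rw [Real.volume_Ico]
    congr 1
    ring
  calc H.lam (E ∩ k8cOn H s q) ≤ H.lam (H.asg q ×ˢ H.blk q) := measure_mono hsub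
    _ ≤ (ENNReal.ofReal K • H.ν.prod k7bTime) (H.asg q ×ˢ H.blk q) := h.dom _
    _ = ENNReal.ofReal K * (H.ν (H.asg q) * k7bTime (H.blk q)) := by
        rw [Measure.smul_apply, smul_eq_mul, Measure.prod_prod]
    _ ≤ ENNReal.ofReal K * (H.ν (H.asg q) * ENNReal.ofReal (H.bl q)) := by gcongr
    _ = ENNReal.ofReal K * H.mQ q := by
        unfold K7bHor.mQ
        rw [mul_comm (H.ν _)]

theorem k8c_fa_to_meas (H : K7bHor) (q : H.Q) : Measurable (k8cTo H q) := by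
  unfold k8cTo k8cTh
  exact measurable_fst.prodMk ((measurable_snd.sub_const _).div_const _)

theorem k8c_fa_law (H : K7bHor) (s : ℝ) (q : H.Q) (E : Set (H.Lam × ℝ)) {A : Set (H.Lam × ℝ)} (hA : MeasurableSet A) :
    k8cLaw H s q E A = (H.mQ q)⁻¹ * H.lam (k8cTo H q ⁻¹' A ∩ (E ∩ k8cOn H s q)) := by
  unfold k8cLaw
  rw [Measure.smul_apply, smul_eq_mul, Measure.map_apply (k8c_fa_to_meas H q) hA,
    Measure.restrict_apply (k8c_fa_to_meas H q hA)]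

theorem k8c_fa_back (H : K7bHor) (q : H.Q) (hbl : H.bl q ≠ 0) (z : H.Lam × ℝ) : k8cBack H q (k8cTo H q z) = z := by
  unfold k8cBack k8cTo k8cTh
  refine Prod.ext rfl ?_
  simp only
  field_simp
  ring

theorem k8c_fa_pt (H : K7bHor) (s s3 : ℝ) (q : H.Q) (E : Set (H.Lam × ℝ)) (hbl : H.bl q ≠ 0) (z : H.Lam × ℝ)
    (hW : k8cTo H q z ∈ k8cW0 H s q E) :
    k8cT0 H s s3 q E (k8cTo H q z) = k8cG H s3 z ∧
      k8cZ0 H q (k8cTo H q z).1 + H.v (k8cTo H q z).1 * (k8cTo H q z).2 = k8cZh H q (H.Zt z.1 z.2) ∧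
      (k8cTo H q z).2 = k8cTh H q z.2 := by
  refine ⟨?_, ?_, rfl⟩
  · unfold k8cT0
    rw [if_pos hW, k8c_fa_back H q hbl]
  · unfold k8cZ0 k8cZh k8cTo k8cTh K7bHor.Zt
    simp only
    field_simp
    ring

theorem k8c_fa_mQ (c : K7bPar) (H : K7bHor) {K s : ℝ} (hc : c.WF) (hK : 1 ≤ K) (h : H.Ok c K) (hs : s ∈ c.G) {q : H.Q}
    (hq : q ∈ H.Qat s) : 0 < H.bl q ∧ H.mQ q ≠ 0 ∧ H.mQ q ≠ ⊤ := by
  have hK0 : 0 < K := by linarith
  have hN : 0 < c.N := lt_of_lt_of_le one_pos hc.N1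
  have ha : 0 < c.a s := Real.rpow_pos_of_pos hN _
  have hh : 0 < c.h s := Real.rpow_pos_of_pos hN _
  have hbl : 0 < H.bl q := lt_of_lt_of_le (by positivity) (h.bllen s hs q hq).1
  refine ⟨hbl, ?_, ?_⟩
  · unfold K7bHor.mQ
    refine mul_ne_zero (by simpa using hbl) ?_
    have h1 := (h.νQ s hs q hq).1
    have h2 : 0 < c.a s ^ c.d * c.h s ^ 3 / K := by
      have := Real.rpow_pos_of_pos ha c.d
      positivity
    intro h0
    rw [h0] at h1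
    exact absurd (ENNReal.ofReal_pos.2 h2) (not_lt.2 h1)
  · have h1 : H.mQ q ≤ ∑ q' ∈ H.Qat s, H.mQ q' := Finset.single_le_sum (f := H.mQ) (fun _ _ => zero_le) hq
    exact ne_top_of_le_ne_top ENNReal.one_ne_top (h1.trans (h.budget s hs))

theorem k8c_fit_all : ∃ C₁ C : ℕ, 1 ≤ C₁ ∧ ∀ (c : K7bPar) (H : K7bHor) (K Kf s g η m ω δ : ℝ) (E : Set (H.Lam × ℝ)),
    K8cRel c s g η m ω δ → 1 ≤ K → 1 ≤ Kf → (C : ℝ) * (K * Kf) ^ C * δ ≤ 1 → H.Ok c K → E ⊆ H.Sp → MeasurableSet E →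
    ENNReal.ofReal (1 / K) ≤ H.lam E → H.Slopes c K E → K8cRBins H c s (3 * s) m K E → K8cRowOk H c s (3 * s) K E →
    K8cFitHyp c.S m (c.a s) ((C₁ : ℝ) * K ^ C₁) Kf →
    ∃ (Fq : H.Q → ℝ × ℝ × ℝ × ℝ) (E' : Set (H.Lam × ℝ)), E' ⊆ E ∧ MeasurableSet E' ∧
      1 ≤ ENNReal.ofReal ((C : ℝ) * (K * Kf) ^ C) * H.lam E' ∧ K8cPrim H c s ((C : ℝ) * (K * Kf) ^ C) Fq E' := by
  classical
  obtain ⟨C₀, hfd⟩ := k8c_fit_data
  obtain ⟨Cp, hpp⟩ := k8c_prim_pt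
  refine ⟨C₀ * 2 ^ C₀ + C₀ + 1, (C₀ * 2 ^ C₀ + C₀ + 1) + Cp + 2, by omega, ?_⟩
  intro c H K Kf s g η m ω δ E hR hK hKf hC h hE hEm hmass hSl hRB hRO hFit
  obtain ⟨C₁, hC₁⟩ : ∃ C₁ : ℕ, C₁ = C₀ * 2 ^ C₀ + C₀ + 1 := ⟨_, rfl⟩
  rw [← hC₁] at hC hFit ⊢
  obtain ⟨C, hCdef⟩ : ∃ C : ℕ, C = C₁ + Cp + 2 := ⟨_, rfl⟩
  rw [← hCdef] at hC ⊢
  have hc := hR.wf
  have hs := hR.sG
  have hK0 : 0 < K := by linarith
  have hKf0 : 0 < Kf := by linarith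
  have hY : 1 ≤ K * Kf := by nlinarith
  have hKY : K ≤ K * Kf := by nlinarith
  obtain ⟨ha0, -, hh0, -, -, -, -, -, -⟩ := k8c_jc_rel hR
  have hX1 : (C₀ : ℝ) * (2 * K) ^ C₀ ≤ (C₁ : ℝ) * K ^ C₁ := by
    have e : (C₀ : ℝ) * (2 * K) ^ C₀ = ((C₀ * 2 ^ C₀ : ℕ) : ℝ) * K ^ C₀ := by
      push_cast
      rw [mul_pow]
      ring
    rw [e]
    exact k8c_pw_le hK (Nat.cast_nonneg _) (by exact_mod_cast (by omega : C₀ * 2 ^ C₀ ≤ C₁)) (by omega)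
  have hX2 : (C₁ : ℝ) * K ^ C₁ ≤ (C : ℝ) * (K * Kf) ^ C :=
    (k8c_pw_base hK0.le hKY C₁).trans (k8c_pw_mono hY (by omega))
  have hX3 : (Cp : ℝ) * (K * Kf) ^ Cp ≤ (C : ℝ) * (K * Kf) ^ C := k8c_pw_mono hY (by omega)
  have hδ0 := hR.δ0
  have hC0 : (C₀ : ℝ) * (2 * K) ^ C₀ * δ ≤ 1 := (mul_le_mul_of_nonneg_right (hX1.trans hX2) hδ0.le).trans hC
  have hCp : (Cp : ℝ) * (K * Kf) ^ Cp * δ ≤ 1 := (mul_le_mul_of_nonneg_right hX3 hδ0.le).trans hC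
  have h2K : K ≤ 2 * K := by linarith
  have h' : H.Ok c (2 * K) := k8c_ok_mono hc h hK0 h2K
  have hSl' := k8c_slopes_mono hc hSl h2K (subset_refl E)
  have hRB' := k8c_rbins_mono hRB h2K (subset_refl E)
  have hRO' := k8c_rowok_mono hc hRO h2K (subset_refl E)
  have hcov : E ⊆ ⋃ q ∈ H.Qat s, E ∩ k8cOn H s q := by
    intro z hz
    simp only [Set.mem_iUnion, exists_prop]
    exact ⟨H.lab s z, (h.labmem s hs z (hE hz)).1, hz, rfl⟩
  have hdense := k8c_fa_dense H.lam (H.Qat s) (fun q => E ∩ k8cOn H s q) H.mQ E hK hcov (h.budget s hs) hmass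
  obtain ⟨Dn, hDn⟩ : ∃ Dn : Finset H.Q, Dn = (H.Qat s).filter (fun q => H.mQ q ≤ ENNReal.ofReal (2 * K) * H.lam (E ∩ k8cOn H s q)) :=
    ⟨_, rfl⟩
  rw [← hDn] at hdense
  have hfit : ∀ q ∈ Dn, ∃ B₁ B₂ lam : ℝ, |B₁| ≤ Kf ∧ |B₂| ≤ Kf ∧ |lam| ≤ Kf ∧
      MeasurableSet {w | w ∈ k8cW0 H s q E ∧
        |(k8cT0 H s (3 * s) q E w).1 - B₁ + lam * (k8cZ0 H q w.1 + H.v w.1 * w.2)| ≤ Kf * c.a s ∧
        |(k8cT0 H s (3 * s) q E w).2 - B₂ - lam * w.2| ≤ Kf * c.a s} ∧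
      ENNReal.ofReal (1 / Kf) ≤ k8cLaw H s q E {w | w ∈ k8cW0 H s q E ∧
        |(k8cT0 H s (3 * s) q E w).1 - B₁ + lam * (k8cZ0 H q w.1 + H.v w.1 * w.2)| ≤ Kf * c.a s ∧
        |(k8cT0 H s (3 * s) q E w).2 - B₂ - lam * w.2| ≤ Kf * c.a s} := by
    intro q hq
    rw [hDn] at hq
    obtain ⟨hq1, hq2⟩ := Finset.mem_filter.1 hq
    obtain ⟨-, hmQ0, hmQt⟩ := k8c_fa_mQ c H hc hK h hs hq1
    have hd := hfd c H (2 * K) s g η m ω δ E q hR (by linarith) hC0 h' hE hEm hSl' hRB' hRO' hq1 hq2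
    have hX : 0 < (C₀ : ℝ) * (2 * K) ^ C₀ := by
      by_contra hX
      have h0 : k8cLaw H s q E Set.univ = 0 := by
        have h1 := hd.hdom Set.univ
        rw [ENNReal.ofReal_of_nonpos (not_lt.1 hX), zero_smul] at h1
        simpa using h1
      rw [k8c_fa_law H s q E MeasurableSet.univ, Set.preimage_univ, Set.univ_inter] at h0
      rcases mul_eq_zero.1 h0 with h1 | h1
      · exact hmQt (ENNReal.inv_eq_zero.1 h1)
      · rw [h1, mul_zero] at hq2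
        exact hmQ0 (le_antisymm hq2 zero_le)
    obtain ⟨B₁, B₂, lam, b1, b2, b3, b4⟩ := hFit H.Lam (k8cPr H q) (k8cZ0 H q) H.v H.x1 (k8cT0 H s (3 * s) q E)
      (k8cW0 H s q E) (k8cLaw H s q E) H.pal (k8c_re6fit_mono hd hX hX1 hR.m0.le ha0.le)
    refine ⟨B₁, B₂, lam, b1, b2, b3, ?_, b4⟩
    have mT := hd.hTm
    have mZ : Measurable fun w : H.Lam × ℝ => k8cZ0 H q w.1 + H.v w.1 * w.2 :=
      (hd.hZ0m.comp measurable_fst).add ((hd.hvelm.comp measurable_fst).mul measurable_snd)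
    have m1 : Measurable fun w : H.Lam × ℝ => |(k8cT0 H s (3 * s) q E w).1 - B₁ + lam * (k8cZ0 H q w.1 + H.v w.1 * w.2)| :=
      continuous_abs.measurable.comp ((mT.fst.sub_const _).add (mZ.const_mul _))
    have m2 : Measurable fun w : H.Lam × ℝ => |(k8cT0 H s (3 * s) q E w).2 - B₂ - lam * w.2| :=
      continuous_abs.measurable.comp ((mT.snd.sub_const _).sub (measurable_snd.const_mul _))
    exact hd.hWm.inter ((measurableSet_le m1 measurable_const).inter (measurableSet_le m2 measurable_const))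
  choose! B1 B2 lm hb1 hb2 hb3 hAm hlaw using hfit
  obtain ⟨Eq, hEq⟩ : ∃ Eq : H.Q → Set (H.Lam × ℝ), Eq = fun q => k8cTo H q ⁻¹' {w | w ∈ k8cW0 H s q E ∧
        |(k8cT0 H s (3 * s) q E w).1 - B1 q + lm q * (k8cZ0 H q w.1 + H.v w.1 * w.2)| ≤ Kf * c.a s ∧
        |(k8cT0 H s (3 * s) q E w).2 - B2 q - lm q * w.2| ≤ Kf * c.a s} ∩ (E ∩ k8cOn H s q) := ⟨_, rfl⟩
  have hEqm : ∀ q ∈ Dn, MeasurableSet (Eq q) := by
    intro q hq
    rw [hEq]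
    exact (k8c_fa_to_meas H q (hAm q hq)).inter (hEm.inter (h.mlab s hs q))
  have hEqsub : ∀ q, Eq q ⊆ E ∩ k8cOn H s q := by
    intro q
    rw [hEq]
    exact Set.inter_subset_right
  refine ⟨fun q => k8cF H q (B1 q) (B2 q) (lm q), ⋃ q ∈ Dn, Eq q, ?_, ?_, ?_, ?_⟩
  · intro z hz
    simp only [Set.mem_iUnion] at hz
    obtain ⟨q, -, hz⟩ := hz
    exact (hEqsub q hz).1
  · exact Finset.measurableSet_biUnion _ hEqm
  · have hdisj : Set.PairwiseDisjoint (↑Dn) Eq := by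
      intro q _ q' _ hne
      refine Set.disjoint_left.2 fun z hz hz' => hne ?_
      have e1 : H.lab s z = q := (hEqsub q hz).2
      have e2 : H.lab s z = q' := (hEqsub q' hz').2
      exact e1.symm.trans e2
    rw [measure_biUnion_finset hdisj hEqm]
    have hone : ∀ q ∈ Dn, H.lam (E ∩ k8cOn H s q) ≤ ENNReal.ofReal (K * Kf) * H.lam (Eq q) := by
      intro q hq
      have hq1 : q ∈ H.Qat s := by
        rw [hDn] at hq
        exact (Finset.mem_filter.1 hq).1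
      obtain ⟨-, hmQ0, hmQt⟩ := k8c_fa_mQ c H hc hK h hs hq1
      have l1 := hlaw q hq
      rw [k8c_fa_law H s q E (hAm q hq)] at l1
      have l2 : H.mQ q ≤ ENNReal.ofReal Kf * H.lam (Eq q) := by
        have e1 : ENNReal.ofReal Kf * ENNReal.ofReal (1 / Kf) = 1 := by
          rw [← ENNReal.ofReal_mul hKf0.le, mul_one_div_cancel hKf0.ne', ENNReal.ofReal_one]
        calc H.mQ q = H.mQ q * (ENNReal.ofReal Kf * ENNReal.ofReal (1 / Kf)) := by rw [e1, mul_one]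
          _ ≤ H.mQ q * (ENNReal.ofReal Kf * ((H.mQ q)⁻¹ * H.lam (Eq q))) := by
              rw [hEq]
              exact mul_le_mul' le_rfl (mul_le_mul' le_rfl l1)
          _ = (H.mQ q * (H.mQ q)⁻¹) * (ENNReal.ofReal Kf * H.lam (Eq q)) := by ring
          _ = ENNReal.ofReal Kf * H.lam (Eq q) := by rw [ENNReal.mul_inv_cancel hmQ0 hmQt, one_mul]
      calc H.lam (E ∩ k8cOn H s q) ≤ ENNReal.ofReal K * H.mQ q := k8c_fa_on_le c H h hs hE q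
        _ ≤ ENNReal.ofReal K * (ENNReal.ofReal Kf * H.lam (Eq q)) := mul_le_mul' le_rfl l2
        _ = ENNReal.ofReal (K * Kf) * H.lam (Eq q) := by rw [ENNReal.ofReal_mul hK0.le, mul_assoc]
    have hsum : ENNReal.ofReal (1 / (2 * K)) ≤ ENNReal.ofReal (K * Kf) * ∑ q ∈ Dn, H.lam (Eq q) := by
      rw [Finset.mul_sum]
      exact hdense.trans (Finset.sum_le_sum hone)
    have hconst : 2 * K * (K * Kf) ≤ (C : ℝ) * (K * Kf) ^ C := by
      have q1 : 2 * K * (K * Kf) ≤ 2 * (K * Kf) ^ 2 := by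
        have : K * (K * Kf) ≤ (K * Kf) * (K * Kf) := mul_le_mul_of_nonneg_right hKY (by positivity)
        nlinarith
      refine q1.trans (k8c_pw_le hY (by norm_num) ?_ (by omega))
      have : (2 : ℕ) ≤ C := by omega
      exact_mod_cast this
    calc (1 : ℝ≥0∞) = ENNReal.ofReal (2 * K) * ENNReal.ofReal (1 / (2 * K)) := by
          rw [← ENNReal.ofReal_mul (by positivity), mul_one_div_cancel (by positivity), ENNReal.ofReal_one]
      _ ≤ ENNReal.ofReal (2 * K) * (ENNReal.ofReal (K * Kf) * ∑ q ∈ Dn, H.lam (Eq q)) := mul_le_mul' le_rfl hsum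
      _ = ENNReal.ofReal (2 * K * (K * Kf)) * ∑ q ∈ Dn, H.lam (Eq q) := by
          rw [ENNReal.ofReal_mul (p := 2 * K) (by positivity), mul_assoc]
      _ ≤ ENNReal.ofReal ((C : ℝ) * (K * Kf) ^ C) * ∑ q ∈ Dn, H.lam (Eq q) :=
          mul_le_mul' (ENNReal.ofReal_le_ofReal hconst) le_rfl
  · intro z hz
    simp only [Set.mem_iUnion] at hz
    obtain ⟨q, hq, hz⟩ := hz
    have hq1 : q ∈ H.Qat s := by
      rw [hDn] at hq
      exact (Finset.mem_filter.1 hq).1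
    obtain ⟨hbl, -, -⟩ := k8c_fa_mQ c H hc hK h hs hq1
    have hzE := (hEqsub q hz).1
    have hzq : H.lab s z = q := (hEqsub q hz).2
    rw [hEq] at hz
    obtain ⟨hW, f1, f2⟩ := hz.1
    obtain ⟨p1, p2, p3⟩ := k8c_fa_pt H s (3 * s) q E hbl.ne' z hW
    rw [p1, p2] at f1
    rw [p1, p3] at f2
    rw [← hzq] at f1 f2
    have hq' : H.lab s z ∈ Dn := by rw [hzq]; exact hq
    obtain ⟨r1, r2, r3, r4⟩ := hpp c H K Kf s g η m ω δ (B1 (H.lab s z)) (B2 (H.lab s z)) (lm (H.lab s z)) z hR hK hKf hCp h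
      (hE hzE) (hRO z hzE).1 (hb1 _ hq') (hb2 _ hq') (hb3 _ hq') f1 f2
    have hd : (Cp : ℝ) * (K * Kf) ^ Cp / c.h s ≤ (C : ℝ) * (K * Kf) ^ C / c.h s := div_le_div_of_nonneg_right hX3 hh0.le
    exact ⟨r1.trans (mul_le_mul_of_nonneg_right hX3 ha0.le), r2.trans hd, r3.trans hd, r4.trans hd⟩

end Claimed.Agent.R252

end PkS8cH5Prim

section PkS8cH6Switch

/-!
# Row 252, S8c, leaf L-252-S8c-H6 (`k8c_switch`)      PROVED (helper268), no sorry.      08 l.178-205      (architect helper54)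
PAPER-FREE.   `a' = c.a (s + g)`.    The switching state `k8cSt` = (label of depth `s`, intercept bin of mesh `a'`, fine base cell of mesh `ξ`).
PLAN.  `k8c_cond` with the datum `d = k8cSt H s a' ξ Fq`, `Cf = Prod.snd`.
Measurability: `lab s` has finitely many values with measurable fibres (`mlab`); for fixed `q` the map `l ↦ k8cInt H (Fq q) q l` is measurable (`mx0, mx1, mp, mv, mq0, my1`); `base` is measurable; `⌊·⌋` is measurable.
Options per end history `e` : the label is known (`ehlab`); `ehpt` : `≤ K` values of `H.pt ξ ϱ z = (fine cell, bin of X z at mesh ϱ)`.   For a fixed value: `X z` is known to `ϱ`, `k7bAff F (base z)` to `3 (K/h) ξ` (`K8cPrim` slopes),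
`|X z - k7bAff F (base z) - c_l| ≤ K² a h` (`k8c_int_fit` at `t = z.2`, `labmem`).   So `c_l` lies in an interval of length `2 (ϱ + 3 K ξ/h + K² a h) ≤ a'` (`r_ϱ`, `r_ξ`, `r_ah`) : `≤ 2` bins.    `n = 2 ⌈K⌉`.
-/

set_option autoImplicit false

namespace Claimed.Agent.R252

open MeasureTheory
open scoped ENNReal BigOperators

/-- equal bins: the points are closer than the mesh -/
theorem k8c_sw_bin_close {m x y : ℝ} (hm : 0 < m) (h : k7bBin m x = k7bBin m y) : |x - y| ≤ m := by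
  unfold k7bBin at h
  have h1 := Int.floor_le (x / m)
  have h2 := Int.lt_floor_add_one (x / m)
  have h3 := Int.floor_le (y / m)
  have h4 := Int.lt_floor_add_one (y / m)
  rw [h] at h1 h2
  have h5 : |x / m - y / m| ≤ 1 := by
    rw [abs_le]
    constructor <;> linarith
  rw [← sub_div, abs_div, abs_of_pos hm, div_le_one hm] at h5
  exact h5

/-- close points: the bins differ by at most one -/
theorem k8c_sw_bin_near {m x y : ℝ} (hm : 0 < m) (h : |x - y| ≤ m) :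
    k7bBin m x = k7bBin m y - 1 ∨ k7bBin m x = k7bBin m y ∨ k7bBin m x = k7bBin m y + 1 := by
  unfold k7bBin
  have h1 := Int.floor_le (x / m)
  have h2 := Int.lt_floor_add_one (x / m)
  have h3 := Int.floor_le (y / m)
  have h4 := Int.lt_floor_add_one (y / m)
  have h5 : |x / m - y / m| ≤ 1 := by
    rw [← sub_div, abs_div, abs_of_pos hm, div_le_one hm]
    exact h
  rw [abs_le] at h5
  have h6 : (⌊x / m⌋ : ℝ) < ⌊y / m⌋ + 2 := by linarith [h5.2]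
  have h7 : (⌊y / m⌋ : ℝ) < ⌊x / m⌋ + 2 := by linarith [h5.1]
  have h6' : ⌊x / m⌋ < ⌊y / m⌋ + 2 := by exact_mod_cast h6
  have h7' : ⌊y / m⌋ < ⌊x / m⌋ + 2 := by exact_mod_cast h7
  omega

/-- measurability of the bins -/
theorem k8c_sw_bin_meas {Ω : Type*} [MeasurableSpace Ω] {f : Ω → ℝ} (hf : Measurable f) (m : ℝ) (b : ℤ) :
    MeasurableSet {z | k7bBin m (f z) = b} := by
  have h1 : Measurable fun z => k7bBin m (f z) := by
    unfold k7bBin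
    exact Int.measurable_floor.comp (hf.div_const m)
  exact h1 (measurableSet_singleton b)

/-- the gaps which are used by the switching states -/
theorem k8c_sw_gaps {c : K7bPar} {s g η m ω δ : ℝ} (hr : K8cRel c s g η m ω δ) :
    0 < c.a (s + g) ∧ 0 < c.h s ∧ c.ξ ≤ δ * (c.a (s + g) * c.h s) := by
  have hN1 := hr.wf.N1
  have hN0 : 0 < c.N := lt_of_lt_of_le one_pos hN1
  have ha0 : 0 < c.a s := Real.rpow_pos_of_pos hN0 _
  have ha'0 : 0 < c.a (s + g) := Real.rpow_pos_of_pos hN0 _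
  have hh0 : 0 < c.h s := Real.rpow_pos_of_pos hN0 _
  have ha1 : c.a s ≤ 1 := Real.rpow_le_one_of_one_le_of_nonpos hN1 (by linarith [hr.s0])
  have ha'1 : c.a (s + g) ≤ 1 := Real.rpow_le_one_of_one_le_of_nonpos hN1 (by linarith [hr.s0, hr.g0])
  have hah : c.a s ≤ c.h s := by
    refine Real.rpow_le_rpow_of_exponent_le hN1 ?_
    have : c.k * s ≤ 1 * s := mul_le_mul_of_nonneg_right hr.wf.k1 hr.s0.le
    linarith
  have hδ0 := hr.δ0
  have hδ1 := hr.δ1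
  have hη1 : η ≤ 1 := hr.r_η.trans (by nlinarith)
  have hm1 : m ≤ 1 := hr.r_m.trans (by nlinarith [hr.η0])
  have hω : ω ≤ c.a (s + g) := hr.r_ω.trans (by nlinarith [mul_pos ha'0 ha'0])
  have ha2 : c.a s ^ 2 ≤ c.h s := by nlinarith
  refine ⟨ha'0, hh0, hr.r_ξ.trans (mul_le_mul_of_nonneg_left ?_ hδ0.le)⟩
  calc m * ω * c.a s ^ 2 ≤ 1 * c.a (s + g) * c.h s := by
        have := hr.m0
        have := hr.ω0
        gcongr
    _ = _ := by ring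

/-- two incidences with the same end history and the same fine point state have close intercepts -/
theorem k8c_sw_close {c : K7bPar} {H : K7bHor} {K s g η m ω δ : ℝ} {Fq : H.Q → ℝ × ℝ × ℝ × ℝ} {E : Set (H.Lam × ℝ)}
    (hr : K8cRel c s g η m ω δ) (hK : 1 ≤ K) (hδ : 6 * K ^ 2 * δ ≤ 1) (h : H.Ok c K) (hE : E ⊆ H.Sp) (hP : K8cPrim H c s K Fq E)
    {z z' : H.Lam × ℝ} (hz : z ∈ E) (hz' : z' ∈ E) (hl : H.lab s z = H.lab s z') (hpt : H.pt c.ξ c.ϱ z = H.pt c.ξ c.ϱ z') :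
    |k8cInt H (Fq (H.lab s z)) (H.lab s z) z.1 - k8cInt H (Fq (H.lab s z')) (H.lab s z') z'.1| ≤ c.a (s + g) := by
  obtain ⟨ha'0, hh0, hξ⟩ := k8c_sw_gaps hr
  have f1 := k8c_int_fit c H hr.wf hK h hr.sG Fq hE hP hz (h.labmem s hr.sG z (hE hz)).2.1
  have f2 := k8c_int_fit c H hr.wf hK h hr.sG Fq hE hP hz' (h.labmem s hr.sG z' (hE hz')).2.1
  obtain ⟨-, p1, p2, p3⟩ := hP z hz
  rw [← hl] at f2 ⊢
  obtain ⟨F, hF⟩ : ∃ F, F = Fq (H.lab s z) := ⟨_, rfl⟩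
  rw [← hF] at f1 f2 p1 p2 p3 ⊢
  unfold K7bHor.pt k7bCell at hpt
  simp only [Prod.mk.injEq] at hpt
  obtain ⟨⟨c1, c2, c3⟩, c4⟩ := hpt
  have d1 := k8c_sw_bin_close hr.wf.ξ0 c1
  have d2 := k8c_sw_bin_close hr.wf.ξ0 c2
  have d3 := k8c_sw_bin_close hr.wf.ξ0 c3
  have d4 := k8c_sw_bin_close hr.wf.ϱ0 c4
  have e0 : H.bs z.1 z.2 = H.base z := rfl
  have e0' : H.bs z'.1 z'.2 = H.base z' := rfl
  have e1 : H.Xt z.1 z.2 = H.X z := rfl
  have e1' : H.Xt z'.1 z'.2 = H.X z' := rfl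
  rw [e0, e1] at f1
  rw [e0', e1'] at f2
  have hKh : 0 ≤ K / c.h s := by positivity
  have g1 : |k7bAff F (H.base z) - k7bAff F (H.base z')| ≤ 3 * (K / c.h s * c.ξ) := by
    have : k7bAff F (H.base z) - k7bAff F (H.base z') = F.2.1 * ((H.base z).1 - (H.base z').1) + F.2.2.1 * ((H.base z).2.1 - (H.base z').2.1)
        + F.2.2.2 * ((H.base z).2.2 - (H.base z').2.2) := by
      unfold k7bAff
      ring
    rw [this]
    refine (abs_add_three _ _ _).trans ?_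
    rw [abs_mul, abs_mul, abs_mul]
    have t1 := mul_le_mul p1 d1 (abs_nonneg _) hKh
    have t2 := mul_le_mul p2 d2 (abs_nonneg _) hKh
    have t3 := mul_le_mul p3 d3 (abs_nonneg _) hKh
    linarith
  have g2 : K / c.h s * c.ξ ≤ K * (δ * c.a (s + g)) := by
    rw [div_mul_eq_mul_div, div_le_iff₀ hh0]
    calc K * c.ξ ≤ K * (δ * (c.a (s + g) * c.h s)) := by gcongr
      _ = _ := by ring
  have g3 : K ^ 2 * (c.a s * c.h s) ≤ K ^ 2 * (δ * c.a (s + g)) := by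
    have := hr.r_ah
    gcongr
  have g4 := hr.r_ϱ
  have hx : 0 ≤ δ * c.a (s + g) := mul_nonneg hr.δ0.le ha'0.le
  have g5 : K * (δ * c.a (s + g)) ≤ K ^ 2 * (δ * c.a (s + g)) := by
    refine mul_le_mul_of_nonneg_right ?_ hx
    nlinarith
  have g6 : δ * c.a (s + g) ≤ K ^ 2 * (δ * c.a (s + g)) := by
    refine le_mul_of_one_le_left hx ?_
    nlinarith
  have g7 : 6 * (K ^ 2 * (δ * c.a (s + g))) ≤ c.a (s + g) := by
    calc 6 * (K ^ 2 * (δ * c.a (s + g))) = (6 * K ^ 2 * δ) * c.a (s + g) := by ring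
      _ ≤ 1 * c.a (s + g) := by gcongr
      _ = _ := one_mul _
  rw [abs_le] at f1 f2 d4 g1 ⊢
  constructor <;> linarith [f1.1, f1.2, f2.1, f2.2, d4.1, d4.2, g1.1, g1.2]

/-- the switching state is measurable -/
theorem k8c_sw_meas {c : K7bPar} {H : K7bHor} {K s : ℝ} (h : H.Ok c K) (hs : s ∈ c.G) (a' ξ : ℝ) (Fq : H.Q → ℝ × ℝ × ℝ × ℝ) :
    KsLab (k8cSt H s a' ξ Fq) := by
  rintro ⟨q, C0, b1, b2, b3⟩
  have hp : Measurable fun z : H.Lam × ℝ => H.p z.1 := h.mp.comp measurable_fst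
  have hv : Measurable fun z : H.Lam × ℝ => H.v z.1 := h.mv.comp measurable_fst
  have hq0 : Measurable fun z : H.Lam × ℝ => H.q0 z.1 := h.mq0.comp measurable_fst
  have hy1 : Measurable fun z : H.Lam × ℝ => H.y1 z.1 := h.my1.comp measurable_fst
  have hx0 : Measurable fun z : H.Lam × ℝ => H.x0 z.1 := h.mx0.comp measurable_fst
  have hx1 : Measurable fun z : H.Lam × ℝ => H.x1 z.1 := h.mx1.comp measurable_fst
  have ht : Measurable fun z : H.Lam × ℝ => z.2 := measurable_snd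
  have m0 : Measurable fun z : H.Lam × ℝ => k8cInt H (Fq q) q z.1 := by
    unfold k8cInt k7bAff K7bHor.Xt K7bHor.bs K7bHor.Zt K7bHor.Yt
    fun_prop
  have m1 : Measurable fun z : H.Lam × ℝ => (H.base z).1 := by
    unfold K7bHor.base K7bHor.bs
    exact ht
  have m2 : Measurable fun z : H.Lam × ℝ => (H.base z).2.1 := by
    unfold K7bHor.base K7bHor.bs K7bHor.Zt
    fun_prop
  have m3 : Measurable fun z : H.Lam × ℝ => (H.base z).2.2 := by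
    unfold K7bHor.base K7bHor.bs K7bHor.Yt
    fun_prop
  have e : k8cSt H s a' ξ Fq ⁻¹' {(q, C0, b1, b2, b3)} = H.lab s ⁻¹' {q} ∩ ({z | k7bBin a' (k8cInt H (Fq q) q z.1) = C0} ∩
      ({z | k7bBin ξ (H.base z).1 = b1} ∩ ({z | k7bBin ξ (H.base z).2.1 = b2} ∩ {z | k7bBin ξ (H.base z).2.2 = b3}))) := by
    ext z
    simp only [Set.mem_preimage, Set.mem_singleton_iff, Set.mem_inter_iff, Set.mem_ofPred_eq, k8cSt, k8cC, k7bCell, Prod.mk.injEq]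
    constructor
    · rintro ⟨h1, h2, h3⟩
      subst h1
      exact ⟨rfl, h2, h3⟩
    · rintro ⟨h1, h2, h3⟩
      subst h1
      exact ⟨rfl, h2, h3⟩
  rw [e]
  exact (h.mlab s hs q).inter ((k8c_sw_bin_meas m0 a' C0).inter ((k8c_sw_bin_meas m1 ξ b1).inter
    ((k8c_sw_bin_meas m2 ξ b2).inter (k8c_sw_bin_meas m3 ξ b3))))

/-- the options of the switching state per end history -/
theorem k8c_sw_opt {c : K7bPar} {H : K7bHor} {K s g η m ω δ : ℝ} {Fq : H.Q → ℝ × ℝ × ℝ × ℝ} {E : Set (H.Lam × ℝ)}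
    (hr : K8cRel c s g η m ω δ) (hK : 1 ≤ K) (hδ : 6 * K ^ 2 * δ ≤ 1) (h : H.Ok c K) (hE : E ⊆ H.Sp) (hP : K8cPrim H c s K Fq E) (e : H.Eh) :
    ∃ L : Finset (H.Q × ℤ × (ℤ × ℤ × ℤ)), L.card ≤ 3 * ⌊K⌋₊ ∧ ∀ z ∈ E, H.eh z = e → k8cSt H s (c.a (s + g)) c.ξ Fq z ∈ L := by
  classical
  by_cases hne : ∃ w ∈ E, H.eh w = e
  swap
  · exact ⟨∅, by simp, fun z hz he => absurd ⟨z, hz, he⟩ hne⟩
  obtain ⟨w, -, -⟩ := hne
  obtain ⟨L0, hL0, hL0m⟩ := h.ehpt e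
  have ha'0 := (k8c_sw_gaps hr).1
  -- a representative of every fine point state
  have hrep : ∀ y : (ℤ × ℤ × ℤ) × ℤ, ∃ x : H.Q × ℤ, ∀ z ∈ E, H.eh z = e → H.pt c.ξ c.ϱ z = y →
      H.lab s z = x.1 ∧ (k8cC H s (c.a (s + g)) Fq z = x.2 - 1 ∨ k8cC H s (c.a (s + g)) Fq z = x.2 ∨ k8cC H s (c.a (s + g)) Fq z = x.2 + 1) := by
    intro y
    by_cases hy : ∃ z0 ∈ E, H.eh z0 = e ∧ H.pt c.ξ c.ϱ z0 = y
    · obtain ⟨z0, hz0, he0, hy0⟩ := hy
      refine ⟨(H.lab s z0, k8cC H s (c.a (s + g)) Fq z0), fun z hz he hy' => ?_⟩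
      have hl : H.lab s z = H.lab s z0 := h.ehlab s hr.sG z (hE hz) z0 (hE hz0) (he.trans he0.symm)
      exact ⟨hl, k8c_sw_bin_near ha'0 (k8c_sw_close hr hK hδ h hE hP hz hz0 hl (hy'.trans hy0.symm))⟩
    · exact ⟨(H.lab s w, 0), fun z hz he hy' => absurd ⟨z, hz, he, hy'⟩ hy⟩
  choose x hx using hrep
  refine ⟨L0.biUnion fun y => {((x y).1, (x y).2 - 1, y.1), ((x y).1, (x y).2, y.1), ((x y).1, (x y).2 + 1, y.1)}, ?_, ?_⟩
  · refine (Finset.card_biUnion_le_card_mul _ _ 3 fun y _ => Finset.card_le_three).trans ?_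
    rw [mul_comm]
    exact Nat.mul_le_mul_left 3 (Nat.le_floor hL0)
  · intro z hz he
    have h1 := hL0m z (hE hz) he
    obtain ⟨h2, h3⟩ := hx _ z hz he rfl
    refine Finset.mem_biUnion.2 ⟨_, h1, ?_⟩
    simp only [Finset.mem_insert, Finset.mem_singleton, k8cSt, Prod.mk.injEq]
    have h4 : k7bCell c.ξ (H.base z) = (H.pt c.ξ c.ϱ z).1 := rfl
    rcases h3 with h3 | h3 | h3
    · exact Or.inl ⟨h2, h3, h4⟩
    · exact Or.inr (Or.inl ⟨h2, h3, h4⟩)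
    · exact Or.inr (Or.inr ⟨h2, h3, h4⟩)

theorem k8c_switch : ∃ C : ℕ, ∀ (c : K7bPar) (H : K7bHor) (K ε s g η m ω δ : ℝ) (Fq : H.Q → ℝ × ℝ × ℝ × ℝ) (E : Set (H.Lam × ℝ)),
    K8cRel c s g η m ω δ → 1 ≤ K → 0 < ε → ε ≤ 1 → (C : ℝ) * K ^ C * δ ≤ 1 → H.Ok c K → E ⊆ H.Sp → MeasurableSet E →
    K8cPrim H c s K Fq E →
    ∃ E' ⊆ E, MeasurableSet E' ∧ H.lam (E \ E') ≤ ENNReal.ofReal ε ∧
      K8cCond H c (k8cSt H s (c.a (s + g)) c.ξ Fq) ((C : ℝ) * (K / ε) ^ C) E' := by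
  refine ⟨12, fun c H K ε s g η m ω δ Fq E hr hK hε hε1 hδ h hE hm hP => ?_⟩
  have hK0 : 0 < K := by linarith
  have hδ' : 6 * K ^ 2 * δ ≤ 1 := by
    refine le_trans ?_ hδ
    refine mul_le_mul_of_nonneg_right ?_ hr.δ0.le
    have := k8c_pw_le hK (a := 6) (b := 2) (D := 12) (by norm_num) (by norm_num) (by norm_num)
    exact_mod_cast this
  obtain ⟨E', h1, h2, h3, h4⟩ := k8c_cond c H (3 * ⌊K⌋₊) hK hε h hE hm (k8cSt H s (c.a (s + g)) c.ξ Fq)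
    (fun d0 => hm.inter (k8c_sw_meas h hr.sG _ _ Fq d0)) (k8c_sw_opt hr hK hδ' h hE hP) Prod.snd
  refine ⟨E', h1, h2, h3, k8c_cond_mono h4 ?_⟩
  have hfl : ((3 * ⌊K⌋₊ : ℕ) : ℝ) ≤ 3 * K := by
    push_cast
    have := Nat.floor_le hK0.le
    linarith
  have hKε : 1 ≤ K / ε := by
    rw [le_div_iff₀ hε]
    linarith
  calc 4 * ((3 * ⌊K⌋₊ : ℕ) : ℝ) * K ^ 3 / ε ^ 2 ≤ 4 * (3 * K) * K ^ 3 / ε ^ 2 := by gcongr
    _ = 12 * (K ^ 4 / ε ^ 2) := by ring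
    _ ≤ 12 * (K ^ 4 / ε ^ 4) := by
        gcongr 12 * (K ^ 4 / ?_)
        exact pow_le_pow_of_le_one hε.le hε1 (by norm_num)
    _ = 12 * (K / ε) ^ 4 := by rw [div_pow]
    _ ≤ ((12 : ℕ) : ℝ) * (K / ε) ^ 12 := k8c_pw_le hKε (by norm_num) (by norm_num) (by norm_num)

end Claimed.Agent.R252

end PkS8cH6Switch

section PkS8cH7Upper

/-!
# Row 252, S8c, leaves L-252-S8c-H7a (`k8c_desc_count`), H7b (`k8c_desc_cells`), H7c (`k8c_desc_bins`), H7 (`k8c_upper`)      PROVED (helper85).      08 l.153-176      (architect helper54)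
PAPER-FREE.   `a = c.a s`, `h = c.h s`, `s' = s + g`, `a' = c.a s'`, `h' = c.h s'`; `k = 1/2` : `h² = a`, `h'² = a'`, `a' ≤ a`, `h' ≤ h`, `(h'/h)² = a'/a`.

`k8c_desc_count` (true descendants of `q` which occur on `E`).   For `q' = lab s' z`, `z ∈ E`, `lab s z = q` : the witness set `W q' = E₀ ∩ {lab s' = q'}` has `lam ≥ mQ q'/K` (`Pairs` with both depths `= s'`; `pairEv s' s' z ⊆ {lab s' = lab s' z}`),
`W q' ⊆ Sp ∩ k8cOn H s q` (`nest`), the `W q'` are measurable (`mlab`) and disjoint, `lam (Sp ∩ k8cOn H s q) ≤ K mQ q` (`dom`, `labmem`).   `mQ q' ≥ (h'/K)(a'^d h'³/K)`, `mQ q ≤ K h · K a^d h³` (`bllen`, `νQ`).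

`k8c_desc_cells` (centred cells of mesh `ω` met by one descendant).   `base z ∈ k7bBox (ct q') (cZ q') (cY q') h' K` and `∈ k7bBox (ct q) .. h K` (`box`, `labmem`).   With `û = k8cHat H q u`, `Hq = bl q ∈ [h/K, K h]` :
`t̂, Ẑ` lie in intervals of length `2 K h'/Hq ≤ 2 K² h'/h`;   `Ŷ = const + A · ẑ + e/Hq²`, `A = (J z_c' - J z_c)/Hq·`, `|A| ≤ 2 K²`, `|e| ≤ K h'²`.    Columns `≤ (2K² h'/(h ω) + 2)²`, cells per column `≤ 4K² + 2K³ (h'/h)²/ω + 2`;  `ω ≤ (h'/h)²` (`r_ω`).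

`k8c_desc_bins` (intercept bins in one cell of one descendant).   `c_l = k7bAff (L' - F) (base z) + O(K a' + K² a h)` (`entfit` at depth `s'`, `k8c_int_fit`), `L' = entOf s' z ∈ ent q'` (`≤ K`).
Two points of the same centred cell: `|Δt|, |ΔZ| ≤ ω Hq`, `|ΔY| ≤ Hq² ω + (|cZ| + |ct|) ω Hq`;  ordinary slopes of `L'` `≤ C K²` (`Slopes` at depth `s'` : `a'/h' ≤ 1`, `a'/h'² = 1`), of `F` `≤ K/h`;  variation `≤ C K^C ω/h ≤ a'`.

`k8c_upper` : product of the three counts; `(a/a')^d (h/h')⁴ · (h'/h)⁴/ω³`.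
-/

set_option autoImplicit false

namespace Claimed.Agent.R252

open MeasureTheory
open scoped ENNReal BigOperators

/-- the scales of `K8cRel` -/
theorem k8c_u_scales {c : K7bPar} {s g η m ω δ : ℝ} (hR : K8cRel c s g η m ω δ) :
    0 < c.a s ∧ 0 < c.a (s + g) ∧ 0 < c.h s ∧ 0 < c.h (s + g) ∧ c.h s ^ 2 = c.a s ∧ c.h (s + g) ^ 2 = c.a (s + g) ∧
      c.a (s + g) ≤ c.a s ∧ c.a s ≤ 1 ∧ c.h (s + g) ≤ c.h s ∧ c.h s ≤ 1 := by
  have hN1 := hR.wf.N1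
  have hN0 : 0 < c.N := by linarith
  have hs := hR.s0
  have hg := hR.g0
  have hk := hR.khalf
  have hsq : ∀ x : ℝ, c.h x ^ 2 = c.a x := fun x => by
    unfold K7bPar.h K7bPar.a
    rw [← Real.rpow_natCast, ← Real.rpow_mul hN0.le, hk]
    congr 1
    push_cast
    ring
  refine ⟨Real.rpow_pos_of_pos hN0 _, Real.rpow_pos_of_pos hN0 _, Real.rpow_pos_of_pos hN0 _, Real.rpow_pos_of_pos hN0 _, hsq s, hsq (s + g),
    ?_, ?_, ?_, ?_⟩
  · exact Real.rpow_le_rpow_of_exponent_le hN1 (by linarith)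
  · exact Real.rpow_le_one_of_one_le_of_nonpos hN1 (by linarith)
  · refine Real.rpow_le_rpow_of_exponent_le hN1 ?_
    rw [hk]
    linarith
  · refine Real.rpow_le_one_of_one_le_of_nonpos hN1 ?_
    rw [hk]
    linarith

/-- the reference law of a label: `lam (Sp ∩ {lab s = q}) ≤ K m_Q` -/
theorem k8c_u_on_le (c : K7bPar) (H : K7bHor) {K s : ℝ} (h : H.Ok c K) (hs : s ∈ c.G) (q : H.Q) :
    H.lam (H.Sp ∩ k8cOn H s q) ≤ ENNReal.ofReal K * H.mQ q := by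
  have hsub : H.Sp ∩ k8cOn H s q ⊆ H.asg q ×ˢ H.blk q := by
    rintro z ⟨hz, hq⟩
    have hq' : H.lab s z = q := hq
    obtain ⟨-, h2, h3⟩ := h.labmem s hs z hz
    rw [hq'] at h2 h3
    exact ⟨h3, h2⟩
  have hfin : IsFiniteMeasure H.ν := ⟨by rw [h.νprob]; exact ENNReal.one_lt_top⟩
  have hsf : SFinite k7bTime := by unfold k7bTime; infer_instance
  calc H.lam (H.Sp ∩ k8cOn H s q) ≤ H.lam (H.asg q ×ˢ H.blk q) := measure_mono hsub
    _ ≤ (ENNReal.ofReal K • H.ν.prod k7bTime) (H.asg q ×ˢ H.blk q) := h.dom _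
    _ = ENNReal.ofReal K * (H.ν (H.asg q) * k7bTime (H.blk q)) := by
        rw [Measure.smul_apply, smul_eq_mul, Measure.prod_prod]
    _ ≤ ENNReal.ofReal K * (H.ν (H.asg q) * ENNReal.ofReal (H.bl q)) := by
        gcongr
        unfold k7bTime K7bHor.blk
        refine (Measure.restrict_apply_le _ _).trans ?_
        rw [Real.volume_Ico]
        exact ENNReal.ofReal_le_ofReal (by linarith)
    _ = ENNReal.ofReal K * H.mQ q := by
        unfold K7bHor.mQ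
        ring

theorem k8c_desc_count : ∃ C : ℕ, ∀ (c : K7bPar) (H : K7bHor) (K s g η m ω δ : ℝ) (E₀ E : Set (H.Lam × ℝ)) (q : H.Q) (S : Finset H.Q),
    K8cRel c s g η m ω δ → 1 ≤ K → H.Ok c K → E₀ ⊆ H.Sp → MeasurableSet E₀ → E ⊆ H.Sp → H.Pairs c K E₀ E →
    (∀ q' ∈ S, ∃ z ∈ E, H.lab s z = q ∧ H.lab (s + g) z = q') →
    (S.card : ℝ) ≤ (C : ℝ) * K ^ C * (c.a s / c.a (s + g)) ^ c.d * (c.h s / c.h (s + g)) ^ 4 := by
  refine ⟨6, fun c H K s g η m ω δ E₀ E q S hR hK h hE₀ hmE₀ hE hP hS => ?_⟩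
  obtain ⟨ha, ha', hh, hh', -, -, -, -, -, -⟩ := k8c_u_scales hR
  have hK0 : 0 < K := by linarith
  have had : 0 < c.a s ^ c.d := Real.rpow_pos_of_pos ha _
  have had' : 0 < c.a (s + g) ^ c.d := Real.rpow_pos_of_pos ha' _
  rcases S.eq_empty_or_nonempty with rfl | ⟨q0, hq0⟩
  · simp only [Finset.card_empty, Nat.cast_zero]
    positivity
  have hsG := hR.sG
  have hsgG := hR.sgG
  have hq : q ∈ H.Qat s := by
    obtain ⟨z, hz, h1, -⟩ := hS q0 hq0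
    rw [← h1]
    exact (h.labmem s hsG z (hE hz)).1
  -- the witnesses
  set Wt : H.Q → Set (H.Lam × ℝ) := fun q' => E₀ ∩ H.lab (s + g) ⁻¹' {q'} with hWt
  have hmeas : ∀ q' ∈ S, MeasurableSet (Wt q') := fun q' _ => hmE₀.inter (h.mlab (s + g) hsgG q')
  have hdisj : (S : Set H.Q).PairwiseDisjoint Wt := by
    intro q1 _ q2 _ hne
    refine Set.disjoint_left.2 fun z h1 h2 => hne ?_
    have e1 : H.lab (s + g) z = q1 := h1.2
    have e2 : H.lab (s + g) z = q2 := h2.2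
    rw [← e1, ← e2]
  have hsub : ∀ q' ∈ S, Wt q' ⊆ H.Sp ∩ k8cOn H s q := by
    rintro q' hq' z' ⟨hz', hl⟩
    obtain ⟨z, hz, h1, h2⟩ := hS q' hq'
    have hl' : H.lab (s + g) z' = q' := hl
    refine ⟨hE₀ hz', ?_⟩
    show H.lab s z' = q
    rw [← h1]
    exact h.nest s hsG (s + g) hsgG (by linarith [hR.g0]) z' (hE₀ hz') z (hE hz) (by rw [hl', h2])
  have hlow : ∀ q' ∈ S, ENNReal.ofReal (c.h (s + g) / K * (c.a (s + g) ^ c.d * c.h (s + g) ^ 3 / K) / K) ≤ H.lam (Wt q') := by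
    intro q' hq'
    obtain ⟨z, hz, h1, h2⟩ := hS q' hq'
    have hq'Q : q' ∈ H.Qat (s + g) := by
      rw [← h2]
      exact (h.labmem (s + g) hsgG z (hE hz)).1
    have hp := hP (s + g) hsgG (s + g) hsgG le_rfl z hz
    rw [h2] at hp
    have hp2 : H.lam (E₀ ∩ H.pairEv (s + g) (s + g) z) ≤ H.lam (Wt q') := by
      refine measure_mono (Set.inter_subset_inter_right _ fun z' hz' => ?_)
      show H.lab (s + g) z' = q'
      rw [← h2]
      exact hz'.1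
    have hm : ENNReal.ofReal (c.h (s + g) / K * (c.a (s + g) ^ c.d * c.h (s + g) ^ 3 / K)) ≤ H.mQ q' := by
      unfold K7bHor.mQ
      rw [ENNReal.ofReal_mul (by positivity)]
      exact mul_le_mul' (ENNReal.ofReal_le_ofReal (h.bllen (s + g) hsgG q' hq'Q).1) (h.νQ (s + g) hsgG q' hq'Q).1
    have h3 : ENNReal.ofReal (c.h (s + g) / K * (c.a (s + g) ^ c.d * c.h (s + g) ^ 3 / K)) ≤ ENNReal.ofReal K * H.lam (Wt q') :=
      hm.trans (hp.trans (by gcongr))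
    rw [div_eq_mul_inv _ K, mul_comm _ K⁻¹, ENNReal.ofReal_mul (by positivity), ENNReal.ofReal_inv_of_pos hK0]
    calc (ENNReal.ofReal K)⁻¹ * ENNReal.ofReal (c.h (s + g) / K * (c.a (s + g) ^ c.d * c.h (s + g) ^ 3 / K))
        ≤ (ENNReal.ofReal K)⁻¹ * (ENNReal.ofReal K * H.lam (Wt q')) := by gcongr
      _ = H.lam (Wt q') := by
          rw [← mul_assoc, ENNReal.inv_mul_cancel (by simpa using hK0) ENNReal.ofReal_ne_top, one_mul]
  have hpack := k7b_packing H.lam S Wt (H.Sp ∩ k8cOn H s q) hmeas hdisj hsub hlow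
  have hup : H.lam (H.Sp ∩ k8cOn H s q) ≤ ENNReal.ofReal (K * (K * c.h s * (K * c.a s ^ c.d * c.h s ^ 3))) := by
    refine (k8c_u_on_le c H h hsG q).trans ?_
    rw [ENNReal.ofReal_mul hK0.le]
    gcongr
    unfold K7bHor.mQ
    rw [ENNReal.ofReal_mul (by positivity)]
    exact mul_le_mul' (ENNReal.ofReal_le_ofReal (h.bllen s hsG q hq).2) (h.νQ s hsG q hq).2
  have hfin := hpack.trans hup
  rw [← ENNReal.ofReal_natCast, ← ENNReal.ofReal_mul (Nat.cast_nonneg _), ENNReal.ofReal_le_ofReal_iff (by positivity)] at hfin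
  rw [Real.div_rpow ha.le ha'.le, div_pow]
  have e : (6 : ℕ) * K ^ 6 * (c.a s ^ c.d / c.a (s + g) ^ c.d) * (c.h s ^ 4 / c.h (s + g) ^ 4)
      = 6 * (K ^ 6 * c.a s ^ c.d * c.h s ^ 4) / (c.a (s + g) ^ c.d * c.h (s + g) ^ 4) := by
    push_cast
    field_simp
  rw [e, le_div_iff₀ (by positivity)]
  have e2 : (S.card : ℝ) * (c.h (s + g) / K * (c.a (s + g) ^ c.d * c.h (s + g) ^ 3 / K) / K)
      = (S.card : ℝ) * (c.a (s + g) ^ c.d * c.h (s + g) ^ 4) / K ^ 3 := by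
    field_simp
  rw [e2, div_le_iff₀ (by positivity)] at hfin
  have h6 : 0 ≤ K ^ 6 * c.a s ^ c.d * c.h s ^ 4 := by positivity
  calc (S.card : ℝ) * (c.a (s + g) ^ c.d * c.h (s + g) ^ 4) ≤ K * (K * c.h s * (K * c.a s ^ c.d * c.h s ^ 3)) * K ^ 3 := hfin
    _ = K ^ 6 * c.a s ^ c.d * c.h s ^ 4 := by ring
    _ ≤ 6 * (K ^ 6 * c.a s ^ c.d * c.h s ^ 4) := by linarith

/-- the bins `⌊x/ω⌋` of the points of an interval of radius `R` -/
theorem k8c_u_bins {ω : ℝ} (hω : 0 < ω) (c R : ℝ) (hR : 0 ≤ R) :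
    ((Finset.Icc ⌊(c - R) / ω⌋ ⌊(c + R) / ω⌋).card : ℝ) ≤ 2 * R / ω + 2 ∧
      ∀ x, |x - c| ≤ R → k7bBin ω x ∈ Finset.Icc ⌊(c - R) / ω⌋ ⌊(c + R) / ω⌋ := by
  constructor
  · have hle : ⌊(c - R) / ω⌋ ≤ ⌊(c + R) / ω⌋ := Int.floor_le_floor (div_le_div_of_nonneg_right (by linarith) hω.le)
    have h1 : (⌊(c + R) / ω⌋ : ℝ) ≤ (c + R) / ω := Int.floor_le _
    have h2 : (c - R) / ω < ⌊(c - R) / ω⌋ + 1 := Int.lt_floor_add_one _
    have h3 : (c + R) / ω - (c - R) / ω = 2 * R / ω := by ring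
    rw [Int.card_Icc]
    have e : (((⌊(c + R) / ω⌋ + 1 - ⌊(c - R) / ω⌋).toNat : ℕ) : ℝ) = ((⌊(c + R) / ω⌋ + 1 - ⌊(c - R) / ω⌋ : ℤ) : ℝ) := by
      have : (((⌊(c + R) / ω⌋ + 1 - ⌊(c - R) / ω⌋).toNat : ℕ) : ℤ) = ⌊(c + R) / ω⌋ + 1 - ⌊(c - R) / ω⌋ := Int.toNat_of_nonneg (by omega)
      exact_mod_cast this
    rw [e]
    push_cast
    linarith
  · intro x hx
    obtain ⟨h1, h2⟩ := abs_le.1 hx
    exact Finset.mem_Icc.2 ⟨Int.floor_le_floor (div_le_div_of_nonneg_right (by linarith) hω.le),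
      Int.floor_le_floor (div_le_div_of_nonneg_right (by linarith) hω.le)⟩

/-- a point is within `ω` of the left end of its bin -/
theorem k8c_u_bin_near {ω : ℝ} (hω : 0 < ω) (x : ℝ) : |x - (k7bBin ω x : ℝ) * ω| ≤ ω := by
  unfold k7bBin
  have h1 : (⌊x / ω⌋ : ℝ) ≤ x / ω := Int.floor_le _
  have h2 : x / ω < ⌊x / ω⌋ + 1 := Int.lt_floor_add_one _
  rw [le_div_iff₀ hω] at h1
  rw [div_lt_iff₀ hω] at h2
  rw [abs_le]
  constructor <;> nlinarith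

/-- the cells of mesh `ω` met by a tilted box -/
theorem k8c_u_tilt {ω : ℝ} (hω : 0 < ω) (c1 c2 c0 A1 A2 R1 R2 R3 : ℝ) (hR1 : 0 ≤ R1) (hR2 : 0 ≤ R2) (hR3 : 0 ≤ R3) (S : Finset (ℤ × ℤ × ℤ))
    (hS : ∀ y ∈ S, ∃ u : ℝ × ℝ × ℝ, |u.1 - c1| ≤ R1 ∧ |u.2.1 - c2| ≤ R2 ∧ |u.2.2 - (c0 + A1 * u.1 + A2 * u.2.1)| ≤ R3 ∧ k7bCell ω u = y) :
    (S.card : ℝ) ≤ (2 * R1 / ω + 2) * (2 * R2 / ω + 2) * (2 * (R3 + (|A1| + |A2|) * ω) / ω + 2) := by
  classical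
  have hR : 0 ≤ R3 + (|A1| + |A2|) * ω := by positivity
  set I1 := Finset.Icc ⌊(c1 - R1) / ω⌋ ⌊(c1 + R1) / ω⌋ with hI1
  set I2 := Finset.Icc ⌊(c2 - R2) / ω⌋ ⌊(c2 + R2) / ω⌋ with hI2
  set cc : ℤ × ℤ → ℝ := fun ij => c0 + A1 * ((ij.1 : ℝ) * ω) + A2 * ((ij.2 : ℝ) * ω) with hcc
  set I3 : ℤ × ℤ → Finset ℤ := fun ij => Finset.Icc ⌊(cc ij - (R3 + (|A1| + |A2|) * ω)) / ω⌋ ⌊(cc ij + (R3 + (|A1| + |A2|) * ω)) / ω⌋ with hI3
  set T : Finset (ℤ × ℤ × ℤ) := (I1 ×ˢ I2).biUnion fun ij => (I3 ij).image fun k => (ij.1, ij.2, k) with hT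
  have hsub : S ⊆ T := by
    intro y hy
    obtain ⟨u, h1, h2, h3, rfl⟩ := hS y hy
    refine Finset.mem_biUnion.2 ⟨(k7bBin ω u.1, k7bBin ω u.2.1), Finset.mem_product.2 ⟨(k8c_u_bins hω c1 R1 hR1).2 _ h1,
      (k8c_u_bins hω c2 R2 hR2).2 _ h2⟩, Finset.mem_image.2 ⟨k7bBin ω u.2.2, (k8c_u_bins hω _ _ hR).2 _ ?_, rfl⟩⟩
    have n1 := k8c_u_bin_near hω u.1
    have n2 := k8c_u_bin_near hω u.2.1
    have e : u.2.2 - cc (k7bBin ω u.1, k7bBin ω u.2.1) = (u.2.2 - (c0 + A1 * u.1 + A2 * u.2.1)) + A1 * (u.1 - (k7bBin ω u.1 : ℝ) * ω)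
        + A2 * (u.2.1 - (k7bBin ω u.2.1 : ℝ) * ω) := by
      simp only [hcc]
      ring
    rw [e]
    have m1 : |A1 * (u.1 - (k7bBin ω u.1 : ℝ) * ω)| ≤ |A1| * ω := by
      rw [abs_mul]
      exact mul_le_mul_of_nonneg_left n1 (abs_nonneg _)
    have m2 : |A2 * (u.2.1 - (k7bBin ω u.2.1 : ℝ) * ω)| ≤ |A2| * ω := by
      rw [abs_mul]
      exact mul_le_mul_of_nonneg_left n2 (abs_nonneg _)
    calc _ ≤ |u.2.2 - (c0 + A1 * u.1 + A2 * u.2.1)| + |A1 * (u.1 - (k7bBin ω u.1 : ℝ) * ω)| + |A2 * (u.2.1 - (k7bBin ω u.2.1 : ℝ) * ω)| :=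
          abs_add_three _ _ _
      _ ≤ R3 + (|A1| + |A2|) * ω := by linarith
  have hcT : (T.card : ℝ) ≤ ∑ _ij ∈ I1 ×ˢ I2, (2 * (R3 + (|A1| + |A2|) * ω) / ω + 2) := by
    have h1 : T.card ≤ ∑ ij ∈ I1 ×ˢ I2, ((I3 ij).image fun k => (ij.1, ij.2, k)).card := Finset.card_biUnion_le
    have h2 : (T.card : ℝ) ≤ ∑ ij ∈ I1 ×ˢ I2, (((I3 ij).image fun k => (ij.1, ij.2, k)).card : ℝ) := by exact_mod_cast h1
    refine h2.trans (Finset.sum_le_sum fun ij _ => ?_)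
    have h3 : (((I3 ij).image fun k => (ij.1, ij.2, k)).card : ℝ) ≤ ((I3 ij).card : ℝ) := by exact_mod_cast Finset.card_image_le
    exact h3.trans (k8c_u_bins hω _ _ hR).1
  have hS' : (S.card : ℝ) ≤ T.card := by exact_mod_cast Finset.card_le_card hsub
  rw [Finset.sum_const, nsmul_eq_mul, Finset.card_product] at hcT
  push_cast at hcT
  have b1 := (k8c_u_bins hω c1 R1 hR1).1
  have b2 := (k8c_u_bins hω c2 R2 hR2).1
  have p3 : 0 ≤ 2 * (R3 + (|A1| + |A2|) * ω) / ω + 2 := by positivity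
  have p2 : 0 ≤ 2 * R2 / ω + 2 := by positivity
  calc (S.card : ℝ) ≤ (I1.card : ℝ) * I2.card * (2 * (R3 + (|A1| + |A2|) * ω) / ω + 2) := hS'.trans hcT
    _ ≤ (2 * R1 / ω + 2) * (2 * R2 / ω + 2) * (2 * (R3 + (|A1| + |A2|) * ω) / ω + 2) := by gcongr

/-- `ω ≤ (h'/h)²` -/
theorem k8c_u_omega {c : K7bPar} {s g η m ω δ : ℝ} (hR : K8cRel c s g η m ω δ) : ω ≤ (c.h (s + g) / c.h s) ^ 2 := by
  obtain ⟨ha, ha', hh, hh', hha, hha', haa, ha1, hhh, hh1⟩ := k8c_u_scales hR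
  have e : (c.h (s + g) / c.h s) ^ 2 = c.a (s + g) / c.a s := by rw [div_pow, hha, hha']
  have h1 : c.a (s + g) ≤ c.a (s + g) / c.a s := by
    rw [le_div_iff₀ ha]
    exact mul_le_of_le_one_right ha'.le ha1
  have ha'1 : c.a (s + g) ≤ 1 := haa.trans ha1
  have h2 : c.a (s + g) ^ 2 ≤ c.a (s + g) := by
    rw [sq]
    exact mul_le_of_le_one_left ha'.le ha'1
  have h3 : δ * c.a (s + g) ^ 2 ≤ c.a (s + g) ^ 2 := mul_le_of_le_one_left (by positivity) hR.δ1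
  rw [e]
  linarith [hR.r_ω]

theorem k8c_desc_cells : ∃ C : ℕ, ∀ (c : K7bPar) (H : K7bHor) (K s g η m ω δ : ℝ) (E : Set (H.Lam × ℝ)) (q q' : H.Q) (S : Finset (ℤ × ℤ × ℤ)),
    K8cRel c s g η m ω δ → 1 ≤ K → (C : ℝ) * K ^ C * δ ≤ 1 → H.Ok c K → E ⊆ H.Sp →
    (∀ y ∈ S, ∃ z ∈ E, H.lab s z = q ∧ H.lab (s + g) z = q' ∧ k7bCell ω (k8cHat H q (H.base z)) = y) →
    (S.card : ℝ) ≤ (C : ℝ) * K ^ C * (c.h (s + g) / c.h s) ^ 4 / ω ^ 3 := by
  refine ⟨192, fun c H K s g η m ω δ E q q' S hR hK _ h hE hS => ?_⟩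
  obtain ⟨ha, ha', hh, hh', hha, hha', haa, ha1, hhh, hh1⟩ := k8c_u_scales hR
  have hK0 : 0 < K := by linarith
  have hω := hR.ω0
  rcases S.eq_empty_or_nonempty with rfl | ⟨y0, hy0⟩
  · simp only [Finset.card_empty, Nat.cast_zero]
    positivity
  have hsG := hR.sG
  have hsgG := hR.sgG
  -- the boxes
  have hbox : ∀ z ∈ E, H.lab s z = q → H.lab (s + g) z = q' → q ∈ H.Qat s ∧ q' ∈ H.Qat (s + g) ∧
      H.base z ∈ k7bBox (H.ct q) (H.cZ q) (H.cY q) (c.h s) K ∧ H.base z ∈ k7bBox (H.ct q') (H.cZ q') (H.cY q') (c.h (s + g)) K := by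
    intro z hz h1 h2
    obtain ⟨a1, a2, a3⟩ := h.labmem s hsG z (hE hz)
    obtain ⟨b1, b2, b3⟩ := h.labmem (s + g) hsgG z (hE hz)
    rw [h1] at a1 a2 a3
    rw [h2] at b1 b2 b3
    exact ⟨a1, b1, h.box s hsG q a1 z.1 a3 z.2 a2, h.box (s + g) hsgG q' b1 z.1 b3 z.2 b2⟩
  obtain ⟨z0, hz0, hz1, hz2, -⟩ := hS y0 hy0
  obtain ⟨hq, hq', ⟨p1, p2, -⟩, ⟨p1', p2', -⟩⟩ := hbox z0 hz0 hz1 hz2
  obtain ⟨hbl1, hbl2⟩ := h.bllen s hsG q hq
  set Hq := H.bl q with hHq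
  have hHq0 : 0 < Hq := lt_of_lt_of_le (by positivity) hbl1
  set ρ := c.h (s + g) / c.h s with hρ
  have hρ0 : 0 < ρ := by positivity
  have hρ1 : ρ ≤ 1 := (div_le_one hh).2 hhh
  have hinv : 1 / Hq ≤ K / c.h s := by
    rw [div_le_div_iff₀ hHq0 hh]
    rw [div_le_iff₀ hK0] at hbl1
    linarith
  have hωρ : ω ≤ ρ ^ 2 := k8c_u_omega hR
  have hωρ1 : ω ≤ ρ := hωρ.trans (by rw [sq]; exact mul_le_of_le_one_left hρ0.le hρ1)
  -- radii
  have hR1 : K * c.h (s + g) / Hq ≤ K ^ 2 * ρ := by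
    calc K * c.h (s + g) / Hq = K * c.h (s + g) * (1 / Hq) := by ring
      _ ≤ K * c.h (s + g) * (K / c.h s) := by gcongr
      _ = K ^ 2 * ρ := by rw [hρ]; ring
  have hR3 : K * c.h (s + g) ^ 2 / Hq ^ 2 ≤ K ^ 3 * ρ ^ 2 := by
    calc K * c.h (s + g) ^ 2 / Hq ^ 2 = K * c.h (s + g) ^ 2 * (1 / Hq) ^ 2 := by ring
      _ ≤ K * c.h (s + g) ^ 2 * (K / c.h s) ^ 2 := by gcongr
      _ = K ^ 3 * ρ ^ 2 := by rw [hρ]; ring
  have hA : ∀ x y w : ℝ, |w - x| ≤ K * c.h s → |w - y| ≤ K * c.h (s + g) → |(x - y) / Hq| ≤ 2 * K ^ 2 := by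
    intro x y w h1 h2
    have h3 : |x - y| ≤ 2 * K * c.h s := by
      have e : x - y = (w - y) - (w - x) := by ring
      rw [e]
      refine (abs_sub _ _).trans ?_
      have : K * c.h (s + g) ≤ K * c.h s := by gcongr
      linarith
    rw [abs_div, abs_of_pos hHq0]
    calc |x - y| / Hq = |x - y| * (1 / Hq) := by ring
      _ ≤ 2 * K * c.h s * (K / c.h s) := by gcongr
      _ = 2 * K ^ 2 := by field_simp
  have hA1 : |(H.cZ q - H.cZ q') / Hq| ≤ 2 * K ^ 2 := hA _ _ _ p2 p2'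
  have hA2 : |(H.ct q' - H.ct q) / Hq| ≤ 2 * K ^ 2 := by
    have := hA _ _ _ p1 p1'
    rwa [← abs_neg, ← neg_div, neg_sub] at this
  have hcount := k8c_u_tilt hω ((H.ct q' - H.ct q) / Hq) ((H.cZ q' - H.cZ q) / Hq)
    (((H.cY q' - H.cY q) + (H.cZ q - H.cZ q') * H.ct q + (H.ct q' - H.ct q) * H.cZ q) / Hq ^ 2) ((H.cZ q - H.cZ q') / Hq) ((H.ct q' - H.ct q) / Hq)
    (K * c.h (s + g) / Hq) (K * c.h (s + g) / Hq) (K * c.h (s + g) ^ 2 / Hq ^ 2) (by positivity) (by positivity) (by positivity) S (by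
      intro y hy
      obtain ⟨z, hz, h1, h2, h3⟩ := hS y hy
      obtain ⟨-, -, -, ⟨b1, b2, b3⟩⟩ := hbox z hz h1 h2
      refine ⟨k8cHat H q (H.base z), ?_, ?_, ?_, h3⟩
      · have e : (k8cHat H q (H.base z)).1 - (H.ct q' - H.ct q) / Hq = ((H.base z).1 - H.ct q') / Hq := by
          simp only [k8cHat]
          ring
        rw [e, abs_div, abs_of_pos hHq0]
        gcongr
      · have e : (k8cHat H q (H.base z)).2.1 - (H.cZ q' - H.cZ q) / Hq = ((H.base z).2.1 - H.cZ q') / Hq := by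
          simp only [k8cHat]
          ring
        rw [e, abs_div, abs_of_pos hHq0]
        gcongr
      · have e : (k8cHat H q (H.base z)).2.2 - (((H.cY q' - H.cY q) + (H.cZ q - H.cZ q') * H.ct q + (H.ct q' - H.ct q) * H.cZ q) / Hq ^ 2
            + (H.cZ q - H.cZ q') / Hq * (k8cHat H q (H.base z)).1 + (H.ct q' - H.ct q) / Hq * (k8cHat H q (H.base z)).2.1)
            = ((H.base z).2.2 - H.cY q' - (-H.cZ q' * ((H.base z).1 - H.ct q') + H.ct q' * ((H.base z).2.1 - H.cZ q'))) / Hq ^ 2 := by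
          simp only [k8cHat, ← hHq]
          field_simp
          ring
        rw [e, abs_div, abs_of_pos (by positivity : 0 < Hq ^ 2)]
        gcongr)
  have q1 : 1 ≤ ρ / ω := (one_le_div hω).2 hωρ1
  have q2 : 1 ≤ ρ ^ 2 / ω := (one_le_div hω).2 hωρ
  have hK2 : 1 ≤ K ^ 2 := one_le_pow₀ hK
  have hK3 : 1 ≤ K ^ 3 := one_le_pow₀ hK
  have hK23 : K ^ 2 ≤ K ^ 3 := pow_le_pow_right₀ hK (by norm_num)
  have b1 : 2 * (K * c.h (s + g) / Hq) / ω + 2 ≤ 4 * K ^ 2 * (ρ / ω) := by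
    have h1 : 2 * (K * c.h (s + g) / Hq) / ω ≤ 2 * (K ^ 2 * ρ) / ω := by gcongr
    have h2 : 2 * (K ^ 2 * ρ) / ω = 2 * K ^ 2 * (ρ / ω) := by ring
    have h3 : 1 ≤ K ^ 2 * (ρ / ω) := one_le_mul_of_one_le_of_one_le hK2 q1
    linarith
  have b3 : 2 * (K * c.h (s + g) ^ 2 / Hq ^ 2 + (|(H.cZ q - H.cZ q') / Hq| + |(H.ct q' - H.ct q) / Hq|) * ω) / ω + 2 ≤ 12 * K ^ 3 * (ρ ^ 2 / ω) := by
    have h1 : 2 * (K * c.h (s + g) ^ 2 / Hq ^ 2 + (|(H.cZ q - H.cZ q') / Hq| + |(H.ct q' - H.ct q) / Hq|) * ω) / ω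
        ≤ 2 * (K ^ 3 * ρ ^ 2 + (2 * K ^ 2 + 2 * K ^ 2) * ω) / ω := by gcongr
    have h2 : 2 * (K ^ 3 * ρ ^ 2 + (2 * K ^ 2 + 2 * K ^ 2) * ω) / ω = 2 * K ^ 3 * (ρ ^ 2 / ω) + 8 * K ^ 2 := by field_simp; ring
    have h3 : K ^ 3 ≤ K ^ 3 * (ρ ^ 2 / ω) := le_mul_of_one_le_right (by positivity) q2
    linarith
  have n1 : 0 ≤ 2 * (K * c.h (s + g) / Hq) / ω + 2 := by positivity
  have n3 : 0 ≤ 2 * (K * c.h (s + g) ^ 2 / Hq ^ 2 + (|(H.cZ q - H.cZ q') / Hq| + |(H.ct q' - H.ct q) / Hq|) * ω) / ω + 2 := by positivity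
  calc (S.card : ℝ) ≤ _ := hcount
    _ ≤ (4 * K ^ 2 * (ρ / ω)) * (4 * K ^ 2 * (ρ / ω)) * (12 * K ^ 3 * (ρ ^ 2 / ω)) := by gcongr
    _ = 192 * K ^ 7 * (ρ ^ 4 / ω ^ 3) := by ring
    _ ≤ ((192 : ℕ) : ℝ) * K ^ 192 * (ρ ^ 4 / ω ^ 3) := by
        have := k8c_pw_le hK (a := 192) (b := 7) (D := 192) (by norm_num) (by norm_num) (by norm_num)
        gcongr
    _ = ((192 : ℕ) : ℝ) * K ^ 192 * ρ ^ 4 / ω ^ 3 := by ring

/-- two points of one bin -/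
theorem k8c_u_bin_diff {ω : ℝ} (hω : 0 < ω) {x y : ℝ} (h : k7bBin ω x = k7bBin ω y) : |x - y| ≤ ω := by
  unfold k7bBin at h
  have h1 : (⌊x / ω⌋ : ℝ) ≤ x / ω := Int.floor_le _
  have h2 : x / ω < ⌊x / ω⌋ + 1 := Int.lt_floor_add_one _
  have h3 : (⌊y / ω⌋ : ℝ) ≤ y / ω := Int.floor_le _
  have h4 : y / ω < ⌊y / ω⌋ + 1 := Int.lt_floor_add_one _
  rw [h] at h1 h2
  have h5 : |x / ω - y / ω| ≤ 1 := by
    rw [abs_le]
    constructor <;> linarith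
  rw [← sub_div, abs_div, abs_of_pos hω, div_le_one hω] at h5
  exact h5

/-- variation of `L' - F` on a centred cell (pure algebra) -/
theorem k8c_u_var {K h ω Hq ct cZ α1 α2 γ f1 f2 f3 d1 d2 d3 : ℝ} (hK : 1 ≤ K) (hh0 : 0 < h) (hh1 : h ≤ 1) (hω : 0 ≤ ω) (hHq0 : 0 < Hq)
    (hHq : Hq ≤ K * h) (hct : |ct| ≤ 2 * K) (hcZ : |cZ| ≤ 3 * K) (hα1 : |α1| ≤ 6 * K ^ 2) (hα2 : |α2| ≤ 4 * K ^ 2) (hγ : |γ| ≤ 2 * K)
    (hf1 : |f1| ≤ K / h) (hf2 : |f2| ≤ K / h) (hf3 : |f3| ≤ K / h) (hd1 : |d1| ≤ ω) (hd2 : |d2| ≤ ω) (hd3 : |d3| ≤ ω) :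
    |(α1 - f1) * (Hq * d1) + (α2 - f2) * (Hq * d2) + (γ - f3) * (Hq ^ 2 * d3 + (-cZ * (Hq * d1) + ct * (Hq * d2)))| ≤ 30 * K ^ 3 * ω := by
  have hK0 : 0 < K := by linarith
  have hK2 : K ^ 2 ≤ K ^ 3 := pow_le_pow_right₀ hK (by norm_num)
  have hKh : K * h ≤ K := mul_le_of_le_one_right hK0.le hh1
  have hK3 : 0 < K ^ 3 := by positivity
  have t1 : |Hq * d1| ≤ K * h * ω := by
    rw [abs_mul, abs_of_pos hHq0]
    exact mul_le_mul hHq hd1 (abs_nonneg _) (by positivity)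
  have t2 : |Hq * d2| ≤ K * h * ω := by
    rw [abs_mul, abs_of_pos hHq0]
    exact mul_le_mul hHq hd2 (abs_nonneg _) (by positivity)
  have t3 : |Hq ^ 2 * d3 + (-cZ * (Hq * d1) + ct * (Hq * d2))| ≤ 6 * K ^ 2 * h * ω := by
    have a1 : |Hq ^ 2 * d3| ≤ (K * h) ^ 2 * ω := by
      rw [abs_mul, abs_of_pos (by positivity : 0 < Hq ^ 2)]
      exact mul_le_mul (pow_le_pow_left₀ hHq0.le hHq 2) hd3 (abs_nonneg _) (by positivity)
    have a2 : |-cZ * (Hq * d1)| ≤ 3 * K * (K * h * ω) := by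
      rw [abs_mul, abs_neg]
      exact mul_le_mul hcZ t1 (abs_nonneg _) (by positivity)
    have a3 : |ct * (Hq * d2)| ≤ 2 * K * (K * h * ω) := by
      rw [abs_mul]
      exact mul_le_mul hct t2 (abs_nonneg _) (by positivity)
    have a4 : (K * h) ^ 2 * ω ≤ K ^ 2 * h * ω := by
      have : (K * h) ^ 2 = K ^ 2 * h * h := by ring
      rw [this]
      have : K ^ 2 * h * h ≤ K ^ 2 * h := mul_le_of_le_one_right (by positivity) hh1
      gcongr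
    calc _ ≤ |Hq ^ 2 * d3| + (|-cZ * (Hq * d1)| + |ct * (Hq * d2)|) := (abs_add_le _ _).trans (by gcongr; exact abs_add_le _ _)
      _ ≤ 6 * K ^ 2 * h * ω := by nlinarith
  have s1 : |α1 - f1| ≤ 6 * K ^ 2 + K / h := (abs_sub _ _).trans (by linarith)
  have s2 : |α2 - f2| ≤ 4 * K ^ 2 + K / h := (abs_sub _ _).trans (by linarith)
  have s3 : |γ - f3| ≤ 2 * K + K / h := (abs_sub _ _).trans (by linarith)
  have hKh0 : 0 ≤ K / h := by positivity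
  have u1 : |(α1 - f1) * (Hq * d1)| ≤ 7 * K ^ 3 * ω := by
    rw [abs_mul]
    calc |α1 - f1| * |Hq * d1| ≤ (6 * K ^ 2 + K / h) * (K * h * ω) := mul_le_mul s1 t1 (abs_nonneg _) (by positivity)
      _ = (6 * K ^ 3 * h + K ^ 2) * ω := by field_simp
      _ ≤ 7 * K ^ 3 * ω := by
          have : 6 * K ^ 3 * h ≤ 6 * K ^ 3 := mul_le_of_le_one_right (by positivity) hh1
          gcongr
          linarith
  have u2 : |(α2 - f2) * (Hq * d2)| ≤ 5 * K ^ 3 * ω := by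
    rw [abs_mul]
    calc |α2 - f2| * |Hq * d2| ≤ (4 * K ^ 2 + K / h) * (K * h * ω) := mul_le_mul s2 t2 (abs_nonneg _) (by positivity)
      _ = (4 * K ^ 3 * h + K ^ 2) * ω := by field_simp
      _ ≤ 5 * K ^ 3 * ω := by
          have : 4 * K ^ 3 * h ≤ 4 * K ^ 3 := mul_le_of_le_one_right (by positivity) hh1
          gcongr
          linarith
  have u3 : |(γ - f3) * (Hq ^ 2 * d3 + (-cZ * (Hq * d1) + ct * (Hq * d2)))| ≤ 18 * K ^ 3 * ω := by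
    rw [abs_mul]
    calc _ ≤ (2 * K + K / h) * (6 * K ^ 2 * h * ω) := mul_le_mul s3 t3 (abs_nonneg _) (by positivity)
      _ = (12 * K ^ 3 * h + 6 * K ^ 3) * ω := by field_simp; ring
      _ ≤ 18 * K ^ 3 * ω := by
          have : 12 * K ^ 3 * h ≤ 12 * K ^ 3 := mul_le_of_le_one_right (by positivity) hh1
          gcongr
          linarith
  calc _ ≤ |(α1 - f1) * (Hq * d1)| + |(α2 - f2) * (Hq * d2)| + |(γ - f3) * (Hq ^ 2 * d3 + (-cZ * (Hq * d1) + ct * (Hq * d2)))| := abs_add_three _ _ _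
    _ ≤ 30 * K ^ 3 * ω := by linarith

/-- the intercept is `(L' - F)(base)` up to `K a' + K² a h` -/
theorem k8c_u_int (c : K7bPar) (H : K7bHor) {K s g η m ω δ : ℝ} (Fq : H.Q → ℝ × ℝ × ℝ × ℝ) {E : Set (H.Lam × ℝ)} {q : H.Q}
    (hR : K8cRel c s g η m ω δ) (hK : 1 ≤ K) (h : H.Ok c K) (hE : E ⊆ H.Sp) (hP : K8cPrim H c s K Fq E) {z : H.Lam × ℝ} (hz : z ∈ E)
    (l1 : H.lab s z = q) :
    |k8cInt H (Fq q) q z.1 - (k7bAff (H.entOf (s + g) z) (H.base z) - k7bAff (Fq q) (H.base z))| ≤ K * c.a (s + g) + K ^ 2 * (c.a s * c.h s) := by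
  have i1 := k8c_int_fit c H hR.wf hK h hR.sG Fq hE hP hz (h.labmem s hR.sG z (hE hz)).2.1
  have i2 := h.entfit (s + g) hR.sgG z (hE hz) z.2 (h.labmem (s + g) hR.sgG z (hE hz)).2.1
  rw [l1] at i1
  have e : k8cInt H (Fq q) q z.1 - (k7bAff (H.entOf (s + g) z) (H.base z) - k7bAff (Fq q) (H.base z))
      = (H.Xt z.1 z.2 - k7bAff (H.entOf (s + g) z) (H.bs z.1 z.2)) - (H.Xt z.1 z.2 - k7bAff (Fq q) (H.bs z.1 z.2) - k8cInt H (Fq q) q z.1) := by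
    unfold K7bHor.base
    ring
  rw [e]
  exact (abs_sub _ _).trans (by linarith)

theorem k8c_u_pair (c : K7bPar) (H : K7bHor) {K s g η m ω δ : ℝ} (Fq : H.Q → ℝ × ℝ × ℝ × ℝ) {E : Set (H.Lam × ℝ)} {q : H.Q}
    (hR : K8cRel c s g η m ω δ) (hK : 1 ≤ K) (h : H.Ok c K) (hE : E ⊆ H.Sp) (hSl : H.Slopes c K E) (hP : K8cPrim H c s K Fq E)
    {z1 z2 : H.Lam × ℝ} (hz1 : z1 ∈ E) (hz2 : z2 ∈ E) (l1 : H.lab s z1 = q) (l2 : H.lab s z2 = q)
    (hcell : k7bCell ω (k8cHat H q (H.base z1)) = k7bCell ω (k8cHat H q (H.base z2))) (hent : H.entOf (s + g) z1 = H.entOf (s + g) z2) :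
    |k8cInt H (Fq q) q z1.1 - k8cInt H (Fq q) q z2.1| ≤ 34 * K ^ 3 * c.a (s + g) := by
  obtain ⟨ha, ha', hh, hh', hha, hha', haa, ha1, hhh, hh1⟩ := k8c_u_scales hR
  have hK0 : 0 < K := by linarith
  have hω := hR.ω0
  have j1 := k8c_u_int c H Fq hR hK h hE hP hz1 l1
  have j2 := k8c_u_int c H Fq hR hK h hE hP hz2 l2
  rw [← hent] at j2
  obtain ⟨a1, a2, a3⟩ := h.labmem s hR.sG z1 (hE hz1)
  rw [l1] at a1 a2 a3
  obtain ⟨p1, p2, -⟩ := h.box s hR.sG q a1 z1.1 a3 z1.2 a2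
  obtain ⟨hbl1, hbl2⟩ := h.bllen s hR.sG q a1
  have hHq0 : 0 < H.bl q := lt_of_lt_of_le (by positivity) hbl1
  obtain ⟨ht0, ht1⟩ := h.time z1 (hE hz1)
  obtain ⟨bp, bv, -, -⟩ := h.bdd z1 (hE hz1)
  have hKh : K * c.h s ≤ K := mul_le_of_le_one_right hK0.le hh1
  have hZ : |H.Zt z1.1 z1.2| ≤ 2 * K := by
    unfold K7bHor.Zt
    have : |z1.2 * H.v z1.1| ≤ 1 * K := by
      rw [abs_mul]
      exact mul_le_mul (by rw [abs_of_nonneg ht0]; exact ht1) bv (abs_nonneg _) zero_le_one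
    exact (abs_add_le _ _).trans (by linarith)
  have hct : |H.ct q| ≤ 2 * K := by
    have e : H.ct q = z1.2 - (z1.2 - H.ct q) := by ring
    have p1' : |z1.2 - H.ct q| ≤ K * c.h s := p1
    rw [e]
    refine (abs_sub _ _).trans ?_
    rw [abs_of_nonneg ht0]
    linarith
  have hcZ : |H.cZ q| ≤ 3 * K := by
    have e : H.cZ q = H.Zt z1.1 z1.2 - (H.Zt z1.1 z1.2 - H.cZ q) := by ring
    have p2' : |H.Zt z1.1 z1.2 - H.cZ q| ≤ K * c.h s := p2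
    rw [e]
    exact (abs_sub _ _).trans (by linarith)
  obtain ⟨s1, s2, s3⟩ := hSl (s + g) hR.sgG z1 hz1
  have r1 : c.a (s + g) / c.h (s + g) ≤ 1 := by
    rw [← hha', sq, mul_div_assoc, div_self hh'.ne', mul_one]
    exact hhh.trans hh1
  have r2 : c.a (s + g) / c.h (s + g) ^ 2 = 1 := by rw [hha', div_self ha'.ne']
  rw [r2] at s3
  have s1' : |(H.entOf (s + g) z1).2.1 + (H.entOf (s + g) z1).2.2.2 * (-(H.Zt z1.1 z1.2))| ≤ 2 * K := s1.trans (by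
    have := mul_le_mul_of_nonneg_left r1 hK0.le
    linarith)
  have s2' : |(H.entOf (s + g) z1).2.2.1 + (H.entOf (s + g) z1).2.2.2 * z1.2| ≤ 2 * K := s2.trans (by
    have := mul_le_mul_of_nonneg_left r1 hK0.le
    linarith)
  have hγ : |(H.entOf (s + g) z1).2.2.2| ≤ 2 * K := s3.trans (by linarith)
  have hKK : K ≤ K ^ 2 := le_self_pow₀ hK (by norm_num)
  have hα1 : |(H.entOf (s + g) z1).2.1| ≤ 6 * K ^ 2 := by
    have e : (H.entOf (s + g) z1).2.1 = ((H.entOf (s + g) z1).2.1 + (H.entOf (s + g) z1).2.2.2 * (-(H.Zt z1.1 z1.2)))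
        + (H.entOf (s + g) z1).2.2.2 * H.Zt z1.1 z1.2 := by ring
    have m1 : |(H.entOf (s + g) z1).2.2.2 * H.Zt z1.1 z1.2| ≤ 2 * K * (2 * K) := by
      rw [abs_mul]
      exact mul_le_mul hγ hZ (abs_nonneg _) (by positivity)
    rw [e]
    refine (abs_add_le _ _).trans ?_
    have e4 : 2 * K * (2 * K) = 4 * K ^ 2 := by ring
    linarith
  have hα2 : |(H.entOf (s + g) z1).2.2.1| ≤ 4 * K ^ 2 := by
    have e : (H.entOf (s + g) z1).2.2.1 = ((H.entOf (s + g) z1).2.2.1 + (H.entOf (s + g) z1).2.2.2 * z1.2)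
        - (H.entOf (s + g) z1).2.2.2 * z1.2 := by ring
    have m1 : |(H.entOf (s + g) z1).2.2.2 * z1.2| ≤ 2 * K * 1 := by
      rw [abs_mul]
      exact mul_le_mul hγ (by rw [abs_of_nonneg ht0]; exact ht1) (abs_nonneg _) (by positivity)
    rw [e]
    refine (abs_sub _ _).trans ?_
    linarith
  obtain ⟨-, f1, f2, f3⟩ := hP z1 hz1
  rw [l1] at f1 f2 f3
  have hc1 : k7bBin ω (k8cHat H q (H.base z1)).1 = k7bBin ω (k8cHat H q (H.base z2)).1 := congrArg (fun y => y.1) hcell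
  have hc2 : k7bBin ω (k8cHat H q (H.base z1)).2.1 = k7bBin ω (k8cHat H q (H.base z2)).2.1 := congrArg (fun y => y.2.1) hcell
  have hc3 : k7bBin ω (k8cHat H q (H.base z1)).2.2 = k7bBin ω (k8cHat H q (H.base z2)).2.2 := congrArg (fun y => y.2.2) hcell
  have hvar := k8c_u_var (ct := H.ct q) (cZ := H.cZ q) hK hh hh1 hω.le hHq0 hbl2 hct hcZ hα1 hα2 hγ f1 f2 f3
    (k8c_u_bin_diff hω hc1) (k8c_u_bin_diff hω hc2) (k8c_u_bin_diff hω hc3)
  have e : (k7bAff (H.entOf (s + g) z1) (H.base z1) - k7bAff (Fq q) (H.base z1)) - (k7bAff (H.entOf (s + g) z1) (H.base z2) - k7bAff (Fq q) (H.base z2))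
      = ((H.entOf (s + g) z1).2.1 - (Fq q).2.1) * (H.bl q * ((k8cHat H q (H.base z1)).1 - (k8cHat H q (H.base z2)).1))
        + ((H.entOf (s + g) z1).2.2.1 - (Fq q).2.2.1) * (H.bl q * ((k8cHat H q (H.base z1)).2.1 - (k8cHat H q (H.base z2)).2.1))
        + ((H.entOf (s + g) z1).2.2.2 - (Fq q).2.2.2) * (H.bl q ^ 2 * ((k8cHat H q (H.base z1)).2.2 - (k8cHat H q (H.base z2)).2.2)
          + (-H.cZ q * (H.bl q * ((k8cHat H q (H.base z1)).1 - (k8cHat H q (H.base z2)).1))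
            + H.ct q * (H.bl q * ((k8cHat H q (H.base z1)).2.1 - (k8cHat H q (H.base z2)).2.1)))) := by
    simp only [k8cHat, k7bAff]
    field_simp
    ring
  rw [← e] at hvar
  have hah : c.a s * c.h s ≤ c.a (s + g) := hR.r_ah.trans (mul_le_of_le_one_left ha'.le hR.δ1)
  have hωa : ω ≤ c.a (s + g) := by
    have ha'1 : c.a (s + g) ≤ 1 := haa.trans ha1
    have h2 : c.a (s + g) ^ 2 ≤ c.a (s + g) := by
      rw [sq]
      exact mul_le_of_le_one_left ha'.le ha'1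
    have h3 : δ * c.a (s + g) ^ 2 ≤ c.a (s + g) ^ 2 := mul_le_of_le_one_left (by positivity) hR.δ1
    linarith [hR.r_ω]
  have hK23 : K ^ 2 ≤ K ^ 3 := pow_le_pow_right₀ hK (by norm_num)
  have hK13 : K ≤ K ^ 3 := hKK.trans hK23
  have g1 : K * c.a (s + g) ≤ K ^ 3 * c.a (s + g) := by gcongr
  have g2 : K ^ 2 * (c.a s * c.h s) ≤ K ^ 3 * c.a (s + g) := by gcongr
  have g3 : 30 * K ^ 3 * ω ≤ 30 * K ^ 3 * c.a (s + g) := by gcongr
  have e2 : k8cInt H (Fq q) q z1.1 - k8cInt H (Fq q) q z2.1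
      = (k8cInt H (Fq q) q z1.1 - (k7bAff (H.entOf (s + g) z1) (H.base z1) - k7bAff (Fq q) (H.base z1)))
        + ((k7bAff (H.entOf (s + g) z1) (H.base z1) - k7bAff (Fq q) (H.base z1)) - (k7bAff (H.entOf (s + g) z1) (H.base z2) - k7bAff (Fq q) (H.base z2)))
        - (k8cInt H (Fq q) q z2.1 - (k7bAff (H.entOf (s + g) z1) (H.base z2) - k7bAff (Fq q) (H.base z2))) := by ring
  rw [e2]
  refine (abs_sub _ _).trans ((add_le_add (abs_add_le _ _) le_rfl).trans ?_)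
  linarith

theorem k8c_desc_bins : ∃ C : ℕ, ∀ (c : K7bPar) (H : K7bHor) (K s g η m ω δ : ℝ) (Fq : H.Q → ℝ × ℝ × ℝ × ℝ) (E : Set (H.Lam × ℝ)) (q q' : H.Q)
    (β : ℤ × ℤ × ℤ) (S : Finset ℤ),
    K8cRel c s g η m ω δ → 1 ≤ K → (C : ℝ) * K ^ C * δ ≤ 1 → H.Ok c K → E ⊆ H.Sp → H.Slopes c K E → K8cPrim H c s K Fq E →
    (∀ y ∈ S, ∃ z ∈ E, H.lab s z = q ∧ H.lab (s + g) z = q' ∧ k7bCell ω (k8cHat H q (H.base z)) = β ∧ k8cC H s (c.a (s + g)) Fq z = y) →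
    (S.card : ℝ) ≤ (C : ℝ) * K ^ C := by
  classical
  refine ⟨70, fun c H K s g η m ω δ Fq E q q' β S hR hK _ h hE hSl hP hS => ?_⟩
  obtain ⟨ha, ha', hh, hh', hha, hha', haa, ha1, hhh, hh1⟩ := k8c_u_scales hR
  have hK0 : 0 < K := by linarith
  have hK3 : 1 ≤ K ^ 3 := one_le_pow₀ hK
  set SL : ℝ × ℝ × ℝ × ℝ → Finset ℤ := fun L => S.filter fun y => ∃ z ∈ E, H.lab s z = q ∧ k7bCell ω (k8cHat H q (H.base z)) = β ∧
    H.entOf (s + g) z = L ∧ k7bBin (c.a (s + g)) (k8cInt H (Fq q) q z.1) = y with hSL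
  have hcov : S ⊆ (H.ent q').biUnion SL := by
    intro y hy
    obtain ⟨z, hz, h1, h2, h3, h4⟩ := hS y hy
    refine Finset.mem_biUnion.2 ⟨H.entOf (s + g) z, ?_, Finset.mem_filter.2 ⟨hy, z, hz, h1, h3, rfl, ?_⟩⟩
    · rw [← h2]
      exact h.entmem (s + g) hR.sgG z (hE hz)
    · rw [← h4]
      unfold k8cC
      rw [h1]
  have hfib : ∀ L, ((SL L).card : ℝ) ≤ 70 * K ^ 3 := by
    intro L
    rcases (SL L).eq_empty_or_nonempty with he | ⟨y0, hy0⟩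
    · rw [he]
      simp only [Finset.card_empty, Nat.cast_zero]
      positivity
    obtain ⟨-, z0, hz0, a1, a2, a3, -⟩ := Finset.mem_filter.1 hy0
    have hb := k8c_u_bins ha' (k8cInt H (Fq q) q z0.1) (34 * K ^ 3 * c.a (s + g)) (by positivity)
    have hsub : SL L ⊆ Finset.Icc ⌊(k8cInt H (Fq q) q z0.1 - 34 * K ^ 3 * c.a (s + g)) / c.a (s + g)⌋
        ⌊(k8cInt H (Fq q) q z0.1 + 34 * K ^ 3 * c.a (s + g)) / c.a (s + g)⌋ := by
      intro y hy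
      obtain ⟨-, z, hz, b1, b2, b3, b4⟩ := Finset.mem_filter.1 hy
      rw [← b4]
      exact hb.2 _ (k8c_u_pair c H Fq hR hK h hE hSl hP hz hz0 b1 a1 (by rw [b2, a2]) (by rw [b3, a3]))
    have h1 : ((SL L).card : ℝ) ≤ ((Finset.Icc ⌊(k8cInt H (Fq q) q z0.1 - 34 * K ^ 3 * c.a (s + g)) / c.a (s + g)⌋
        ⌊(k8cInt H (Fq q) q z0.1 + 34 * K ^ 3 * c.a (s + g)) / c.a (s + g)⌋).card : ℝ) := by exact_mod_cast Finset.card_le_card hsub
    refine h1.trans (hb.1.trans ?_)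
    have e : 2 * (34 * K ^ 3 * c.a (s + g)) / c.a (s + g) = 68 * K ^ 3 := by field_simp; ring
    rw [e]
    linarith
  have h1 : (S.card : ℝ) ≤ ∑ L ∈ H.ent q', ((SL L).card : ℝ) := by
    have := (Finset.card_le_card hcov).trans Finset.card_biUnion_le
    exact_mod_cast this
  calc (S.card : ℝ) ≤ ∑ L ∈ H.ent q', ((SL L).card : ℝ) := h1
    _ ≤ ∑ _L ∈ H.ent q', 70 * K ^ 3 := Finset.sum_le_sum fun L _ => hfib L
    _ = ((H.ent q').card : ℝ) * (70 * K ^ 3) := by rw [Finset.sum_const, nsmul_eq_mul]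
    _ ≤ K * (70 * K ^ 3) := by
        have := h.entcard q'
        gcongr
    _ = 70 * K ^ 4 := by ring
    _ ≤ ((70 : ℕ) : ℝ) * K ^ 70 := k8c_pw_le hK (by norm_num) (by norm_num) (by norm_num)

theorem k8c_upper : ∃ C : ℕ, ∀ (c : K7bPar) (H : K7bHor) (K s g η m ω δ : ℝ) (Fq : H.Q → ℝ × ℝ × ℝ × ℝ) (E₀ E : Set (H.Lam × ℝ)),
    K8cRel c s g η m ω δ → 1 ≤ K → (C : ℝ) * K ^ C * δ ≤ 1 → H.Ok c K → E₀ ⊆ H.Sp → MeasurableSet E₀ → E ⊆ H.Sp → H.Pairs c K E₀ E →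
    H.Slopes c K E → K8cPrim H c s K Fq E →
    K8cUpper H s (c.a (s + g)) ω ((C : ℝ) * K ^ C * (c.a s / c.a (s + g)) ^ c.d / ω ^ 3) Fq E := by
  classical
  obtain ⟨C1, H1⟩ := k8c_desc_count
  obtain ⟨C2, H2⟩ := k8c_desc_cells
  obtain ⟨C3, H3⟩ := k8c_desc_bins
  refine ⟨C1 * C2 * C3 + C1 + C2 + C3, fun c H K s g η m ω δ Fq E₀ E hR hK hδ h hE₀ hmE₀ hE hPa hSl hP q S hS => ?_⟩
  obtain ⟨ha, ha', hh, hh', -, -, -, -, -, -⟩ := k8c_u_scales hR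
  have hω := hR.ω0
  have hδ0 := hR.δ0
  have hδ2 : (C2 : ℝ) * K ^ C2 * δ ≤ 1 := le_trans (by
    have := k8c_pw_mono hK (D := C2) (D' := C1 * C2 * C3 + C1 + C2 + C3) (by omega)
    gcongr) hδ
  have hδ3 : (C3 : ℝ) * K ^ C3 * δ ≤ 1 := le_trans (by
    have := k8c_pw_mono hK (D := C3) (D' := C1 * C2 * C3 + C1 + C2 + C3) (by omega)
    gcongr) hδ
  set Qs : Finset H.Q := Finset.univ.filter fun q' => ∃ z ∈ E, H.lab s z = q ∧ H.lab (s + g) z = q' with hQs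
  set Cl : H.Q → Finset (ℤ × ℤ × ℤ) := fun q' => (S.image Prod.fst).filter fun β => ∃ z ∈ E, H.lab s z = q ∧ H.lab (s + g) z = q' ∧
    k7bCell ω (k8cHat H q (H.base z)) = β with hCl
  set Bn : H.Q → ℤ × ℤ × ℤ → Finset ℤ := fun q' β => (S.image Prod.snd).filter fun y => ∃ z ∈ E, H.lab s z = q ∧ H.lab (s + g) z = q' ∧
    k7bCell ω (k8cHat H q (H.base z)) = β ∧ k8cC H s (c.a (s + g)) Fq z = y with hBn
  have c1 : (Qs.card : ℝ) ≤ (C1 : ℝ) * K ^ C1 * (c.a s / c.a (s + g)) ^ c.d * (c.h s / c.h (s + g)) ^ 4 :=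
    H1 c H K s g η m ω δ E₀ E q Qs hR hK h hE₀ hmE₀ hE hPa fun q' hq' => (Finset.mem_filter.1 hq').2
  have c2 : ∀ q', ((Cl q').card : ℝ) ≤ (C2 : ℝ) * K ^ C2 * (c.h (s + g) / c.h s) ^ 4 / ω ^ 3 := fun q' =>
    H2 c H K s g η m ω δ E q q' (Cl q') hR hK hδ2 h hE fun β hβ => (Finset.mem_filter.1 hβ).2
  have c3 : ∀ q' β, ((Bn q' β).card : ℝ) ≤ (C3 : ℝ) * K ^ C3 := fun q' β =>
    H3 c H K s g η m ω δ Fq E q q' β (Bn q' β) hR hK hδ3 h hE hSl hP fun y hy => (Finset.mem_filter.1 hy).2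
  have hcov : S ⊆ Qs.biUnion fun q' => (Cl q').biUnion fun β => (Bn q' β).image fun y => (β, y) := by
    intro y hy
    obtain ⟨z, hz, h1, h2⟩ := hS y hy
    have e1 : k7bCell ω (k8cHat H q (H.base z)) = y.1 := congrArg Prod.fst h2
    have e2 : k8cC H s (c.a (s + g)) Fq z = y.2 := congrArg Prod.snd h2
    refine Finset.mem_biUnion.2 ⟨H.lab (s + g) z, Finset.mem_filter.2 ⟨Finset.mem_univ _, z, hz, h1, rfl⟩, Finset.mem_biUnion.2 ⟨y.1,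
      Finset.mem_filter.2 ⟨Finset.mem_image_of_mem _ hy, z, hz, h1, rfl, e1⟩, Finset.mem_image.2 ⟨y.2,
        Finset.mem_filter.2 ⟨Finset.mem_image_of_mem _ hy, z, hz, h1, rfl, e1, e2⟩, rfl⟩⟩⟩
  have hcard : S.card ≤ ∑ q' ∈ Qs, ∑ β ∈ Cl q', (Bn q' β).card := by
    refine (Finset.card_le_card hcov).trans (Finset.card_biUnion_le.trans (Finset.sum_le_sum fun q' _ => ?_))
    exact Finset.card_biUnion_le.trans (Finset.sum_le_sum fun β _ => Finset.card_image_le)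
  have hcard' : (S.card : ℝ) ≤ ∑ q' ∈ Qs, ∑ β ∈ Cl q', ((Bn q' β).card : ℝ) := by exact_mod_cast hcard
  have hX : 0 ≤ (c.a s / c.a (s + g)) ^ c.d := by positivity
  have hK0 : 0 < K := by linarith
  calc (S.card : ℝ) ≤ ∑ q' ∈ Qs, ∑ β ∈ Cl q', ((Bn q' β).card : ℝ) := hcard'
    _ ≤ ∑ q' ∈ Qs, ∑ _β ∈ Cl q', (C3 : ℝ) * K ^ C3 := Finset.sum_le_sum fun q' _ => Finset.sum_le_sum fun β _ => c3 q' β
    _ = ∑ q' ∈ Qs, ((Cl q').card : ℝ) * ((C3 : ℝ) * K ^ C3) := by simp only [Finset.sum_const, nsmul_eq_mul]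
    _ ≤ ∑ _q' ∈ Qs, ((C2 : ℝ) * K ^ C2 * (c.h (s + g) / c.h s) ^ 4 / ω ^ 3) * ((C3 : ℝ) * K ^ C3) :=
        Finset.sum_le_sum fun q' _ => mul_le_mul_of_nonneg_right (c2 q') (by positivity)
    _ = (Qs.card : ℝ) * (((C2 : ℝ) * K ^ C2 * (c.h (s + g) / c.h s) ^ 4 / ω ^ 3) * ((C3 : ℝ) * K ^ C3)) := by
        rw [Finset.sum_const, nsmul_eq_mul]
    _ ≤ ((C1 : ℝ) * K ^ C1 * (c.a s / c.a (s + g)) ^ c.d * (c.h s / c.h (s + g)) ^ 4)
          * (((C2 : ℝ) * K ^ C2 * (c.h (s + g) / c.h s) ^ 4 / ω ^ 3) * ((C3 : ℝ) * K ^ C3)) :=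
        mul_le_mul_of_nonneg_right c1 (by positivity)
    _ = (((C1 * C2 * C3 : ℕ) : ℝ) * K ^ (C1 + C2 + C3)) * ((c.a s / c.a (s + g)) ^ c.d / ω ^ 3) := by
        push_cast
        rw [pow_add, pow_add]
        field_simp
    _ ≤ (((C1 * C2 * C3 + C1 + C2 + C3 : ℕ) : ℝ) * K ^ (C1 * C2 * C3 + C1 + C2 + C3)) * ((c.a s / c.a (s + g)) ^ c.d / ω ^ 3) := by
        have := k8c_pw_le hK (a := ((C1 * C2 * C3 : ℕ) : ℝ)) (b := C1 + C2 + C3) (D := C1 * C2 * C3 + C1 + C2 + C3) (Nat.cast_nonneg _)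
          (by exact_mod_cast (by omega : C1 * C2 * C3 ≤ C1 * C2 * C3 + C1 + C2 + C3)) (by omega)
        gcongr
    _ = _ := by ring

end Claimed.Agent.R252

end PkS8cH7Upper
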