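-- KEEP
import Claimed.Agent.R252.S8c.PkA
import Claimed.Agent.R252.S8c.PkC
import Claimed.Agent.R252.S7b.P4Main

/-! PACKED FILE (unit S8c = P8.2, architect helper54; CLOSED, FROZEN, 0 sorry): parts S8c.H8Apply, S8c.H9Aux.  Each part is wrapped in its own `section`. -/

section PkS8cH8Apply

/-!
# Row 252, S8c, leaves L-252-S8c-H8a (`k8c_density`), H8b (`k8c_hat_bdd`, `k8c_hat_lip`, `k8c_hat_flow`), H8 (`k8c_apply`)      CONTRACT: sorries.      08 l.205-300      (architect helper54)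
PAPER-FREE.   `a = c.a s = h²`, `h = c.h s`, `a' = c.a (s + g)`.   Centred time of the label `q` : `τ = (t - ct q)/bl q`.

`k8c_density`.  `Eq = E ∩ k8cOn H s q ⊆ asg q ×ˢ blk q` (`labmem`), `lam.restrict Eq ≤ K (ν.restrict (asg q)) ⊗ (volume.restrict (blk q))` (`dom`);  the time change maps `volume` to `bl q • volume`;  so
`μ̃ := (lam Eq)⁻¹ • map (k8cToC H q) (lam.restrict Eq) ≤ K0 • (k8cPr H q) ⊗ volume`, `K0 = K mQ q / lam Eq`.    `ρ₀ = μ̃.rnDeriv (..)` (`Measure.withDensity_rnDeriv_eq`, both sides σ-finite), `ρ₀ ≤ K0` a.e., `ρ₀ = 0` a.e. off `W = k8cBackC ⁻¹' Eq`;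
`ρ = (W ∩ {ρ₀ ≤ K0}).indicator ρ₀`  (`withDensity_congr_ae`).

`k8c_hat_*` : elementary (formulas in the docstrings).

`k8c_apply`.  `k8c_core_int` with `ν = k8cPr H q`, `ρ` of `k8c_density`, `Cl l = k7bBin a' (k8cInt H (Fq q) q l)`, `fc w = k7bCell ξ (H.base (k8cBackC H q w))`, `vb l = k7bBin χ (H.v l)`, `π b = pal (k7bIv χ b)`,
`base w = k8cHat H q (H.base (k8cBackC H q w))`, `bs y = k8cHat H q (y.1 ξ, y.2.1 ξ, y.2.2 ξ)`, `R = K³`, `ξ_core = 6 K³ ξ/a`, `ε_core = 2 K⁴ χ + 2 K³ N^(-e₀)/h`;  `ω + ξ_core + 2000 R⁶ (ξ_core + ε_core) ≤ 2 ω` (`r_ξ`, `r_χ`, `r_e`).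
`K0 = K²` (from `mQ q ≤ K lam Eq`), `K1 = 18`, `Kc = K` (`K8cCond.cond` at the state `(q, C, y)`; `k8cMu ν ρ A = lam (Eq ∩ k8cToC ⁻¹' A)/lam Eq`), `Kπ = 1` (`palle`, disjoint bins), `ν univ ≤ 1`,
`ηπ = K (κ + χ)^S` (`palcap`), `κ` so small that `2 K ηπ ≤ 1/6` and `K · 18 K² · 2κ ≤ 1/6`, `χ ≤ κ` (`C` depends on `S`).     `hbar` : `ρ (l, ·)` vanishes off an interval of length `1`.   Bounds `n, nv` : all labels are bounded on `Sp`.
`hU` : the cell of the representative is a neighbour of the cell of `k8cHat H q (base z)` (`ξ_core ≤ ω`) : `≤ 27 U` pairs (`K8cUpper`), take `⌈27 U⌉₊`.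
Conclusion: `1 ≤ 1/2 + M U' μ̃ {Cl = C0}`, `M = (18 K³)³ · 8 (2ω)³/κ³`.
-/

set_option autoImplicit false

namespace Claimed.Agent.R252

open MeasureTheory
open scoped ENNReal BigOperators

noncomputable section

/-- to centred time and back -/
def k8cToC (H : K7bHor) (q : H.Q) (z : H.Lam × ℝ) : H.Lam × ℝ := (z.1, (z.2 - H.ct q) / H.bl q)
def k8cBackC (H : K7bHor) (q : H.Q) (w : H.Lam × ℝ) : H.Lam × ℝ := (w.1, H.ct q + H.bl q * w.2)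

theorem k8c_h8_eqns_cite : True := by
  have := @k8cToC.eq_1
  have := @k8cBackC.eq_1
  trivial

theorem k8cd_time_map (ct b : ℝ) (hb : 0 < b) :
    Measure.map (fun t : ℝ => (t - ct) / b) volume = ENNReal.ofReal b • (volume : Measure ℝ) := by
  have h1 : (fun t : ℝ => (t - ct) / b) = (fun t => b⁻¹ * t) ∘ (fun t => t - ct) := by
    funext t; simp [div_eq_inv_mul]
  rw [h1, ← Measure.map_map (measurable_const_mul _) (measurable_sub_const _)]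
  rw [map_sub_right_eq_self, Real.map_volume_mul_left (inv_ne_zero hb.ne')]
  simp [abs_of_pos hb]

theorem k8cd_dens {X : Type*} [MeasurableSpace X] (m μ : Measure X) [SigmaFinite m] [IsFiniteMeasure μ] (K0 : ℝ≥0∞)
    (hle : μ ≤ K0 • m) {W : Set X} (hW : MeasurableSet W) (hWc : μ Wᶜ = 0) :
    ∃ ρ : X → ℝ≥0∞, Measurable ρ ∧ (∀ w, ρ w ≤ K0) ∧ (∀ w, ρ w ≠ 0 → w ∈ W) ∧ m.withDensity ρ = μ := by
  have hac : μ ≪ m := Measure.absolutelyContinuous_of_le_smul hle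
  have hwd : m.withDensity (μ.rnDeriv m) = μ := Measure.withDensity_rnDeriv_eq μ m hac
  have hmr : Measurable (μ.rnDeriv m) := Measure.measurable_rnDeriv μ m
  have hint : ∀ s, MeasurableSet s → ∫⁻ x in s, μ.rnDeriv m x ∂m = μ s := by
    intro s hs
    rw [← withDensity_apply _ hs, hwd]
  have h1 : μ.rnDeriv m ≤ᵐ[m] fun _ => K0 := by
    refine ae_le_of_forall_setLIntegral_le_of_sigmaFinite hmr ?_
    intro s hs _
    rw [hint s hs, setLIntegral_const]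
    simpa using hle s
  have h2 : ∀ᵐ x ∂m, x ∈ Wᶜ → μ.rnDeriv m x = 0 := by
    have h3 : ∫⁻ x in Wᶜ, μ.rnDeriv m x ∂m = 0 := by rw [hint _ hW.compl, hWc]
    rw [lintegral_eq_zero_iff hmr] at h3
    exact (ae_restrict_iff' hW.compl).1 h3
  have hS : MeasurableSet (W ∩ {x | μ.rnDeriv m x ≤ K0}) := hW.inter (measurableSet_le hmr measurable_const)
  refine ⟨(W ∩ {x | μ.rnDeriv m x ≤ K0}).indicator (μ.rnDeriv m), hmr.indicator hS, ?_, ?_, ?_⟩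
  · intro w
    by_cases hw : w ∈ W ∩ {x | μ.rnDeriv m x ≤ K0}
    · rw [Set.indicator_of_mem hw]; exact hw.2
    · rw [Set.indicator_of_notMem hw]; exact zero_le
  · intro w hw
    by_contra hcon
    exact hw (Set.indicator_of_notMem (fun h => hcon h.1) _)
  · rw [← hwd]
    refine withDensity_congr_ae ?_
    rw [hwd]
    filter_upwards [h1, h2] with x hx1 hx2
    by_cases hw : x ∈ W
    · rw [Set.indicator_of_mem (show x ∈ W ∩ {x | μ.rnDeriv m x ≤ K0} from ⟨hw, hx1⟩)]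
    · rw [Set.indicator_of_notMem (fun h => hw h.1), hx2 hw]

theorem k8cd_le {Lam : Type} [MeasurableSpace Lam] (ν : Measure Lam) [IsFiniteMeasure ν] (lam : Measure (Lam × ℝ)) (Kc : ℝ≥0∞)
    (dom : lam ≤ Kc • ν.prod k7bTime) {A : Set Lam} (hA0 : ν A ≠ 0) {Eq : Set (Lam × ℝ)}
    (hsub : ∀ z ∈ Eq, z.1 ∈ A) (ct b : ℝ) (hb : 0 < b) :
    (lam Eq)⁻¹ • Measure.map (fun z : Lam × ℝ => (z.1, (z.2 - ct) / b)) (lam.restrict Eq)
      ≤ (Kc * (ENNReal.ofReal b * ν A) / lam Eq) • (((ν A)⁻¹ • ν.restrict A).prod volume) := by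
  have hAt : ν A ≠ ⊤ := measure_ne_top ν A
  have hT : Measurable (fun z : Lam × ℝ => (z.1, (z.2 - ct) / b)) :=
    measurable_fst.prodMk ((measurable_snd.sub_const ct).div_const b)
  have h1 : lam.restrict Eq ≤ Kc • (ν.restrict A).prod volume := by
    refine Measure.le_iff.2 fun S hS => ?_
    rw [Measure.restrict_apply hS]
    calc lam (S ∩ Eq) ≤ (Kc • ν.prod k7bTime) (S ∩ Eq) := dom _
      _ = Kc * (ν.prod k7bTime) (S ∩ Eq) := by simp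
      _ ≤ Kc * (ν.prod volume) (S ∩ Eq) := by
          gcongr
          exact Measure.restrict_le_self
      _ ≤ Kc * (ν.prod volume) (S ∩ A ×ˢ Set.univ) := by
          gcongr
          intro z hz
          exact ⟨hsub z hz, Set.mem_univ _⟩
      _ = Kc * ((ν.restrict A).prod volume) S := by
          rw [← Measure.restrict_apply hS, ← Measure.prod_restrict, Measure.restrict_univ]
      _ = (Kc • (ν.restrict A).prod volume) S := by simp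
  have h2 : Measure.map (fun z : Lam × ℝ => (z.1, (z.2 - ct) / b)) ((ν.restrict A).prod volume)
      = ENNReal.ofReal b • (ν.restrict A).prod volume := by
    have h3 := Measure.map_prod_map (ν.restrict A) (volume : Measure ℝ) (f := id) (g := fun t : ℝ => (t - ct) / b)
      measurable_id ((measurable_id.sub_const ct).div_const b)
    rw [Measure.map_id, k8cd_time_map ct b hb, Measure.prod_smul_right] at h3
    rw [h3]
    rfl
  have h4 : (ν.restrict A).prod (volume : Measure ℝ) = ν A • (((ν A)⁻¹ • ν.restrict A).prod volume) := by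
    rw [Measure.prod_smul_left, smul_smul, ENNReal.mul_inv_cancel hA0 hAt, one_smul]
  calc (lam Eq)⁻¹ • Measure.map (fun z : Lam × ℝ => (z.1, (z.2 - ct) / b)) (lam.restrict Eq)
      ≤ (lam Eq)⁻¹ • Measure.map (fun z : Lam × ℝ => (z.1, (z.2 - ct) / b)) (Kc • (ν.restrict A).prod volume) := by
        gcongr
    _ = (Kc * (ENNReal.ofReal b * ν A) / lam Eq) • (((ν A)⁻¹ • ν.restrict A).prod volume) := by
        rw [Measure.map_smul, h2, h4, smul_smul, smul_smul, smul_smul]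
        congr 1
        rw [div_eq_mul_inv]
        ring

theorem k8c_density (c : K7bPar) (H : K7bHor) {K s : ℝ} (hc : c.WF) (hK : 1 ≤ K) (h : H.Ok c K) (hs : s ∈ c.G) {E : Set (H.Lam × ℝ)}
    (hE : E ⊆ H.Sp) (hm : MeasurableSet E) {q : H.Q} (hq : q ∈ H.Qat s) (hpos : H.lam (E ∩ k8cOn H s q) ≠ 0) :
    ∃ ρ : H.Lam × ℝ → ℝ≥0∞, Measurable ρ ∧ (∀ w, ρ w ≤ ENNReal.ofReal K * H.mQ q / H.lam (E ∩ k8cOn H s q)) ∧
      (∀ w, ρ w ≠ 0 → k8cBackC H q w ∈ E ∩ k8cOn H s q) ∧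
      k8cMu (k8cPr H q) ρ = (H.lam (E ∩ k8cOn H s q))⁻¹ • Measure.map (k8cToC H q) (H.lam.restrict (E ∩ k8cOn H s q)) := by
  have : IsFiniteMeasure H.ν := ⟨by rw [h.νprob]; exact ENNReal.one_lt_top⟩
  have : IsFiniteMeasure k7bTime := by
    unfold k7bTime
    exact ⟨by rw [Measure.restrict_apply_univ]; exact isCompact_Icc.measure_lt_top⟩
  have : IsFiniteMeasure H.lam := by
    refine ⟨lt_of_le_of_lt (h.dom _) ?_⟩
    rw [Measure.smul_apply, smul_eq_mul]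
    exact ENNReal.mul_lt_top ENNReal.ofReal_lt_top (measure_lt_top _ _)
  have hN : 0 < c.N := lt_of_lt_of_le one_pos hc.N1
  have hK0 : 0 < K := lt_of_lt_of_le one_pos hK
  have hh : 0 < c.h s := Real.rpow_pos_of_pos hN _
  have ha : 0 < c.a s := Real.rpow_pos_of_pos hN _
  have hb : 0 < H.bl q := lt_of_lt_of_le (div_pos hh hK0) (h.bllen s hs q hq).1
  have hA0 : H.ν (H.asg q) ≠ 0 := by
    have h1 := (h.νQ s hs q hq).1
    have h2 : 0 < ENNReal.ofReal (c.a s ^ c.d * c.h s ^ 3 / K) :=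
      ENNReal.ofReal_pos.2 (div_pos (mul_pos (Real.rpow_pos_of_pos ha _) (pow_pos hh 3)) hK0)
    exact (lt_of_lt_of_le h2 h1).ne'
  have hOn : MeasurableSet (k8cOn H s q) := h.mlab s hs q
  have hEq : MeasurableSet (E ∩ k8cOn H s q) := hm.inter hOn
  have hsub : ∀ z ∈ E ∩ k8cOn H s q, z.1 ∈ H.asg q := by
    intro z hz
    have h1 := (h.labmem s hs z (hE hz.1)).2.2
    have h2 : H.lab s z = q := hz.2
    rwa [h2] at h1
  have hle := k8cd_le H.ν H.lam (ENNReal.ofReal K) h.dom hA0 hsub (H.ct q) (H.bl q) hb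
  have hB : Measurable (k8cBackC H q) :=
    measurable_fst.prodMk ((measurable_snd.const_mul (H.bl q)).const_add (H.ct q))
  have hT : Measurable (k8cToC H q) :=
    measurable_fst.prodMk ((measurable_snd.sub_const (H.ct q)).div_const (H.bl q))
  have hW : MeasurableSet (k8cBackC H q ⁻¹' (E ∩ k8cOn H s q)) := hB hEq
  have hBT : ∀ z, k8cBackC H q (k8cToC H q z) = z := by
    intro z
    unfold k8cBackC k8cToC
    ext
    · rfl
    · simp only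
      field_simp
      ring
  have hWc : ((H.lam (E ∩ k8cOn H s q))⁻¹ • Measure.map (k8cToC H q) (H.lam.restrict (E ∩ k8cOn H s q)))
      (k8cBackC H q ⁻¹' (E ∩ k8cOn H s q))ᶜ = 0 := by
    rw [Measure.smul_apply, Measure.map_apply hT hW.compl, Measure.restrict_apply (hT hW.compl)]
    have h1 : k8cToC H q ⁻¹' (k8cBackC H q ⁻¹' (E ∩ k8cOn H s q))ᶜ ∩ (E ∩ k8cOn H s q) = ∅ := by
      ext z
      simp only [Set.mem_inter_iff, Set.mem_preimage, Set.mem_compl_iff, hBT, Set.mem_empty_iff_false, iff_false]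
      tauto
    rw [h1]
    simp
  have : IsFiniteMeasure ((H.lam (E ∩ k8cOn H s q))⁻¹ • Measure.map (k8cToC H q) (H.lam.restrict (E ∩ k8cOn H s q))) := by
    refine ⟨?_⟩
    rw [Measure.smul_apply, smul_eq_mul]
    exact ENNReal.mul_lt_top (ENNReal.inv_lt_top.2 (pos_iff_ne_zero.2 hpos)) (measure_lt_top _ _)
  have : IsFiniteMeasure (k8cPr H q) := by
    unfold k8cPr
    refine ⟨?_⟩
    rw [Measure.smul_apply, smul_eq_mul]
    exact ENNReal.mul_lt_top (ENNReal.inv_lt_top.2 (pos_iff_ne_zero.2 hA0)) (measure_lt_top _ _)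
  exact k8cd_dens ((k8cPr H q).prod volume)
    ((H.lam (E ∩ k8cOn H s q))⁻¹ • Measure.map (k8cToC H q) (H.lam.restrict (E ∩ k8cOn H s q)))
    (ENNReal.ofReal K * H.mQ q / H.lam (E ∩ k8cOn H s q)) hle hW hWc

theorem k8c_hat_geo (c : K7bPar) (H : K7bHor) {K s : ℝ} (hc : c.WF) (h : H.Ok c K) (hs : s ∈ c.G) {z : H.Lam × ℝ}
    (hz : z ∈ H.Sp) : 0 < c.h s ∧ c.h s / K ≤ H.bl (H.lab s z) ∧ H.bl (H.lab s z) ≤ K * c.h s ∧
      |z.2 - H.ct (H.lab s z)| ≤ K * c.h s ∧ |H.Zt z.1 z.2 - H.cZ (H.lab s z)| ≤ K * c.h s ∧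
      |H.Yt z.1 z.2 - H.cY (H.lab s z) - (-(H.cZ (H.lab s z)) * (z.2 - H.ct (H.lab s z))
        + H.ct (H.lab s z) * (H.Zt z.1 z.2 - H.cZ (H.lab s z)))| ≤ K * c.h s ^ 2 := by
  obtain ⟨hq, hb, ha⟩ := h.labmem s hs z hz
  have hbox := h.box s hs _ hq z.1 ha z.2 hb
  have hl := h.bllen s hs _ hq
  have hh : 0 < c.h s := by
    unfold K7bPar.h
    exact Real.rpow_pos_of_pos (by linarith [hc.N1]) _
  exact ⟨hh, hl.1, hl.2, hbox.1, hbox.2.1, hbox.2.2⟩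

theorem k8c_hat_aux1 {K h bl x : ℝ} (hK : 1 ≤ K) (hh : 0 < h) (hbl : h / K ≤ bl) (hx : |x| ≤ K * h) :
    |x / bl| ≤ K ^ 2 := by
  have hK0 : 0 < K := by linarith
  have hbl0 : 0 < bl := lt_of_lt_of_le (by positivity) hbl
  have h1 : h ≤ bl * K := (div_le_iff₀ hK0).1 hbl
  rw [abs_div, abs_of_pos hbl0, div_le_iff₀ hbl0]
  calc |x| ≤ K * h := hx
    _ ≤ K * (bl * K) := by gcongr
    _ = K ^ 2 * bl := by ring

theorem k8c_hat_aux2 {K h bl x : ℝ} (hK : 1 ≤ K) (hh : 0 < h) (hbl : h / K ≤ bl) (hx : |x| ≤ K * h ^ 2) :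
    |x / bl ^ 2| ≤ K ^ 3 := by
  have hK0 : 0 < K := by linarith
  have hbl0 : 0 < bl := lt_of_lt_of_le (by positivity) hbl
  have h1 : h ≤ bl * K := (div_le_iff₀ hK0).1 hbl
  rw [abs_div, abs_of_pos (by positivity : 0 < bl ^ 2), div_le_iff₀ (by positivity)]
  calc |x| ≤ K * h ^ 2 := hx
    _ ≤ K * (bl * K) ^ 2 := by gcongr
    _ = K ^ 3 * bl ^ 2 := by ring

/-- `|t - ct|, |Z - cZ| ≤ K h`, transverse `≤ K h²` (`box`, `labmem`), `bl ≥ h/K` -/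
theorem k8c_hat_bdd (c : K7bPar) (H : K7bHor) {K s : ℝ} (hc : c.WF) (hK : 1 ≤ K) (h : H.Ok c K) (hs : s ∈ c.G) {z : H.Lam × ℝ}
    (hz : z ∈ H.Sp) : ‖k8cHat H (H.lab s z) (H.base z)‖ ≤ K ^ 3 := by
  obtain ⟨hh, hl1, hl2, b1, b2, b3⟩ := k8c_hat_geo c H hc h hs hz
  have hK23 : K ^ 2 ≤ K ^ 3 := pow_le_pow_right₀ hK (by norm_num)
  simp only [k8cHat, K7bHor.base, K7bHor.bs, Prod.norm_def, Real.norm_eq_abs]
  refine max_le ?_ (max_le ?_ ?_)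
  · exact (k8c_hat_aux1 hK hh hl1 b1).trans hK23
  · exact (k8c_hat_aux1 hK hh hl1 b2).trans hK23
  · exact k8c_hat_aux2 hK hh hl1 b3

theorem k8c_hat_lip_aux {K h bl ct cZ r d1 d2 d3 : ℝ} (hK : 1 ≤ K) (hh : 0 < h) (hh1 : h ≤ 1) (hbl : h / K ≤ bl)
    (hct : |ct| ≤ 2 * K) (hcZ : |cZ| ≤ 3 * K) (h1 : |d1| ≤ r) (h2 : |d2| ≤ r) (h3 : |d3| ≤ r) :
    |d1 / bl| ≤ 6 * K ^ 3 * r / h ^ 2 ∧ |d2 / bl| ≤ 6 * K ^ 3 * r / h ^ 2 ∧
      |(d3 + cZ * d1 - ct * d2) / bl ^ 2| ≤ 6 * K ^ 3 * r / h ^ 2 := by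
  have hK0 : 0 < K := by linarith
  have hbl0 : 0 < bl := lt_of_lt_of_le (by positivity) hbl
  have hb : h ≤ bl * K := (div_le_iff₀ hK0).1 hbl
  have hr : 0 ≤ r := (abs_nonneg _).trans h1
  have key : ∀ d : ℝ, |d| ≤ r → |d / bl| ≤ 6 * K ^ 3 * r / h ^ 2 := by
    intro d hd
    rw [abs_div, abs_of_pos hbl0, div_le_div_iff₀ hbl0 (by positivity)]
    have e1 : h ^ 2 ≤ h := by nlinarith
    have e2 : K ≤ 6 * K ^ 3 := by
      have : 1 ≤ K ^ 2 := one_le_pow₀ hK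
      nlinarith
    calc |d| * h ^ 2 ≤ r * (bl * K) := mul_le_mul hd (e1.trans hb) (by positivity) hr
      _ = K * (r * bl) := by ring
      _ ≤ 6 * K ^ 3 * (r * bl) := mul_le_mul_of_nonneg_right e2 (by positivity)
      _ = 6 * K ^ 3 * r * bl := by ring
  refine ⟨key d1 h1, key d2 h2, ?_⟩
  rw [abs_div, abs_of_pos (by positivity : 0 < bl ^ 2), div_le_div_iff₀ (by positivity) (by positivity)]
  have e1 : |d3 + cZ * d1 - ct * d2| ≤ 6 * K * r := by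
    have a1 : |cZ * d1| ≤ 3 * K * r := by rw [abs_mul]; exact mul_le_mul hcZ h1 (abs_nonneg _) (by positivity)
    have a2 : |ct * d2| ≤ 2 * K * r := by rw [abs_mul]; exact mul_le_mul hct h2 (abs_nonneg _) (by positivity)
    have a3 : |d3 + cZ * d1 - ct * d2| ≤ |d3| + |cZ * d1| + |ct * d2| :=
      (abs_sub _ _).trans (by gcongr; exact abs_add_le _ _)
    have a4 : r ≤ K * r := by nlinarith
    linarith
  have e2 : h ^ 2 ≤ (bl * K) ^ 2 := by gcongr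
  calc |d3 + cZ * d1 - ct * d2| * h ^ 2 ≤ 6 * K * r * (bl * K) ^ 2 := mul_le_mul e1 e2 (by positivity) (by positivity)
    _ = 6 * K ^ 3 * r * bl ^ 2 := by ring

/-- `ΔŶ = (ΔY + cZ Δt - ct ΔZ)/bl²`, `|cZ| ≤ 3K`, `|ct| ≤ 2K` -/
theorem k8c_hat_lip (c : K7bPar) (H : K7bHor) {K s r : ℝ} (hc : c.WF) (hK : 1 ≤ K) (h : H.Ok c K) (hs : s ∈ c.G) (hk : c.k = 1 / 2)
    (hKh : K * c.h s ≤ 1) {z : H.Lam × ℝ} (hz : z ∈ H.Sp) (u u' : ℝ × ℝ × ℝ) (h1 : |u.1 - u'.1| ≤ r) (h2 : |u.2.1 - u'.2.1| ≤ r)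
    (h3 : |u.2.2 - u'.2.2| ≤ r) : dist (k8cHat H (H.lab s z) u) (k8cHat H (H.lab s z) u') ≤ 6 * K ^ 3 * r / c.a s := by
  obtain ⟨hh, hl1, hl2, b1, b2, b3⟩ := k8c_hat_geo c H hc h hs hz
  have ha : c.a s = c.h s ^ 2 := by
    unfold K7bPar.a K7bPar.h
    rw [hk, ← Real.rpow_natCast, ← Real.rpow_mul (by linarith [hc.N1])]
    congr 1
    push_cast
    ring
  have ht := h.time z hz
  obtain ⟨hp, hv, -, -⟩ := h.bdd z hz
  have hh1 : c.h s ≤ 1 := by nlinarith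
  have hct : |H.ct (H.lab s z)| ≤ 2 * K := by
    have a1 := abs_le.1 (b1.trans hKh)
    rw [abs_le]
    constructor <;> linarith [a1.1, a1.2, ht.1, ht.2]
  have hcZ : |H.cZ (H.lab s z)| ≤ 3 * K := by
    have a1 := abs_le.1 (b2.trans hKh)
    have a2 : |H.Zt z.1 z.2| ≤ 2 * K := by
      unfold K7bHor.Zt
      have : |z.2 * H.v z.1| ≤ 1 * K := by
        rw [abs_mul]
        exact mul_le_mul (abs_le.2 ⟨by linarith [ht.1], ht.2⟩) hv (abs_nonneg _) (by norm_num)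
      have := abs_add_le (H.p z.1) (z.2 * H.v z.1)
      linarith
    have a3 := abs_le.1 a2
    rw [abs_le]
    constructor <;> linarith [a1.1, a1.2, a3.1, a3.2]
  obtain ⟨g1, g2, g3⟩ := k8c_hat_lip_aux hK hh hh1 hl1 hct hcZ h1 h2 h3
  rw [ha]
  simp only [k8cHat, Prod.dist_eq, Real.dist_eq]
  refine max_le ?_ (max_le ?_ ?_)
  · have e : (u.1 - H.ct (H.lab s z)) / H.bl (H.lab s z) - (u'.1 - H.ct (H.lab s z)) / H.bl (H.lab s z)
        = (u.1 - u'.1) / H.bl (H.lab s z) := by ring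
    rw [e]; exact g1
  · have e : (u.2.1 - H.cZ (H.lab s z)) / H.bl (H.lab s z) - (u'.2.1 - H.cZ (H.lab s z)) / H.bl (H.lab s z)
        = (u.2.1 - u'.2.1) / H.bl (H.lab s z) := by ring
    rw [e]; exact g2
  · refine le_trans (le_of_eq ?_) g3
    congr 1
    ring

theorem k8c_hat_aux3 {K h bl x e : ℝ} (hK : 1 ≤ K) (hh : 0 < h) (hbl : h / K ≤ bl) (hx : |x| ≤ e) :
    |x / bl| ≤ K * e / h := by
  have hK0 : 0 < K := by linarith
  have hbl0 : 0 < bl := lt_of_lt_of_le (by positivity) hbl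
  have h1 : h ≤ bl * K := (div_le_iff₀ hK0).1 hbl
  have he : 0 ≤ e := (abs_nonneg _).trans hx
  rw [abs_div, abs_of_pos hbl0, div_le_div_iff₀ hbl0 hh]
  calc |x| * h ≤ e * (bl * K) := mul_le_mul hx h1 hh.le he
    _ = K * e * bl := by ring

/-- in centred coordinates a trajectory follows the model flow: errors `(v - vb)(τ' - τ)` and `(τ (v - vb) + (y1 + p)/bl)(τ' - τ)`, `|τ|, |τ'| ≤ K²` -/
theorem k8c_hat_flow (c : K7bPar) (H : K7bHor) {K s χ' vb t' : ℝ} (hc : c.WF) (hK : 1 ≤ K) (h : H.Ok c K) (hs : s ∈ c.G) {z : H.Lam × ℝ}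
    (hz : z ∈ H.Sp) (hz' : (z.1, t') ∈ H.Sp) (hq : H.lab s (z.1, t') = H.lab s z) (hv : |H.v z.1 - vb| ≤ χ') :
    dist (k8cHat H (H.lab s z) (H.bs z.1 t')) (k8cStep (k8cHat H (H.lab s z) (H.base z)) vb ((t' - H.ct (H.lab s z)) / H.bl (H.lab s z)))
      ≤ 2 * K ^ 4 * χ' + 2 * K ^ 3 * c.N ^ (-c.e0) / c.h s := by
  obtain ⟨hh, hl1, hl2, b1, b2, b3⟩ := k8c_hat_geo c H hc h hs hz
  obtain ⟨-, -, -, b1', -, -⟩ := k8c_hat_geo c H hc h hs hz'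
  rw [hq] at b1'
  simp only at b1'
  have he := h.heq z hz
  have hχ : 0 ≤ χ' := (abs_nonneg _).trans hv
  have hK0 : 0 < K := by linarith
  have hN : 0 < c.N ^ (-c.e0) := Real.rpow_pos_of_pos (by linarith [hc.N1]) _
  obtain ⟨e, hee⟩ : ∃ e, e = c.N ^ (-c.e0) := ⟨_, rfl⟩
  rw [← hee] at he hN ⊢
  have t1 := k8c_hat_aux1 hK hh hl1 b1
  have t2 := k8c_hat_aux1 hK hh hl1 b1'
  have t3 := k8c_hat_aux3 hK hh hl1 he
  obtain ⟨q, hqq⟩ : ∃ q, q = H.lab s z := ⟨_, rfl⟩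
  rw [← hqq] at t1 t2 t3 ⊢
  obtain ⟨hs', hhs⟩ : ∃ x, x = c.h s := ⟨_, rfl⟩
  rw [← hhs] at t3 hh ⊢
  have t4 : |(t' - H.ct q) / H.bl q - (z.2 - H.ct q) / H.bl q| ≤ 2 * K ^ 2 := by
    have := abs_sub ((t' - H.ct q) / H.bl q) ((z.2 - H.ct q) / H.bl q)
    linarith
  have hR0 : 0 ≤ 2 * K ^ 3 * e / hs' := by positivity
  simp only [k8cHat, k8cStep, K7bHor.base, K7bHor.bs, Prod.dist_eq, Real.dist_eq]
  refine max_le ?_ (max_le ?_ ?_)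
  · rw [sub_self, abs_zero]; positivity
  · have e1 : (H.Zt z.1 t' - H.cZ q) / H.bl q - ((H.Zt z.1 z.2 - H.cZ q) / H.bl q
        + vb * ((t' - H.ct q) / H.bl q - (z.2 - H.ct q) / H.bl q))
        = (H.v z.1 - vb) * ((t' - H.ct q) / H.bl q - (z.2 - H.ct q) / H.bl q) := by
      unfold K7bHor.Zt; ring
    rw [e1, abs_mul]
    have e2 : |H.v z.1 - vb| * |(t' - H.ct q) / H.bl q - (z.2 - H.ct q) / H.bl q| ≤ χ' * (2 * K ^ 2) :=
      mul_le_mul hv t4 (abs_nonneg _) hχ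
    have e3 : χ' * (2 * K ^ 2) ≤ 2 * K ^ 4 * χ' := by
      have : K ^ 2 ≤ K ^ 4 := pow_le_pow_right₀ hK (by norm_num)
      nlinarith
    linarith
  · have e1 : (H.Yt z.1 t' - H.cY q - (-H.cZ q * (t' - H.ct q) + H.ct q * (H.Zt z.1 t' - H.cZ q))) / H.bl q ^ 2
        - ((H.Yt z.1 z.2 - H.cY q - (-H.cZ q * (z.2 - H.ct q) + H.ct q * (H.Zt z.1 z.2 - H.cZ q))) / H.bl q ^ 2
          + (-((H.Zt z.1 z.2 - H.cZ q) / H.bl q) + (z.2 - H.ct q) / H.bl q * vb)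
            * ((t' - H.ct q) / H.bl q - (z.2 - H.ct q) / H.bl q))
        = ((t' - H.ct q) / H.bl q - (z.2 - H.ct q) / H.bl q)
          * ((H.y1 z.1 + H.p z.1) / H.bl q + (z.2 - H.ct q) / H.bl q * (H.v z.1 - vb)) := by
      unfold K7bHor.Zt K7bHor.Yt; ring
    rw [e1, abs_mul]
    have e2 : |(H.y1 z.1 + H.p z.1) / H.bl q + (z.2 - H.ct q) / H.bl q * (H.v z.1 - vb)| ≤ K * e / hs' + K ^ 2 * χ' := by
      refine (abs_add_le _ _).trans (add_le_add t3 ?_)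
      rw [abs_mul]
      exact mul_le_mul t1 hv (abs_nonneg _) (by positivity)
    have e3 := mul_le_mul t4 e2 (abs_nonneg _) (by positivity)
    have e4 : 2 * K ^ 2 * (K * e / hs' + K ^ 2 * χ') = 2 * K ^ 4 * χ' + 2 * K ^ 3 * e / hs' := by ring
    linarith

/-- use of the smallness hypothesis -/
theorem k8ca_use {C : ℕ} {K δ : ℝ} (hK : 1 ≤ K) (hδ : 0 ≤ δ) (h : (C : ℝ) * K ^ C * δ ≤ 1) {A : ℝ} {e : ℕ}
    (hA : A ≤ C) (he : e ≤ C) : A * K ^ e * δ ≤ 1 := by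
  have h1 : K ^ e ≤ K ^ C := pow_le_pow_right₀ hK he
  have h2 : 0 < K ^ e := pow_pos (lt_of_lt_of_le one_pos hK) e
  have h3 : A * K ^ e ≤ (C : ℝ) * K ^ C := mul_le_mul hA h1 h2.le (Nat.cast_nonneg C)
  exact (mul_le_mul_of_nonneg_right h3 hδ).trans h

/-- the choice of `κ` -/
theorem k8ca_kappa (S : ℝ) (hS : 0 < S) : ∃ p : ℕ, ∀ K : ℝ, 1 ≤ K → ∃ κ : ℝ, 0 < κ ∧ κ ≤ 1 / 2 ∧ K * K * (2 * κ) ^ S ≤ 1 / 12 ∧
    K * 18 * K ^ 2 * (2 * κ) ≤ 1 / 6 ∧ 1 / κ = 2 * 216 ^ p * K ^ (3 * p) := by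
  refine ⟨⌈1 / S⌉₊ + 1, fun K hK => ?_⟩
  set p : ℕ := ⌈1 / S⌉₊ + 1 with hp
  have hK0 : 0 < K := lt_of_lt_of_le one_pos hK
  have hB1 : (1 : ℝ) ≤ 216 * K ^ 3 := by
    have : (1 : ℝ) ≤ K ^ 3 := one_le_pow₀ hK
    linarith
  have hB0 : (0 : ℝ) < 216 * K ^ 3 := lt_of_lt_of_le one_pos hB1
  have hBp : (216 * K ^ 3) ≤ (216 * K ^ 3) ^ p := by
    calc (216 * K ^ 3) = (216 * K ^ 3) ^ 1 := (pow_one _).symm
      _ ≤ (216 * K ^ 3) ^ p := pow_le_pow_right₀ hB1 (by omega)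
  have hBp0 : (0 : ℝ) < (216 * K ^ 3) ^ p := pow_pos hB0 p
  have hpS : 1 ≤ (p : ℝ) * S := by
    have h1 : 1 / S ≤ (p : ℝ) := by
      rw [hp]; push_cast
      linarith [Nat.le_ceil (1 / S)]
    rw [div_le_iff₀ hS] at h1
    exact h1
  refine ⟨1 / (2 * (216 * K ^ 3) ^ p), by positivity, ?_, ?_, ?_, ?_⟩
  · rw [div_le_div_iff₀ (by positivity) (by norm_num)]
    nlinarith
  · have e1 : 2 * (1 / (2 * (216 * K ^ 3) ^ p)) = ((216 * K ^ 3) ^ p)⁻¹ := by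
      field_simp
    rw [e1, Real.inv_rpow hBp0.le, ← Real.rpow_natCast (216 * K ^ 3) p, ← Real.rpow_mul hB0.le]
    have h2 : (216 * K ^ 3) ≤ (216 * K ^ 3) ^ ((p : ℝ) * S) := by
      calc (216 * K ^ 3) = (216 * K ^ 3) ^ (1 : ℝ) := (Real.rpow_one _).symm
        _ ≤ (216 * K ^ 3) ^ ((p : ℝ) * S) := Real.rpow_le_rpow_of_exponent_le hB1 hpS
    have h3 : ((216 * K ^ 3) ^ ((p : ℝ) * S))⁻¹ ≤ (216 * K ^ 3)⁻¹ := inv_anti₀ hB0 h2
    calc K * K * ((216 * K ^ 3) ^ ((p : ℝ) * S))⁻¹ ≤ K * K * (216 * K ^ 3)⁻¹ := by gcongr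
      _ = 1 / (216 * K) := by field_simp
      _ ≤ 1 / 12 := by
          rw [div_le_div_iff₀ (by positivity) (by norm_num)]
          linarith
  · have e1 : 2 * (1 / (2 * (216 * K ^ 3) ^ p)) = ((216 * K ^ 3) ^ p)⁻¹ := by
      field_simp
    rw [e1]
    have h3 : ((216 * K ^ 3) ^ p)⁻¹ ≤ (216 * K ^ 3)⁻¹ := inv_anti₀ hB0 hBp
    calc K * 18 * K ^ 2 * ((216 * K ^ 3) ^ p)⁻¹ ≤ K * 18 * K ^ 2 * (216 * K ^ 3)⁻¹ := by gcongr
      _ = 1 / 12 := by field_simp; norm_num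
      _ ≤ 1 / 6 := by norm_num
  · rw [one_div_one_div, mul_pow, ← pow_mul, mul_assoc]

/-- the bins of a palette are disjoint -/
theorem k8ca_pal_sum (pal : Measure ℝ) {χ : ℝ} (hχ : 0 < χ) (F : Finset ℤ) (I : Set ℝ) (h : ∀ b ∈ F, k7bIv χ b ⊆ I) :
    ∑ b ∈ F, pal (k7bIv χ b) ≤ pal I := by
  rw [← measure_biUnion_finset]
  · exact measure_mono (Set.iUnion₂_subset h)
  · intro b _ b' _ hbb
    rw [Function.onFun, Set.disjoint_left]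
    intro t ht ht'
    unfold k7bIv at ht ht'
    apply hbb
    have h1 : (b : ℝ) < b' + 1 := by
      have := lt_of_le_of_lt ht.1 ht'.2
      exact lt_of_mul_lt_mul_right this hχ.le
    have h2 : (b' : ℝ) < b + 1 := by
      have := lt_of_le_of_lt ht'.1 ht.2
      exact lt_of_mul_lt_mul_right this hχ.le
    have h1' : b < b' + 1 := by exact_mod_cast h1
    have h2' : b' < b + 1 := by exact_mod_cast h2
    omega
  · intro b _
    exact measurableSet_Ico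

/-- bound of a bin -/
theorem k8ca_bin_abs {m x B : ℝ} (hm : 0 < m) (hx : |x| ≤ B) : |k7bBin m x| ≤ ((⌈B / m⌉₊ + 1 : ℕ) : ℤ) := by
  unfold k7bBin
  have h0 := abs_le.1 hx
  have h1 : x / m ≤ B / m := div_le_div_of_nonneg_right h0.2 hm.le
  have h2 : -(B / m) ≤ x / m := by
    rw [← neg_div]
    exact div_le_div_of_nonneg_right h0.1 hm.le
  have h3 := Nat.le_ceil (B / m)
  have h4 := Int.floor_le (x / m)
  have h5 := Int.lt_floor_add_one (x / m)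
  rw [abs_le]
  constructor
  · have : (-((⌈B / m⌉₊ + 1 : ℕ) : ℤ) : ℝ) < (⌊x / m⌋ : ℝ) := by
      push_cast
      linarith
    have h6 : -((⌈B / m⌉₊ + 1 : ℕ) : ℤ) < ⌊x / m⌋ := by exact_mod_cast this
    exact h6.le
  · have : (⌊x / m⌋ : ℝ) ≤ (((⌈B / m⌉₊ + 1 : ℕ) : ℤ) : ℝ) := by
      push_cast
      linarith
    exact_mod_cast this

/-- near points have neighbouring bins -/
theorem k8ca_bin_near {ω u u' : ℝ} (hω : 0 < ω) (h : |u - u'| ≤ ω) : |k7bBin ω u - k7bBin ω u'| ≤ 1 := by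
  unfold k7bBin
  have h0 := abs_le.1 h
  have h1 : u / ω - u' / ω ≤ 1 := by
    rw [← sub_div, div_le_one hω]; exact h0.2
  have h2 : -1 ≤ u / ω - u' / ω := by
    rw [← sub_div, le_div_iff₀ hω]; linarith
  have a1 := Int.floor_le (u / ω)
  have a2 := Int.lt_floor_add_one (u / ω)
  have b1 := Int.floor_le (u' / ω)
  have b2 := Int.lt_floor_add_one (u' / ω)
  rw [abs_le]
  constructor
  · have : ((⌊u' / ω⌋ : ℤ) : ℝ) < (⌊u / ω⌋ : ℝ) + 2 := by linarith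
    have h6 : ⌊u' / ω⌋ < ⌊u / ω⌋ + 2 := by exact_mod_cast this
    omega
  · have : ((⌊u / ω⌋ : ℤ) : ℝ) < (⌊u' / ω⌋ : ℝ) + 2 := by linarith
    have h6 : ⌊u / ω⌋ < ⌊u' / ω⌋ + 2 := by exact_mod_cast this
    omega

theorem k8ca_bin_meas {α : Type*} [MeasurableSpace α] (m : ℝ) {f : α → ℝ} (hf : Measurable f) : Measurable fun x => k7bBin m (f x) :=
  (hf.div_const m).floor

/-- counting neighbours -/
theorem k8ca_count {X : Type*} (P : X → Prop) (f g : X → ℤ × ℤ × ℤ) (Cl : X → ℤ) (U : ℝ)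
    (hfg : ∀ x, P x → |(f x).1 - (g x).1| ≤ 1 ∧ |(f x).2.1 - (g x).2.1| ≤ 1 ∧ |(f x).2.2 - (g x).2.2| ≤ 1)
    (hU : ∀ T : Finset ((ℤ × ℤ × ℤ) × ℤ), (∀ y ∈ T, ∃ x, P x ∧ (g x, Cl x) = y) → (T.card : ℝ) ≤ U)
    (S : Finset ((ℤ × ℤ × ℤ) × ℤ)) (hS : ∀ y ∈ S, ∃ x, P x ∧ (f x, Cl x) = y) : (S.card : ℝ) ≤ 27 * U := by
  classical
  let φ : {y // y ∈ S} → X := fun y => Classical.choose (hS y.1 y.2)
  have hφ : ∀ y : {y // y ∈ S}, P (φ y) ∧ (f (φ y), Cl (φ y)) = y.1 := fun y => Classical.choose_spec (hS y.1 y.2)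
  let T : Finset ((ℤ × ℤ × ℤ) × ℤ) := S.attach.image fun y => (g (φ y), Cl (φ y))
  let D : Finset (ℤ × ℤ × ℤ) := Finset.Icc (-1) 1 ×ˢ Finset.Icc (-1) 1 ×ˢ Finset.Icc (-1) 1
  have hD : D.card = 27 := by decide
  have hT : (T.card : ℝ) ≤ U := by
    refine hU T fun y hy => ?_
    obtain ⟨y0, _, rfl⟩ := Finset.mem_image.1 hy
    exact ⟨φ y0, (hφ y0).1, rfl⟩
  have hcard : S.attach.card ≤ (T ×ˢ D).card := by
    refine Finset.card_le_card_of_injOn (fun y => ((g (φ y), Cl (φ y)), ((f (φ y)).1 - (g (φ y)).1, (f (φ y)).2.1 - (g (φ y)).2.1, (f (φ y)).2.2 - (g (φ y)).2.2))) ?_ ?_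
    · intro y _
      obtain ⟨h1, h2, h3⟩ := hfg (φ y) (hφ y).1
      rw [abs_le] at h1 h2 h3
      simp only [Finset.coe_product, Set.mem_prod, Finset.mem_coe]
      refine ⟨Finset.mem_image.2 ⟨y, Finset.mem_attach _ _, rfl⟩, ?_⟩
      simp only [D, Finset.mem_product, Finset.mem_Icc]
      exact ⟨h1, h2, h3⟩
    · intro y _ y' _ hyy
      simp only [Prod.mk.injEq] at hyy
      obtain ⟨⟨e1, e2⟩, e3, e4, e5⟩ := hyy
      apply Subtype.ext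
      rw [← (hφ y).2, ← (hφ y').2]
      have f1 : (f (φ y)).1 = (f (φ y')).1 := by
        have := congrArg Prod.fst e1
        omega
      have f2 : (f (φ y)).2.1 = (f (φ y')).2.1 := by
        have := congrArg (fun p : ℤ × ℤ × ℤ => p.2.1) e1
        omega
      have f3 : (f (φ y)).2.2 = (f (φ y')).2.2 := by
        have := congrArg (fun p : ℤ × ℤ × ℤ => p.2.2) e1
        omega
      exact Prod.ext (Prod.ext f1 (Prod.ext f2 f3)) e2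
  rw [Finset.card_attach, Finset.card_product, hD] at hcard
  have : (S.card : ℝ) ≤ (T.card : ℝ) * 27 := by exact_mod_cast hcard
  linarith

theorem k8ca_abs8 (a b c d e f g h : ℝ) : |a + b - c - d - e - f - g - h| ≤ |a| + |b| + |c| + |d| + |e| + |f| + |g| + |h| := by
  rw [abs_le]
  constructor <;>
  linarith [le_abs_self a, neg_abs_le a, le_abs_self b, neg_abs_le b, le_abs_self c, neg_abs_le c, le_abs_self d, neg_abs_le d,
    le_abs_self e, neg_abs_le e, le_abs_self f, neg_abs_le f, le_abs_self g, neg_abs_le g, le_abs_self h, neg_abs_le h]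

theorem k8ca_bl_pos {c : K7bPar} {H : K7bHor} {K s : ℝ} (hc : c.WF) (hK : 1 ≤ K) (h : H.Ok c K) (hs : s ∈ c.G) {q : H.Q}
    (hq : q ∈ H.Qat s) : 0 < H.bl q := by
  have hN : 0 < c.N := lt_of_lt_of_le one_pos hc.N1
  have hK0 : 0 < K := lt_of_lt_of_le one_pos hK
  have hh : 0 < c.h s := Real.rpow_pos_of_pos hN _
  exact lt_of_lt_of_le (div_pos hh hK0) (h.bllen s hs q hq).1

theorem k8ca_nu_pos {c : K7bPar} {H : K7bHor} {K s : ℝ} (hc : c.WF) (hK : 1 ≤ K) (h : H.Ok c K) (hs : s ∈ c.G) {q : H.Q}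
    (hq : q ∈ H.Qat s) : H.ν (H.asg q) ≠ 0 := by
  have hN : 0 < c.N := lt_of_lt_of_le one_pos hc.N1
  have hK0 : 0 < K := lt_of_lt_of_le one_pos hK
  have hh : 0 < c.h s := Real.rpow_pos_of_pos hN _
  have ha : 0 < c.a s := Real.rpow_pos_of_pos hN _
  have h1 := (h.νQ s hs q hq).1
  have h2 : 0 < ENNReal.ofReal (c.a s ^ c.d * c.h s ^ 3 / K) :=
    ENNReal.ofReal_pos.2 (div_pos (mul_pos (Real.rpow_pos_of_pos ha _) (pow_pos hh 3)) hK0)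
  exact (lt_of_lt_of_le h2 h1).ne'

theorem k8ca_nu_fin {c : K7bPar} {H : K7bHor} {K : ℝ} (h : H.Ok c K) : IsFiniteMeasure H.ν :=
  ⟨by rw [h.νprob]; exact ENNReal.one_lt_top⟩

theorem k8ca_lam_fin {c : K7bPar} {H : K7bHor} {K : ℝ} (h : H.Ok c K) : IsFiniteMeasure H.lam := by
  have : IsFiniteMeasure H.ν := k8ca_nu_fin h
  have : IsFiniteMeasure k7bTime := by
    unfold k7bTime
    exact ⟨by rw [Measure.restrict_apply_univ]; exact isCompact_Icc.measure_lt_top⟩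
  refine ⟨lt_of_le_of_lt (h.dom _) ?_⟩
  rw [Measure.smul_apply, smul_eq_mul]
  exact ENNReal.mul_lt_top ENNReal.ofReal_lt_top (measure_lt_top _ _)

theorem k8ca_back_to (H : K7bHor) (q : H.Q) (hb : H.bl q ≠ 0) (z : H.Lam × ℝ) : k8cBackC H q (k8cToC H q z) = z := by
  unfold k8cBackC k8cToC
  ext
  · rfl
  · simp only
    field_simp
    ring

theorem k8ca_to_meas (H : K7bHor) (q : H.Q) : Measurable (k8cToC H q) :=
  measurable_fst.prodMk ((measurable_snd.sub_const (H.ct q)).div_const (H.bl q))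

theorem k8ca_back_meas (H : K7bHor) (q : H.Q) : Measurable (k8cBackC H q) :=
  measurable_fst.prodMk ((measurable_snd.const_mul (H.bl q)).const_add (H.ct q))

/-- the intercept is bounded on the admitted incidences -/
theorem k8ca_int_bdd {c : K7bPar} {H : K7bHor} {K : ℝ} (h : H.Ok c K) (F : ℝ × ℝ × ℝ × ℝ) (q : H.Q) :
    ∃ B : ℝ, ∀ z ∈ H.Sp, |k8cInt H F q z.1| ≤ B := by
  refine ⟨K + |k8cMid H q| * K + |F.1| + |F.2.1 * k8cMid H q| + |F.2.2.1| * K + |F.2.2.1 * k8cMid H q| * K + |F.2.2.2| * K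
    + |F.2.2.2 * k8cMid H q| * K, fun z hz => ?_⟩
  obtain ⟨b1, b2, b3, b4⟩ := h.bdd z hz
  obtain ⟨b5, b6⟩ := h.bddx z hz
  have e : k8cInt H F q z.1 = H.x0 z.1 + k8cMid H q * H.x1 z.1 - F.1 - F.2.1 * k8cMid H q - F.2.2.1 * H.p z.1
      - F.2.2.1 * k8cMid H q * H.v z.1 - F.2.2.2 * H.q0 z.1 - F.2.2.2 * k8cMid H q * H.y1 z.1 := by
    unfold k8cInt K7bHor.Xt k7bAff K7bHor.bs K7bHor.Zt K7bHor.Yt
    ring
  rw [e]
  refine (k8ca_abs8 _ _ _ _ _ _ _ _).trans ?_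
  rw [abs_mul (k8cMid H q), abs_mul F.2.2.1 (H.p z.1), abs_mul (F.2.2.1 * k8cMid H q), abs_mul F.2.2.2 (H.q0 z.1),
    abs_mul (F.2.2.2 * k8cMid H q)]
  gcongr

theorem k8ca_int_meas {c : K7bPar} {H : K7bHor} {K : ℝ} (h : H.Ok c K) (F : ℝ × ℝ × ℝ × ℝ) (q : H.Q) :
    Measurable (k8cInt H F q) := by
  have h1 := h.mp
  have h2 := h.mv
  have h3 := h.mq0
  have h4 := h.my1
  have h5 := h.mx0
  have h6 := h.mx1
  unfold k8cInt K7bHor.Xt k7bAff K7bHor.bs K7bHor.Zt K7bHor.Yt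
  fun_prop

theorem k8ca_base_meas {c : K7bPar} {H : K7bHor} {K : ℝ} (h : H.Ok c K) : Measurable H.base := by
  have h1 := h.mp
  have h2 := h.mv
  have h3 := h.mq0
  have h4 := h.my1
  unfold K7bHor.base K7bHor.bs K7bHor.Zt K7bHor.Yt
  fun_prop

theorem k8ca_base_bdd {c : K7bPar} {H : K7bHor} {K : ℝ} (hK : 1 ≤ K) (h : H.Ok c K) {z : H.Lam × ℝ} (hz : z ∈ H.Sp) :
    |(H.base z).1| ≤ 2 * K ∧ |(H.base z).2.1| ≤ 2 * K ∧ |(H.base z).2.2| ≤ 2 * K := by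
  obtain ⟨b1, b2, b3, b4⟩ := h.bdd z hz
  obtain ⟨t0, t1⟩ := h.time z hz
  have ht : |z.2| ≤ 1 := abs_le.2 ⟨by linarith, t1⟩
  have hK0 : 0 ≤ K := by linarith
  refine ⟨?_, ?_, ?_⟩
  · show |z.2| ≤ 2 * K
    linarith
  · show |H.p z.1 + z.2 * H.v z.1| ≤ 2 * K
    refine (abs_add_le _ _).trans ?_
    rw [abs_mul]
    nlinarith [abs_nonneg z.2, abs_nonneg (H.v z.1)]
  · show |H.q0 z.1 + z.2 * H.y1 z.1| ≤ 2 * K
    refine (abs_add_le _ _).trans ?_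
    rw [abs_mul]
    nlinarith [abs_nonneg z.2, abs_nonneg (H.y1 z.1)]

theorem k8ca_cell_meas {α : Type*} [MeasurableSpace α] (m : ℝ) {f : α → ℝ × ℝ × ℝ} (hf : Measurable f) :
    Measurable fun x => k7bCell m (f x) := by
  unfold k7bCell k7bBin
  exact ((hf.fst.div_const m).floor).prodMk (((hf.snd.fst.div_const m).floor).prodMk ((hf.snd.snd.div_const m).floor))

/-- the law of the selection in centred time -/
theorem k8ca_mu_apply (H : K7bHor) (q : H.Q) (Eq : Set (H.Lam × ℝ)) (ρ : H.Lam × ℝ → ℝ≥0∞)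
    (hρ : k8cMu (k8cPr H q) ρ = (H.lam Eq)⁻¹ • Measure.map (k8cToC H q) (H.lam.restrict Eq))
    {A : Set (H.Lam × ℝ)} (hA : MeasurableSet A) : k8cMu (k8cPr H q) ρ A = (H.lam Eq)⁻¹ * H.lam (k8cToC H q ⁻¹' A ∩ Eq) := by
  rw [hρ, Measure.smul_apply, Measure.map_apply (k8ca_to_meas H q) hA, Measure.restrict_apply (k8ca_to_meas H q hA), smul_eq_mul]

/-- the arithmetic at the end of `k8c_apply` -/
theorem k8ca_arith {K κ W ω U Sx : ℝ} {U' : ℕ} {L G : ℝ≥0∞} (hK : 1 ≤ K) (hκ0 : 0 < κ) (hκS : K * K * (2 * κ) ^ Sx ≤ 1 / 12)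
    (hκ3 : K * 18 * K ^ 2 * (2 * κ) ≤ 1 / 6) (hW0 : 0 ≤ W) (hW : W ≤ 2 * ω) (hU' : (U' : ℝ) ≤ 28 * U) (hL0 : L ≠ 0) (hLt : L ≠ ⊤)
    (hcore : 1 ≤ (3 * ((ENNReal.ofReal 18)⁻¹ * 1) + 2 * (ENNReal.ofReal K * ENNReal.ofReal (K * (2 * κ) ^ Sx))
        + ENNReal.ofReal K * (1 * (ENNReal.ofReal 18 * ENNReal.ofReal (K ^ 2) * ENNReal.ofReal (2 * κ))))
      + (ENNReal.ofReal K * (ENNReal.ofReal 18 * ENNReal.ofReal (K ^ 2))) ^ 3 * 1 ^ 3 * ENNReal.ofReal (8 * W ^ 3 / κ ^ 3) * U'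
        * (L⁻¹ * G)) :
    L ≤ ENNReal.ofReal (2 * ((K * (18 * K ^ 2)) ^ 3 * (8 * (2 * ω) ^ 3 / κ ^ 3) * (28 * U))) * G := by
  have hK0 : 0 < K := lt_of_lt_of_le one_pos hK
  have hp0 : 0 ≤ (2 * κ) ^ Sx := Real.rpow_nonneg (by positivity) _
  have t1 : 3 * ((ENNReal.ofReal 18)⁻¹ * 1) = ENNReal.ofReal (1 / 6) := by
    rw [mul_one, ← ENNReal.ofReal_inv_of_pos (by norm_num : (0 : ℝ) < 18), show (3 : ℝ≥0∞) = ENNReal.ofReal 3 by simp,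
      ← ENNReal.ofReal_mul (by norm_num)]
    congr 1
    norm_num
  have t2 : 2 * (ENNReal.ofReal K * ENNReal.ofReal (K * (2 * κ) ^ Sx)) = ENNReal.ofReal (2 * (K * (K * (2 * κ) ^ Sx))) := by
    rw [show (2 : ℝ≥0∞) = ENNReal.ofReal 2 by simp, ← ENNReal.ofReal_mul hK0.le, ← ENNReal.ofReal_mul (by norm_num)]
  have t3 : ENNReal.ofReal K * (1 * (ENNReal.ofReal 18 * ENNReal.ofReal (K ^ 2) * ENNReal.ofReal (2 * κ)))
      = ENNReal.ofReal (K * (18 * K ^ 2 * (2 * κ))) := by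
    rw [one_mul, ← ENNReal.ofReal_mul (by norm_num), ← ENNReal.ofReal_mul (by positivity), ← ENNReal.ofReal_mul hK0.le]
  have t4 : (ENNReal.ofReal K * (ENNReal.ofReal 18 * ENNReal.ofReal (K ^ 2))) ^ 3 * 1 ^ 3 * ENNReal.ofReal (8 * W ^ 3 / κ ^ 3) * U'
      = ENNReal.ofReal ((K * (18 * K ^ 2)) ^ 3 * (8 * W ^ 3 / κ ^ 3) * U') := by
    rw [one_pow, mul_one, ← ENNReal.ofReal_mul (by norm_num), ← ENNReal.ofReal_mul hK0.le, ← ENNReal.ofReal_pow (by positivity),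
      ← ENNReal.ofReal_mul (by positivity), ← ENNReal.ofReal_natCast, ← ENNReal.ofReal_mul (by positivity)]
  rw [t1, t2, t3, t4, ← ENNReal.ofReal_add (by norm_num) (by positivity), ← ENNReal.ofReal_add (by positivity) (by positivity)] at hcore
  have hU0 : 0 ≤ 28 * U := le_trans (Nat.cast_nonneg U') hU'
  have h1 : ENNReal.ofReal (1 / 6 + 2 * (K * (K * (2 * κ) ^ Sx)) + K * (18 * K ^ 2 * (2 * κ))) ≤ ENNReal.ofReal (1 / 2) := by
    refine ENNReal.ofReal_le_ofReal ?_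
    nlinarith
  have h2 : ENNReal.ofReal ((K * (18 * K ^ 2)) ^ 3 * (8 * W ^ 3 / κ ^ 3) * U')
      ≤ ENNReal.ofReal ((K * (18 * K ^ 2)) ^ 3 * (8 * (2 * ω) ^ 3 / κ ^ 3) * (28 * U)) := by
    refine ENNReal.ofReal_le_ofReal ?_
    have hω0 : 0 ≤ 2 * ω := hW0.trans hW
    gcongr
  set M1 : ℝ := (K * (18 * K ^ 2)) ^ 3 * (8 * (2 * ω) ^ 3 / κ ^ 3) * (28 * U) with hM1
  have h3 : ENNReal.ofReal (1 / 2) + ENNReal.ofReal (1 / 2) ≤ ENNReal.ofReal (1 / 2) + ENNReal.ofReal M1 * (L⁻¹ * G) := by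
    rw [← ENNReal.ofReal_add (by norm_num) (by norm_num)]
    calc ENNReal.ofReal (1 / 2 + 1 / 2) = 1 := by norm_num
      _ ≤ _ := hcore
      _ ≤ _ := by gcongr
  have h4 : ENNReal.ofReal (1 / 2) ≤ ENNReal.ofReal M1 * (L⁻¹ * G) := (ENNReal.add_le_add_iff_left ENNReal.ofReal_ne_top).1 h3
  calc L = ENNReal.ofReal 2 * ENNReal.ofReal (1 / 2) * L := by
        rw [← ENNReal.ofReal_mul (by norm_num)]
        norm_num
    _ ≤ ENNReal.ofReal 2 * (ENNReal.ofReal M1 * (L⁻¹ * G)) * L := by gcongr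
    _ = ENNReal.ofReal 2 * ENNReal.ofReal M1 * G * (L⁻¹ * L) := by ring
    _ = ENNReal.ofReal (2 * M1) * G := by
        rw [ENNReal.inv_mul_cancel hL0 hLt, mul_one, ← ENNReal.ofReal_mul (by norm_num)]

theorem k8ca_main (c : K7bPar) (H : K7bHor) (K U s g η m ω δ κ : ℝ) (Fq : H.Q → ℝ × ℝ × ℝ × ℝ)
    (E : Set (H.Lam × ℝ)) (q : H.Q) (hrel : K8cRel c s g η m ω δ) (hK : 1 ≤ K) (h : H.Ok c K) (hE : E ⊆ H.Sp) (hm : MeasurableSet E)
    (hcond : K8cCond H c (k8cSt H s (c.a (s + g)) c.ξ Fq) K E) (hU : K8cUpper H s (c.a (s + g)) ω U Fq E) (hq : q ∈ H.Qat s)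
    (hmass : H.mQ q ≤ ENNReal.ofReal K * H.lam (E ∩ k8cOn H s q)) (hKh : K * c.h s ≤ 1)
    (hκ0 : 0 < κ) (hκ1 : κ ≤ 1 / 2) (hχκ : c.χ ≤ κ) (hκS : K * K * (2 * κ) ^ c.S ≤ 1 / 12) (hκ3 : K * 18 * K ^ 2 * (2 * κ) ≤ 1 / 6)
    (hsm : 6 * K ^ 3 * c.ξ / c.a s + 2000 * (3 * K ^ 3) ^ 6 * (6 * K ^ 3 * c.ξ / c.a s
      + (2 * K ^ 4 * c.χ + 2 * K ^ 3 * c.N ^ (-c.e0) / c.h s)) ≤ ω) (hω1 : ω ≤ 1) :
    ∃ C0 : ℤ, H.lam (E ∩ k8cOn H s q) ≤ ENNReal.ofReal (2 * ((K * (18 * K ^ 2)) ^ 3 * (8 * (2 * ω) ^ 3 / κ ^ 3) * (28 * U))) *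
      H.lam (E ∩ k8cOn H s q ∩ {z | k8cC H s (c.a (s + g)) Fq z = C0}) := by
  have hc : c.WF := hrel.wf
  have hs : s ∈ c.G := hrel.sG
  have hN : 0 < c.N := lt_of_lt_of_le one_pos hc.N1
  have hK0 : 0 < K := lt_of_lt_of_le one_pos hK
  have hh : 0 < c.h s := Real.rpow_pos_of_pos hN _
  have ha : 0 < c.a s := Real.rpow_pos_of_pos hN _
  have ha' : 0 < c.a (s + g) := Real.rpow_pos_of_pos hN _
  have hb : 0 < H.bl q := k8ca_bl_pos hc hK h hs hq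
  have hA0 : H.ν (H.asg q) ≠ 0 := k8ca_nu_pos hc hK h hs hq
  have hνf : IsFiniteMeasure H.ν := k8ca_nu_fin h
  have hlf : IsFiniteMeasure H.lam := k8ca_lam_fin h
  have hω0 : 0 < ω := hrel.ω0
  have hξ0 : 0 < c.ξ := hc.ξ0
  have hχ0 : 0 < c.χ := hc.χ0
  have hK3 : 1 ≤ K ^ 3 := one_le_pow₀ hK
  have hmQ0 : H.mQ q ≠ 0 := by
    unfold K7bHor.mQ
    exact mul_ne_zero (ENNReal.ofReal_pos.2 hb).ne' hA0
  have hpos : H.lam (E ∩ k8cOn H s q) ≠ 0 := by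
    intro h0
    rw [h0, mul_zero] at hmass
    exact hmQ0 (le_antisymm hmass zero_le)
  have hfin : H.lam (E ∩ k8cOn H s q) ≠ ⊤ := measure_ne_top _ _
  obtain ⟨ρ, hρm, hρK, hρs, hρμ⟩ := k8c_density c H hc hK h hs hE hm hq hpos
  -- support facts
  have hsE : ∀ x, ρ x ≠ 0 → k8cBackC H q x ∈ E := fun x hx => (hρs x hx).1
  have hsS : ∀ x, ρ x ≠ 0 → k8cBackC H q x ∈ H.Sp := fun x hx => hE (hρs x hx).1
  have hsq : ∀ x, ρ x ≠ 0 → H.lab s (k8cBackC H q x) = q := fun x hx => (hρs x hx).2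
  have hBT := k8ca_back_to H q hb.ne'
  -- errors
  have hξc0 : 0 ≤ 6 * K ^ 3 * c.ξ / c.a s := by positivity
  have hεc0 : 0 ≤ 2 * K ^ 4 * c.χ + 2 * K ^ 3 * c.N ^ (-c.e0) / c.h s := by
    have : 0 < c.N ^ (-c.e0) := Real.rpow_pos_of_pos hN _
    positivity
  have hR1 : (1 : ℝ) ≤ 3 * K ^ 3 := by linarith
  have hR60 : (0 : ℝ) ≤ 2000 * (3 * K ^ 3) ^ 6 := by positivity
  have hsmall : 2000 * (3 * K ^ 3) ^ 6 * (6 * K ^ 3 * c.ξ / c.a s + (2 * K ^ 4 * c.χ + 2 * K ^ 3 * c.N ^ (-c.e0) / c.h s)) ≤ 1 := by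
    linarith
  have hξcω : 6 * K ^ 3 * c.ξ / c.a s ≤ ω := by
    have : 0 ≤ 2000 * (3 * K ^ 3) ^ 6 * (6 * K ^ 3 * c.ξ / c.a s + (2 * K ^ 4 * c.χ + 2 * K ^ 3 * c.N ^ (-c.e0) / c.h s)) :=
      mul_nonneg hR60 (add_nonneg hξc0 hεc0)
    linarith
  -- measurability
  have mCl : Measurable fun l : H.Lam => k7bBin (c.a (s + g)) (k8cInt H (Fq q) q l) := k8ca_bin_meas _ (k8ca_int_meas h (Fq q) q)
  have mfc : Measurable fun w : H.Lam × ℝ => k7bCell c.ξ (H.base (k8cBackC H q w)) :=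
    k8ca_cell_meas _ ((k8ca_base_meas h).comp (k8ca_back_meas H q))
  have mvb : Measurable fun l : H.Lam => k7bBin c.χ (H.v l) := k8ca_bin_meas _ h.mv
  -- bounds
  obtain ⟨B, hB⟩ := k8ca_int_bdd h (Fq q) q
  have hbdd : ∀ x, ρ x ≠ 0 → ‖k8cHat H q (H.base (k8cBackC H q x))‖ ≤ 3 * K ^ 3 ∧ |x.2| ≤ 3 * K ^ 3 := by
    intro x hx
    have h1 := k8c_hat_bdd c H hc hK h hs (hsS x hx)
    rw [hsq x hx] at h1
    have h2 : |x.2| ≤ ‖k8cHat H q (H.base (k8cBackC H q x))‖ := by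
      have e : x.2 = (k8cHat H q (H.base (k8cBackC H q x))).1 := by
        show x.2 = (H.ct q + H.bl q * x.2 - H.ct q) / H.bl q
        field_simp
        ring
      rw [e, ← Real.norm_eq_abs]
      exact norm_fst_le _
    constructor <;> linarith
  have hbd : ∀ x, ρ x ≠ 0 → |k7bBin (c.a (s + g)) (k8cInt H (Fq q) q x.1)| ≤ ((⌈B / c.a (s + g)⌉₊ + 1 + (⌈2 * K / c.ξ⌉₊ + 1) : ℕ) : ℤ) ∧
      |(k7bCell c.ξ (H.base (k8cBackC H q x))).1| ≤ ((⌈B / c.a (s + g)⌉₊ + 1 + (⌈2 * K / c.ξ⌉₊ + 1) : ℕ) : ℤ) ∧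
      |(k7bCell c.ξ (H.base (k8cBackC H q x))).2.1| ≤ ((⌈B / c.a (s + g)⌉₊ + 1 + (⌈2 * K / c.ξ⌉₊ + 1) : ℕ) : ℤ) ∧
      |(k7bCell c.ξ (H.base (k8cBackC H q x))).2.2| ≤ ((⌈B / c.a (s + g)⌉₊ + 1 + (⌈2 * K / c.ξ⌉₊ + 1) : ℕ) : ℤ) ∧
      |k7bBin c.χ (H.v x.1)| ≤ ((⌈K / c.χ⌉₊ + 1 : ℕ) : ℤ) := by
    intro x hx
    obtain ⟨c1, c2, c3⟩ := k8ca_base_bdd hK h (hsS x hx)
    have d0 := k8ca_bin_abs ha' (hB _ (hsS x hx))
    have d1 := k8ca_bin_abs hξ0 c1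
    have d2 := k8ca_bin_abs hξ0 c2
    have d3 := k8ca_bin_abs hξ0 c3
    have d4 := k8ca_bin_abs hχ0 (h.bdd _ (hsS x hx)).2.1
    have e1 : ((⌈B / c.a (s + g)⌉₊ + 1 : ℕ) : ℤ) ≤ ((⌈B / c.a (s + g)⌉₊ + 1 + (⌈2 * K / c.ξ⌉₊ + 1) : ℕ) : ℤ) := by
      push_cast; omega
    have e2 : ((⌈2 * K / c.ξ⌉₊ + 1 : ℕ) : ℤ) ≤ ((⌈B / c.a (s + g)⌉₊ + 1 + (⌈2 * K / c.ξ⌉₊ + 1) : ℕ) : ℤ) := by
      push_cast; omega
    exact ⟨d0.trans e1, d1.trans e2, d2.trans e2, d3.trans e2, d4⟩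
  have hvel : ((⌈K / c.χ⌉₊ + 1 : ℕ) : ℝ) * |c.χ| ≤ 3 * K ^ 3 := by
    rw [abs_of_pos hχ0]
    have h1 := Nat.ceil_lt_add_one (div_nonneg hK0.le hχ0.le)
    push_cast
    have h2 : (⌈K / c.χ⌉₊ : ℝ) * c.χ ≤ K + c.χ := by
      have : (⌈K / c.χ⌉₊ : ℝ) * c.χ ≤ (K / c.χ + 1) * c.χ := mul_le_mul_of_nonneg_right h1.le hχ0.le
      rw [add_mul, div_mul_cancel₀ _ hχ0.ne', one_mul] at this
      exact this
    have h3 := hc.χ1
    have h4 : K ≤ K ^ 3 := le_self_pow₀ hK (by norm_num)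
    nlinarith
  have hstate : ∀ x, ρ x ≠ 0 → dist (k8cHat H q (H.base (k8cBackC H q x)))
      (k8cHat H q (((k7bCell c.ξ (H.base (k8cBackC H q x))).1 : ℝ) * c.ξ, ((k7bCell c.ξ (H.base (k8cBackC H q x))).2.1 : ℝ) * c.ξ,
        ((k7bCell c.ξ (H.base (k8cBackC H q x))).2.2 : ℝ) * c.ξ)) ≤ 6 * K ^ 3 * c.ξ / c.a s := by
    intro x hx
    have h1 := k8c_hat_lip c H hc hK h hs hrel.khalf hKh (hsS x hx) (H.base (k8cBackC H q x))
      (((k7bCell c.ξ (H.base (k8cBackC H q x))).1 : ℝ) * c.ξ, ((k7bCell c.ξ (H.base (k8cBackC H q x))).2.1 : ℝ) * c.ξ,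
        ((k7bCell c.ξ (H.base (k8cBackC H q x))).2.2 : ℝ) * c.ξ) (k8c_bin_dist c.ξ hξ0 _) (k8c_bin_dist c.ξ hξ0 _) (k8c_bin_dist c.ξ hξ0 _)
    rwa [hsq x hx] at h1
  have hflow : ∀ l t τ, ρ (l, t) ≠ 0 → ρ (l, τ) ≠ 0 → dist (k8cHat H q (H.base (k8cBackC H q (l, τ))))
      (k8cStep (k8cHat H q (H.base (k8cBackC H q (l, t)))) ((k7bBin c.χ (H.v l) : ℝ) * c.χ) τ)
        ≤ 2 * K ^ 4 * c.χ + 2 * K ^ 3 * c.N ^ (-c.e0) / c.h s := by
    intro l t τ ht hτ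
    have h1 := k8c_hat_flow c H (χ' := c.χ) (vb := (k7bBin c.χ (H.v l) : ℝ) * c.χ) (t' := H.ct q + H.bl q * τ) hc hK h hs
      (z := k8cBackC H q (l, t)) (hsS _ ht) (hsS _ hτ) ((hsq _ hτ).trans (hsq _ ht).symm) (k8c_bin_dist c.χ hχ0 _)
    rw [hsq _ ht] at h1
    have e : (H.ct q + H.bl q * τ - H.ct q) / H.bl q = τ := by
      field_simp
      ring
    rw [e] at h1
    exact h1
  have hπ : ∑ b ∈ Finset.Icc (-((⌈K / c.χ⌉₊ + 1 : ℕ) : ℤ)) ((⌈K / c.χ⌉₊ + 1 : ℕ) : ℤ), H.pal (k7bIv c.χ b) ≤ 1 :=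
    (k8ca_pal_sum H.pal hχ0 _ Set.univ (fun _ _ => Set.subset_univ _)).trans h.palle
  have hint : ∀ b : ℤ, ∑ b' ∈ (Finset.Icc (-((⌈K / c.χ⌉₊ + 1 : ℕ) : ℤ)) ((⌈K / c.χ⌉₊ + 1 : ℕ) : ℤ)).filter
      (fun b' : ℤ => |(b' : ℝ) * c.χ - b * c.χ| < κ), H.pal (k7bIv c.χ b') ≤ ENNReal.ofReal (K * (2 * κ) ^ c.S) := by
    intro b
    refine (k8ca_pal_sum H.pal hχ0 _ (Set.Icc ((b : ℝ) * c.χ - (κ + c.χ)) ((b : ℝ) * c.χ + (κ + c.χ))) ?_).trans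
      ((h.palcap ((b : ℝ) * c.χ) (κ + c.χ) (by linarith) (by linarith)).trans (ENNReal.ofReal_le_ofReal ?_))
    · intro b' hb' t ht
      have h1 := abs_lt.1 (Finset.mem_filter.1 hb').2
      unfold k7bIv at ht
      have h2 := ht.1
      have h3 := ht.2
      rw [add_mul, one_mul] at h3
      exact ⟨by linarith [h1.1], by linarith [h1.2]⟩
    · have : (κ + c.χ) ^ c.S ≤ (2 * κ) ^ c.S := Real.rpow_le_rpow (by positivity) (by linarith) hc.S0.le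
      gcongr
  have hU1 : 1 ≤ U := by
    obtain ⟨z, hz⟩ := nonempty_of_measure_ne_zero hpos
    have := hU q {(k7bCell ω (k8cHat H q (H.base z)), k8cC H s (c.a (s + g)) Fq z)} (fun y hy => by
      rw [Finset.mem_singleton] at hy
      exact ⟨z, hz.1, hz.2, hy.symm⟩)
    simpa using this
  have hU' : ∀ S : Finset ((ℤ × ℤ × ℤ) × ℤ), (∀ y ∈ S, ∃ x, ρ x ≠ 0 ∧
      (k7bCell ω (k8cHat H q (((k7bCell c.ξ (H.base (k8cBackC H q x))).1 : ℝ) * c.ξ, ((k7bCell c.ξ (H.base (k8cBackC H q x))).2.1 : ℝ) * c.ξ,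
        ((k7bCell c.ξ (H.base (k8cBackC H q x))).2.2 : ℝ) * c.ξ)), k7bBin (c.a (s + g)) (k8cInt H (Fq q) q x.1)) = y) → S.card ≤ ⌈27 * U⌉₊ := by
    intro S hS
    have h1 := k8ca_count (fun x => ρ x ≠ 0)
      (fun x => k7bCell ω (k8cHat H q (((k7bCell c.ξ (H.base (k8cBackC H q x))).1 : ℝ) * c.ξ, ((k7bCell c.ξ (H.base (k8cBackC H q x))).2.1 : ℝ) * c.ξ,
        ((k7bCell c.ξ (H.base (k8cBackC H q x))).2.2 : ℝ) * c.ξ)))
      (fun x => k7bCell ω (k8cHat H q (H.base (k8cBackC H q x)))) (fun x => k7bBin (c.a (s + g)) (k8cInt H (Fq q) q x.1)) U ?_ ?_ S hS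
    · have h2 := h1.trans (Nat.le_ceil (27 * U))
      exact_mod_cast h2
    · intro x hx
      have h2 := (hstate x hx).trans hξcω
      rw [dist_comm, Prod.dist_eq, Prod.dist_eq, max_le_iff, max_le_iff, Real.dist_eq, Real.dist_eq, Real.dist_eq] at h2
      exact ⟨k8ca_bin_near hω0 h2.1, k8ca_bin_near hω0 h2.2.1, k8ca_bin_near hω0 h2.2.2⟩
    · intro T hT
      refine hU q T fun y hy => ?_
      obtain ⟨x, hx, rfl⟩ := hT y hy
      refine ⟨k8cBackC H q x, hsE x hx, hsq x hx, ?_⟩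
      unfold k8cC
      rw [hsq x hx]
      rfl
  have hU28 : ((⌈27 * U⌉₊ : ℕ) : ℝ) ≤ 28 * U := by
    have := Nat.ceil_lt_add_one (by linarith : (0 : ℝ) ≤ 27 * U)
    linarith
  have hνu : k8cPr H q Set.univ = 1 := by
    unfold k8cPr
    rw [Measure.smul_apply, Measure.restrict_apply_univ, smul_eq_mul, ENNReal.inv_mul_cancel hA0 (measure_ne_top _ _)]
  have hsf : SFinite (k8cPr H q) := by
    have : IsFiniteMeasure (k8cPr H q) := ⟨by rw [hνu]; exact ENNReal.one_lt_top⟩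
    infer_instance
  have hprob : k8cMu (k8cPr H q) ρ Set.univ = 1 := by
    rw [k8ca_mu_apply H q _ ρ hρμ MeasurableSet.univ, Set.preimage_univ, Set.univ_inter, ENNReal.inv_mul_cancel hpos hfin]
  have hK0' : ∀ x, ρ x ≤ ENNReal.ofReal (K ^ 2) := by
    intro x
    refine (hρK x).trans (ENNReal.div_le_of_le_mul ?_)
    rw [pow_two, ENNReal.ofReal_mul hK0.le, mul_assoc]
    gcongr
  have hbar : ∀ l, k8cBar ρ l ≠ ⊤ := by
    intro l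
    unfold k8cBar
    have h1 : ∫⁻ t, ρ (l, t) ≤ ∫⁻ t, (Set.Icc (-(3 * K ^ 3)) (3 * K ^ 3)).indicator (fun _ => ENNReal.ofReal (K ^ 2)) t := by
      refine lintegral_mono fun t => ?_
      by_cases h0 : ρ (l, t) = 0
      · rw [h0]; exact zero_le
      · have h2 := abs_le.1 (hbdd (l, t) h0).2
        rw [Set.indicator_of_mem (show t ∈ Set.Icc (-(3 * K ^ 3)) (3 * K ^ 3) from h2)]
        exact hK0' _
    rw [lintegral_indicator measurableSet_Icc, setLIntegral_const] at h1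
    refine ne_top_of_le_ne_top ?_ h1
    rw [Real.volume_Icc]
    exact ENNReal.mul_ne_top ENNReal.ofReal_ne_top ENNReal.ofReal_ne_top
  have hcnd : ∀ (C : ℤ) (y : ℤ × ℤ × ℤ) (b : ℤ),
      k8cMu (k8cPr H q) ρ {x | k7bBin (c.a (s + g)) (k8cInt H (Fq q) q x.1) = C ∧ k7bCell c.ξ (H.base (k8cBackC H q x)) = y ∧
        k7bBin c.χ (H.v x.1) = b} ≤ ENNReal.ofReal K * H.pal (k7bIv c.χ b) *
      k8cMu (k8cPr H q) ρ {x | k7bBin (c.a (s + g)) (k8cInt H (Fq q) q x.1) = C ∧ k7bCell c.ξ (H.base (k8cBackC H q x)) = y} := by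
    intro C y b
    have m1 : MeasurableSet {x : H.Lam × ℝ | k7bBin (c.a (s + g)) (k8cInt H (Fq q) q x.1) = C} :=
      (mCl.comp measurable_fst) (measurableSet_singleton C)
    have m2 : MeasurableSet {x : H.Lam × ℝ | k7bCell c.ξ (H.base (k8cBackC H q x)) = y} := mfc (measurableSet_singleton y)
    have m3 : MeasurableSet {x : H.Lam × ℝ | k7bBin c.χ (H.v x.1) = b} := (mvb.comp measurable_fst) (measurableSet_singleton b)
    have m123 : MeasurableSet {x : H.Lam × ℝ | k7bBin (c.a (s + g)) (k8cInt H (Fq q) q x.1) = C ∧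
        k7bCell c.ξ (H.base (k8cBackC H q x)) = y ∧ k7bBin c.χ (H.v x.1) = b} := m1.inter (m2.inter m3)
    have m12 : MeasurableSet {x : H.Lam × ℝ | k7bBin (c.a (s + g)) (k8cInt H (Fq q) q x.1) = C ∧
        k7bCell c.ξ (H.base (k8cBackC H q x)) = y} := m1.inter m2
    rw [k8ca_mu_apply H q _ ρ hρμ m123, k8ca_mu_apply H q _ ρ hρμ m12]
    have h1 := hcond.cond (q, C, y) b
    unfold ksMass at h1
    rw [Measure.restrict_apply' hm, Measure.restrict_apply' hm] at h1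
    have e1 : k8cToC H q ⁻¹' {x : H.Lam × ℝ | k7bBin (c.a (s + g)) (k8cInt H (Fq q) q x.1) = C ∧
        k7bCell c.ξ (H.base (k8cBackC H q x)) = y ∧ k7bBin c.χ (H.v x.1) = b} ∩ (E ∩ k8cOn H s q)
        = k8cSt H s (c.a (s + g)) c.ξ Fq ⁻¹' {(q, C, y)} ∩ H.vT c.χ b ∩ E := by
      ext z
      simp only [Set.mem_inter_iff, Set.mem_preimage, Set.mem_ofPred_eq, hBT, Set.mem_singleton_iff, k8cSt, Prod.mk.injEq, k8cOn,
        K7bHor.vT, k8cC]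
      constructor
      · rintro ⟨⟨a1, a2, a3⟩, a4, a5⟩
        rw [a5]
        exact ⟨⟨⟨rfl, a1, a2⟩, a3⟩, a4⟩
      · rintro ⟨⟨⟨a5, a1, a2⟩, a3⟩, a4⟩
        rw [a5] at a1
        exact ⟨⟨a1, a2, a3⟩, a4, a5⟩
    have e2 : k8cToC H q ⁻¹' {x : H.Lam × ℝ | k7bBin (c.a (s + g)) (k8cInt H (Fq q) q x.1) = C ∧
        k7bCell c.ξ (H.base (k8cBackC H q x)) = y} ∩ (E ∩ k8cOn H s q)
        = k8cSt H s (c.a (s + g)) c.ξ Fq ⁻¹' {(q, C, y)} ∩ E := by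
      ext z
      simp only [Set.mem_inter_iff, Set.mem_preimage, Set.mem_ofPred_eq, hBT, Set.mem_singleton_iff, k8cSt, Prod.mk.injEq, k8cOn, k8cC]
      constructor
      · rintro ⟨⟨a1, a2⟩, a4, a5⟩
        rw [a5]
        exact ⟨⟨rfl, a1, a2⟩, a4⟩
      · rintro ⟨⟨a5, a1, a2⟩, a4⟩
        rw [a5] at a1
        exact ⟨⟨a1, a2⟩, a4, a5⟩
    rw [e1, e2]
    calc (H.lam (E ∩ k8cOn H s q))⁻¹ * H.lam (k8cSt H s (c.a (s + g)) c.ξ Fq ⁻¹' {(q, C, y)} ∩ H.vT c.χ b ∩ E)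
        ≤ (H.lam (E ∩ k8cOn H s q))⁻¹ * (ENNReal.ofReal K * H.pal (k7bIv c.χ b) * H.lam (k8cSt H s (c.a (s + g)) c.ξ Fq ⁻¹' {(q, C, y)} ∩ E)) := by
          gcongr
      _ = _ := by ring
  obtain ⟨C0, hC0⟩ := k8c_core_int (k8cPr H q) ρ (fun l => k7bBin (c.a (s + g)) (k8cInt H (Fq q) q l))
    (fun w => k7bCell c.ξ (H.base (k8cBackC H q w))) (fun l => k7bBin c.χ (H.v l))
    (⌈B / c.a (s + g)⌉₊ + 1 + (⌈2 * K / c.ξ⌉₊ + 1)) (⌈K / c.χ⌉₊ + 1)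
    (fun C => mCl (measurableSet_singleton C)) (fun y => mfc (measurableSet_singleton y)) (fun b => mvb (measurableSet_singleton b))
    hbd hsf hρm hbar hprob (ENNReal.ofReal (K ^ 2)) (ENNReal.ofReal 18) (ENNReal.ofReal K) ENNReal.ofReal_ne_top hK0'
    (fun b => H.pal (k7bIv c.χ b)) c.χ hcnd (fun w => k8cHat H q (H.base (k8cBackC H q w)))
    (fun y => k8cHat H q ((y.1 : ℝ) * c.ξ, (y.2.1 : ℝ) * c.ξ, (y.2.2 : ℝ) * c.ξ)) (3 * K ^ 3) (6 * K ^ 3 * c.ξ / c.a s)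
    (2 * K ^ 4 * c.χ + 2 * K ^ 3 * c.N ^ (-c.e0) / c.h s) hR1 hξc0 hεc0 hsmall hbdd hvel hstate hflow κ hκ0 1
    (ENNReal.ofReal (K * (2 * κ) ^ c.S)) hπ hint ω hω0 ⌈27 * U⌉₊ hU'
  refine ⟨C0, ?_⟩
  have mC0 : MeasurableSet {x : H.Lam × ℝ | k7bBin (c.a (s + g)) (k8cInt H (Fq q) q x.1) = C0} :=
    (mCl.comp measurable_fst) (measurableSet_singleton C0)
  have e3 : k8cToC H q ⁻¹' {x : H.Lam × ℝ | k7bBin (c.a (s + g)) (k8cInt H (Fq q) q x.1) = C0} ∩ (E ∩ k8cOn H s q)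
      = E ∩ k8cOn H s q ∩ {z | k8cC H s (c.a (s + g)) Fq z = C0} := by
    ext z
    simp only [Set.mem_inter_iff, Set.mem_preimage, Set.mem_ofPred_eq, k8cOn, k8cC]
    constructor
    · rintro ⟨a1, a4, a5⟩
      rw [a5]
      exact ⟨⟨a4, rfl⟩, a1⟩
    · rintro ⟨⟨a4, a5⟩, a1⟩
      rw [a5] at a1
      exact ⟨a1, a4, a5⟩
  rw [hνu, k8ca_mu_apply H q _ ρ hρμ mC0, e3] at hC0
  refine k8ca_arith (W := ω + 6 * K ^ 3 * c.ξ / c.a s + 2000 * (3 * K ^ 3) ^ 6 * (6 * K ^ 3 * c.ξ / c.a s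
      + (2 * K ^ 4 * c.χ + 2 * K ^ 3 * c.N ^ (-c.e0) / c.h s))) hK hκ0 hκS hκ3 ?_ ?_ hU28 hpos hfin hC0
  · have : 0 ≤ 2000 * (3 * K ^ 3) ^ 6 * (6 * K ^ 3 * c.ξ / c.a s + (2 * K ^ 4 * c.χ + 2 * K ^ 3 * c.N ^ (-c.e0) / c.h s)) :=
      mul_nonneg hR60 (add_nonneg hξc0 hεc0)
    linarith
  · linarith

/-- the numerical consequences of `K8cRel` -/
theorem k8ca_small {c : K7bPar} {K s g η m ω δ : ℝ} (hrel : K8cRel c s g η m ω δ) (hK : 1 ≤ K) (hsm : 14580006 * K ^ 22 * δ ≤ 1) :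
    6 * K ^ 3 * c.ξ / c.a s + 2000 * (3 * K ^ 3) ^ 6 * (6 * K ^ 3 * c.ξ / c.a s
      + (2 * K ^ 4 * c.χ + 2 * K ^ 3 * c.N ^ (-c.e0) / c.h s)) ≤ ω ∧ ω ≤ 1 ∧ c.χ ≤ δ := by
  have hc : c.WF := hrel.wf
  have hN : 0 < c.N := lt_of_lt_of_le one_pos hc.N1
  have hK0 : 0 < K := lt_of_lt_of_le one_pos hK
  have hh : 0 < c.h s := Real.rpow_pos_of_pos hN _
  have ha : 0 < c.a s := Real.rpow_pos_of_pos hN _
  have ha' : 0 < c.a (s + g) := Real.rpow_pos_of_pos hN _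
  have hδ0 := hrel.δ0
  have hδ1 := hrel.δ1
  have hω0 := hrel.ω0
  have hm0 := hrel.m0
  have hη0 := hrel.η0
  have ha1 : c.a s ≤ 1 := Real.rpow_le_one_of_one_le_of_nonpos hc.N1 (by linarith [hrel.s0])
  have ha'1 : c.a (s + g) ≤ 1 := Real.rpow_le_one_of_one_le_of_nonpos hc.N1 (by linarith [hrel.s0, hrel.g0])
  have hh1 : c.h s ≤ 1 := Real.rpow_le_one_of_one_le_of_nonpos hc.N1 (by
    rw [hrel.khalf]; linarith [hrel.s0])
  have hah : c.a s = c.h s ^ 2 := by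
    unfold K7bPar.a K7bPar.h
    rw [← Real.rpow_natCast, ← Real.rpow_mul hN.le, hrel.khalf]
    congr 1
    push_cast
    ring
  have hω1 : ω ≤ 1 := by
    have h1 := hrel.r_ω
    have h2 : c.a (s + g) ^ 2 ≤ 1 := pow_le_one₀ ha'.le ha'1
    nlinarith
  have hm1 : m ≤ 1 := by
    have h1 := hrel.r_m
    have h2 := hrel.r_η
    have h3 : η ≤ 1 := by nlinarith
    nlinarith
  have ht0 : 0 < δ * ω := mul_pos hδ0 hω0
  have hX : c.ξ / c.a s ≤ δ * ω := by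
    rw [div_le_iff₀ ha]
    refine hrel.r_ξ.trans ?_
    have h1 : m * c.a s ≤ 1 := by nlinarith
    calc δ * (m * ω * c.a s ^ 2) = δ * ω * c.a s * (m * c.a s) := by ring
      _ ≤ δ * ω * c.a s * 1 := by gcongr
      _ = δ * ω * c.a s := by ring
  have ha2 : c.a s ^ 2 ≤ 1 := pow_le_one₀ ha.le ha1
  have hχ : c.χ ≤ δ * ω := by
    refine hrel.r_χ.trans ?_
    calc δ * (ω * c.a s ^ 2) = δ * ω * c.a s ^ 2 := by ring
      _ ≤ δ * ω * 1 := by gcongr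
      _ = δ * ω := by ring
  have hY : c.N ^ (-c.e0) / c.h s ≤ δ * ω := by
    rw [div_le_iff₀ hh]
    refine hrel.r_e.trans ?_
    have h3 : c.h s ^ 3 ≤ 1 := pow_le_one₀ hh.le hh1
    calc δ * (ω * c.a s ^ 2) = δ * ω * c.h s * c.h s ^ 3 := by rw [hah]; ring
      _ ≤ δ * ω * c.h s * 1 := by gcongr
      _ = δ * ω * c.h s := by ring
  refine ⟨?_, hω1, ?_⟩
  · have k34 : K ^ 3 ≤ K ^ 4 := pow_le_pow_right₀ hK (by norm_num)
    have k322 : K ^ 3 ≤ K ^ 22 := pow_le_pow_right₀ hK (by norm_num)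
    have A1 : 6 * K ^ 3 * c.ξ / c.a s ≤ 6 * K ^ 3 * (δ * ω) := by
      rw [mul_div_assoc]
      gcongr
    have A2 : 2 * K ^ 4 * c.χ ≤ 2 * K ^ 4 * (δ * ω) := by gcongr
    have A3 : 2 * K ^ 3 * c.N ^ (-c.e0) / c.h s ≤ 2 * K ^ 3 * (δ * ω) := by
      rw [mul_div_assoc]
      gcongr
    calc 6 * K ^ 3 * c.ξ / c.a s + 2000 * (3 * K ^ 3) ^ 6 * (6 * K ^ 3 * c.ξ / c.a s
          + (2 * K ^ 4 * c.χ + 2 * K ^ 3 * c.N ^ (-c.e0) / c.h s))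
        ≤ 6 * K ^ 3 * (δ * ω) + 2000 * (3 * K ^ 3) ^ 6 * (6 * K ^ 3 * (δ * ω) + (2 * K ^ 4 * (δ * ω) + 2 * K ^ 3 * (δ * ω))) := by
          gcongr
      _ ≤ 6 * K ^ 22 * (δ * ω) + 2000 * (3 * K ^ 3) ^ 6 * (6 * K ^ 4 * (δ * ω) + (2 * K ^ 4 * (δ * ω) + 2 * K ^ 4 * (δ * ω))) := by
          gcongr
      _ = 14580006 * K ^ 22 * δ * ω := by ring
      _ ≤ 1 * ω := by gcongr
      _ = ω := one_mul ω
  · calc c.χ ≤ δ * ω := hχ
      _ ≤ δ * 1 := by gcongr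
      _ = δ := mul_one δ

theorem k8c_apply (S : ℝ) (hS : 0 < S) : ∃ C : ℕ, ∀ (c : K7bPar) (H : K7bHor) (K U s g η m ω δ : ℝ) (Fq : H.Q → ℝ × ℝ × ℝ × ℝ)
    (E : Set (H.Lam × ℝ)) (q : H.Q),
    c.S = S → K8cRel c s g η m ω δ → 1 ≤ K → (C : ℝ) * K ^ C * δ ≤ 1 → H.Ok c K → E ⊆ H.Sp → MeasurableSet E → K8cPrim H c s K Fq E →
    K8cCond H c (k8cSt H s (c.a (s + g)) c.ξ Fq) K E → K8cUpper H s (c.a (s + g)) ω U Fq E → q ∈ H.Qat s →
    H.mQ q ≤ ENNReal.ofReal K * H.lam (E ∩ k8cOn H s q) →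
    ∃ C0 : ℤ, H.mQ q ≤ ENNReal.ofReal ((C : ℝ) * K ^ C * ω ^ 3 * U) *
      H.lam (E ∩ k8cOn H s q ∩ {z | k8cC H s (c.a (s + g)) Fq z = C0}) := by
  obtain ⟨p, hp⟩ := k8ca_kappa S hS
  obtain ⟨C, hCdef⟩ : ∃ C : ℕ, C = 167215104 * 216 ^ (3 * p) + 9 * p + 22 := ⟨_, rfl⟩
  have hCr : (C : ℝ) = 167215104 * 216 ^ (3 * p) + 9 * p + 22 := by
    rw [hCdef]; push_cast; ring
  have h216 : (1 : ℝ) ≤ 216 ^ (3 * p) := one_le_pow₀ (by norm_num)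
  have h216p : (216 : ℝ) ^ p ≤ 216 ^ (3 * p) := pow_le_pow_right₀ (by norm_num) (by omega)
  have hp0 : (0 : ℝ) ≤ p := Nat.cast_nonneg p
  refine ⟨C, ?_⟩
  intro c H K U s g η m ω δ Fq E q hcS hrel hK hsmall h hE hm _ hcond hU hq hmass
  obtain ⟨κ, hκ0, hκ1, hκS, hκ3, hκinv⟩ := hp K hK
  have hK0 : 0 < K := lt_of_lt_of_le one_pos hK
  have hδ0 := hrel.δ0
  have u1 : 14580006 * K ^ 22 * δ ≤ 1 := k8ca_use hK hδ0.le hsmall (by rw [hCr]; linarith) (by omega)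
  have u2 : 2 * 216 ^ p * K ^ (3 * p) * δ ≤ 1 := k8ca_use hK hδ0.le hsmall (by rw [hCr]; linarith) (by omega)
  have u3 : 1 * K ^ 1 * δ ≤ 1 := k8ca_use hK hδ0.le hsmall (by rw [hCr]; linarith) (by omega)
  obtain ⟨v1, v2, v3⟩ := k8ca_small hrel hK u1
  have hKh : K * c.h s ≤ 1 := by
    have := hrel.r_h
    calc K * c.h s ≤ K * δ := by gcongr
      _ = 1 * K ^ 1 * δ := by ring
      _ ≤ 1 := u3
  have hδκ : δ ≤ κ := by
    rw [← hκinv, one_div, inv_mul_le_iff₀ hκ0, mul_one] at u2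
    exact u2
  rw [← hcS] at hκS
  obtain ⟨C0, hC0⟩ := k8ca_main c H K U s g η m ω δ κ Fq E q hrel hK h hE hm hcond hU hq hmass hKh hκ0 hκ1 (v3.trans hδκ) hκS hκ3 v1 v2
  refine ⟨C0, ?_⟩
  have hU0 : 0 ≤ U := by
    have := hU q ∅ (by simp)
    simpa using this
  have hω0 := hrel.ω0
  have e : K * (2 * ((K * (18 * K ^ 2)) ^ 3 * (8 * (2 * ω) ^ 3 / κ ^ 3) * (28 * U)))
      = 167215104 * 216 ^ (3 * p) * K ^ (10 + 9 * p) * ω ^ 3 * U := by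
    have e1 : 8 * (2 * ω) ^ 3 / κ ^ 3 = 64 * ω ^ 3 * (1 / κ) ^ 3 := by
      field_simp
      ring
    rw [e1, hκinv]
    ring
  calc H.mQ q ≤ ENNReal.ofReal K * H.lam (E ∩ k8cOn H s q) := hmass
    _ ≤ ENNReal.ofReal K * (ENNReal.ofReal (2 * ((K * (18 * K ^ 2)) ^ 3 * (8 * (2 * ω) ^ 3 / κ ^ 3) * (28 * U))) *
      H.lam (E ∩ k8cOn H s q ∩ {z | k8cC H s (c.a (s + g)) Fq z = C0})) := by gcongr
    _ = ENNReal.ofReal (167215104 * 216 ^ (3 * p) * K ^ (10 + 9 * p) * ω ^ 3 * U) *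
      H.lam (E ∩ k8cOn H s q ∩ {z | k8cC H s (c.a (s + g)) Fq z = C0}) := by
        rw [← mul_assoc, ← ENNReal.ofReal_mul hK0.le, e]
    _ ≤ ENNReal.ofReal ((C : ℝ) * K ^ C * ω ^ 3 * U) * H.lam (E ∩ k8cOn H s q ∩ {z | k8cC H s (c.a (s + g)) Fq z = C0}) := by
        refine mul_le_mul_left ?_ _
        refine ENNReal.ofReal_le_ofReal ?_
        have w1 : (167215104 : ℝ) * 216 ^ (3 * p) ≤ C := by rw [hCr]; linarith
        have w2 : K ^ (10 + 9 * p) ≤ K ^ C := pow_le_pow_right₀ hK (by omega)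
        gcongr

end

end Claimed.Agent.R252

end PkS8cH8Apply

section PkS8cH9Aux

/-!
# Row 252, S8c: auxiliary lemmas of the assembly `k8c_one` (slack calculus, constants of S4, `K7bS5` from `K8cRel`, mass bookkeeping).   No sorry.      (architect helper54)
-/

set_option autoImplicit false

namespace Claimed.Agent.R252

open MeasureTheory
open scoped ENNReal BigOperators

theorem k8c_pw_sq8 {Y : ℝ} (hY : 1 ≤ Y) (B : ℕ) : 8 * ((B : ℝ) * Y ^ B) ^ 2 ≤ ((8 * B ^ 2 + 2 * B : ℕ) : ℝ) * Y ^ (8 * B ^ 2 + 2 * B) := by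
  have e : 8 * ((B : ℝ) * Y ^ B) ^ 2 = ((8 * B ^ 2 : ℕ) : ℝ) * Y ^ (2 * B) := by
    push_cast
    rw [mul_pow, ← pow_mul, mul_comm B 2]
    ring
  rw [e]
  exact k8c_pw_le hY (Nat.cast_nonneg _) (by exact_mod_cast Nat.le_add_right _ _) (Nat.le_add_left _ _)

theorem k8c_pw_comp' (A B : ℕ) : ∃ D : ℕ, B ≤ D ∧ ∀ Y : ℝ, 1 ≤ Y → (A : ℝ) * ((B : ℝ) * Y ^ B) ^ A ≤ (D : ℝ) * Y ^ D :=
  ⟨A * B ^ A + A * B + B, Nat.le_add_left _ _, fun _ hY => (k8c_pw_comp hY A B).trans (k8c_pw_mono hY (Nat.le_add_right _ _))⟩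

theorem k8c_pw_compsq (A B : ℕ) : ∃ D : ℕ, B ≤ D ∧ ∀ Y : ℝ, 1 ≤ Y → (A : ℝ) * (8 * ((B : ℝ) * Y ^ B) ^ 2) ^ A ≤ (D : ℝ) * Y ^ D := by
  obtain ⟨D, hD, h⟩ := k8c_pw_comp' A (8 * B ^ 2 + 2 * B)
  refine ⟨D, le_trans (by nlinarith) hD, fun Y hY => le_trans ?_ (h Y hY)⟩
  have h0 : (0 : ℝ) ≤ 8 * ((B : ℝ) * Y ^ B) ^ 2 := by positivity
  exact mul_le_mul_of_nonneg_left (pow_le_pow_left₀ h0 (k8c_pw_sq8 hY B) A) (Nat.cast_nonneg A)

theorem k8c_mass3 {α : Type*} [MeasurableSpace α] (μ : Measure α) {E E1 E2 E3 : Set α} {K : ℝ} (hK : 1 ≤ K)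
    (h0 : ENNReal.ofReal (1 / K) ≤ μ E) (h1 : μ (E \ E1) ≤ ENNReal.ofReal (1 / (8 * K))) (h2 : μ (E1 \ E2) ≤ ENNReal.ofReal (1 / (8 * K)))
    (h3 : μ (E2 \ E3) ≤ ENNReal.ofReal (1 / (8 * K))) : ENNReal.ofReal (1 / (2 * K)) ≤ μ E3 := by
  have hK0 : 0 < K := by linarith
  have hsub : E ⊆ E3 ∪ (E \ E1) ∪ (E1 \ E2) ∪ (E2 \ E3) := by
    intro x hx
    by_cases a1 : x ∈ E1
    · by_cases a2 : x ∈ E2
      · by_cases a3 : x ∈ E3
        · exact Or.inl (Or.inl (Or.inl a3))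
        · exact Or.inr ⟨a2, a3⟩
      · exact Or.inl (Or.inr ⟨a1, a2⟩)
    · exact Or.inl (Or.inl (Or.inr ⟨hx, a1⟩))
  have hle : μ E ≤ μ E3 + ENNReal.ofReal (1 / (8 * K)) + ENNReal.ofReal (1 / (8 * K)) + ENNReal.ofReal (1 / (8 * K)) := by
    refine (measure_mono hsub).trans ?_
    refine (measure_union_le _ _).trans (add_le_add ?_ h3)
    refine (measure_union_le _ _).trans (add_le_add ?_ h2)
    exact (measure_union_le _ _).trans (add_le_add le_rfl h1)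
  by_contra hc
  rw [not_le] at hc
  have p : 0 ≤ 1 / (8 * K) := by positivity
  have p2 : 0 ≤ 1 / (2 * K) := by positivity
  have : μ E < ENNReal.ofReal (1 / K) := by
    refine lt_of_le_of_lt hle ?_
    have e : ENNReal.ofReal (1 / (2 * K)) + ENNReal.ofReal (1 / (8 * K)) + ENNReal.ofReal (1 / (8 * K)) + ENNReal.ofReal (1 / (8 * K))
        = ENNReal.ofReal (7 / (8 * K)) := by
      rw [← ENNReal.ofReal_add p2 p, ← ENNReal.ofReal_add (by positivity) p, ← ENNReal.ofReal_add (by positivity) p]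
      congr 1
      field_simp
      norm_num
    calc μ E3 + ENNReal.ofReal (1 / (8 * K)) + ENNReal.ofReal (1 / (8 * K)) + ENNReal.ofReal (1 / (8 * K))
        < ENNReal.ofReal (1 / (2 * K)) + ENNReal.ofReal (1 / (8 * K)) + ENNReal.ofReal (1 / (8 * K)) + ENNReal.ofReal (1 / (8 * K)) := by
          refine ENNReal.add_lt_add_right ENNReal.ofReal_ne_top ?_
          refine ENNReal.add_lt_add_right ENNReal.ofReal_ne_top ?_
          exact ENNReal.add_lt_add_right ENNReal.ofReal_ne_top hc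
      _ = ENNReal.ofReal (7 / (8 * K)) := e
      _ < ENNReal.ofReal (1 / K) := by
          rw [ENNReal.ofReal_lt_ofReal_iff (by positivity)]
          rw [div_lt_div_iff₀ (by positivity) hK0]
          nlinarith
  exact absurd h0 (not_le.2 this)

theorem k8c_mass_sw {α : Type*} [MeasurableSpace α] (μ : Measure α) {E4 E5 : Set α} {X : ℝ} (hX : 1 ≤ X)
    (h : 1 ≤ ENNReal.ofReal X * μ E4) (hl : μ (E4 \ E5) ≤ ENNReal.ofReal (1 / (8 * X))) : 1 ≤ ENNReal.ofReal (2 * X) * μ E5 := by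
  have hX0 : 0 < X := by linarith
  have hsub : E4 ⊆ E5 ∪ (E4 \ E5) := by
    intro x hx
    by_cases a : x ∈ E5
    · exact Or.inl a
    · exact Or.inr ⟨hx, a⟩
  have h1 : μ E4 ≤ μ E5 + ENNReal.ofReal (1 / (8 * X)) := (measure_mono hsub).trans ((measure_union_le _ _).trans (add_le_add le_rfl hl))
  have h2 : 1 ≤ ENNReal.ofReal X * μ E5 + ENNReal.ofReal (1 / 8) := by
    refine h.trans ((mul_le_mul' le_rfl h1).trans (le_of_eq ?_))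
    rw [mul_add, ← ENNReal.ofReal_mul hX0.le]
    congr 2
    field_simp
  have e2 : ENNReal.ofReal (2 * X) = 2 * ENNReal.ofReal X := by
    rw [ENNReal.ofReal_mul (by norm_num)]
    norm_num
  rw [e2, mul_assoc]
  by_contra hc
  rw [not_le] at hc
  have h3 : ENNReal.ofReal X * μ E5 < ENNReal.ofReal (1 / 2) := by
    by_contra h4
    rw [not_lt] at h4
    have : (1 : ℝ≥0∞) ≤ 2 * (ENNReal.ofReal X * μ E5) := by
      calc (1 : ℝ≥0∞) = 2 * ENNReal.ofReal (1 / 2) := by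
            rw [show (2 : ℝ≥0∞) = ENNReal.ofReal 2 by norm_num, ← ENNReal.ofReal_mul (by norm_num)]
            norm_num
        _ ≤ _ := mul_le_mul' le_rfl h4
    exact absurd this (not_le.2 hc)
  have h5 : ENNReal.ofReal X * μ E5 + ENNReal.ofReal (1 / 8) < 1 := by
    calc ENNReal.ofReal X * μ E5 + ENNReal.ofReal (1 / 8) < ENNReal.ofReal (1 / 2) + ENNReal.ofReal (1 / 8) :=
          ENNReal.add_lt_add_right ENNReal.ofReal_ne_top h3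
      _ = ENNReal.ofReal (5 / 8) := by
          rw [← ENNReal.ofReal_add (by norm_num) (by norm_num)]
          norm_num
      _ < 1 := by
          rw [← ENNReal.ofReal_one, ENNReal.ofReal_lt_ofReal_iff (by norm_num)]
          norm_num
  exact absurd h2 (not_le.2 h5)


/-- the constants of S4 at `ε = 1/(8K)` -/
theorem k8c_s4_bd {n : ℕ} {K G : ℝ} (hK : 1 ≤ K) (hn : (n : ℝ) ≤ K) (hG : 1 ≤ G) :
    k7bK1 n K (1 / (8 * K)) ≤ 6591000 * (K * G) ^ 36 ∧ (n : ℝ) * (1 + K) * k7bK2 n K (1 / (8 * K)) * G ≤ 6591000 * (K * G) ^ 36 := by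
  have hK0 : 0 < K := by linarith
  have hn0 : (0 : ℝ) ≤ n := Nat.cast_nonneg n
  have hY : K ≤ K * G := by nlinarith
  have hY1 : 1 ≤ K * G := by linarith
  have h1 : k7bK1 n K (1 / (8 * K)) ≤ 8 * K ^ 5 := by
    unfold k7bK1
    refine max_le ?_ ?_
    · have : (1 : ℝ) ≤ K ^ 5 := one_le_pow₀ hK
      linarith
    · have e : (n : ℝ) ^ 2 * K ^ 2 / (1 / (8 * K)) = 8 * ((n : ℝ) ^ 2 * K ^ 3) := by
        field_simp
      rw [e]
      have : (n : ℝ) ^ 2 ≤ K ^ 2 := pow_le_pow_left₀ hn0 hn 2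
      have h3 : (0 : ℝ) ≤ K ^ 3 := by positivity
      nlinarith
  have h10 : 0 ≤ k7bK1 n K (1 / (8 * K)) := le_trans zero_le_one (le_max_left _ _)
  have h2 : k7bK2 n K (1 / (8 * K)) ≤ 3295500 * K ^ 34 := by
    unfold k7bK2
    have a1 : 1 + 8 * K ^ 6 * k7bK1 n K (1 / (8 * K)) ≤ 65 * K ^ 11 := by
      have : 8 * K ^ 6 * k7bK1 n K (1 / (8 * K)) ≤ 8 * K ^ 6 * (8 * K ^ 5) := mul_le_mul_of_nonneg_left h1 (by positivity)
      have h11 : (1 : ℝ) ≤ K ^ 11 := one_le_pow₀ hK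
      have e : 8 * K ^ 6 * (8 * K ^ 5) = 64 * K ^ 11 := by ring
      linarith
    have a0 : 0 ≤ 1 + 8 * K ^ 6 * k7bK1 n K (1 / (8 * K)) := by positivity
    have a2 : (1 + 8 * K ^ 6 * k7bK1 n K (1 / (8 * K))) ^ 3 ≤ (65 * K ^ 11) ^ 3 := pow_le_pow_left₀ a0 a1 3
    calc 12 * K * (1 + 8 * K ^ 6 * k7bK1 n K (1 / (8 * K))) ^ 3 ≤ 12 * K * (65 * K ^ 11) ^ 3 :=
          mul_le_mul_of_nonneg_left a2 (by positivity)
      _ = 3295500 * K ^ 34 := by ring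
  have h20 : 0 ≤ k7bK2 n K (1 / (8 * K)) := by
    unfold k7bK2
    positivity
  constructor
  · calc k7bK1 n K (1 / (8 * K)) ≤ 8 * K ^ 5 := h1
      _ ≤ 8 * (K * G) ^ 5 := by gcongr
      _ ≤ 6591000 * (K * G) ^ 36 := by
          have : (K * G) ^ 5 ≤ (K * G) ^ 36 := pow_le_pow_right₀ hY1 (by norm_num)
          have h0 : 0 ≤ (K * G) ^ 36 := by positivity
          linarith
  · calc (n : ℝ) * (1 + K) * k7bK2 n K (1 / (8 * K)) * G ≤ K * (2 * K) * (3295500 * K ^ 34) * G := by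
          gcongr
          linarith
      _ = 6591000 * (K ^ 35 * (K * G)) := by ring
      _ ≤ 6591000 * ((K * G) ^ 35 * (K * G)) := by gcongr
      _ = 6591000 * (K * G) ^ 36 := by ring


theorem k8c_rel_basic {c : K7bPar} {s g η m ω δ : ℝ} (hr : K8cRel c s g η m ω δ) :
    0 < c.a s ∧ c.a s ≤ 1 ∧ 0 < c.a (s + g) ∧ c.a (s + g) ≤ c.a s ∧ 0 < c.h s ∧ c.h s ≤ 1 ∧ ω ≤ 1 ∧ m ≤ 1 ∧ η ≤ 1 := by
  have hN1 := hr.wf.N1
  have hN : 0 < c.N := lt_of_lt_of_le one_pos hN1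
  have ha : 0 < c.a s := Real.rpow_pos_of_pos hN _
  have ha' : 0 < c.a (s + g) := Real.rpow_pos_of_pos hN _
  have hh : 0 < c.h s := Real.rpow_pos_of_pos hN _
  have ha1 : c.a s ≤ 1 := Real.rpow_le_one_of_one_le_of_nonpos hN1 (by linarith [hr.s0])
  have haa : c.a (s + g) ≤ c.a s := Real.rpow_le_rpow_of_exponent_le hN1 (by linarith [hr.g0])
  have hh1 : c.h s ≤ 1 := hr.r_h.trans hr.δ1
  have hδ0 := hr.δ0
  have hδ1 := hr.δ1
  have ha'1 : c.a (s + g) ≤ 1 := haa.trans ha1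
  have hη : η ≤ 1 := by
    have := hr.r_η
    nlinarith
  have hm : m ≤ 1 := by
    have := hr.r_m
    have := hr.η0
    nlinarith
  have hω : ω ≤ 1 := by
    have h1 := hr.r_ω
    have h2 : c.a (s + g) ^ 2 ≤ 1 := pow_le_one₀ ha'.le ha'1
    have h3 : 0 ≤ c.a (s + g) ^ 2 := by positivity
    nlinarith
  exact ⟨ha, ha1, ha', haa, hh, hh1, hω, hm, hη⟩

theorem k8c_s5_of_rel {c : K7bPar} {s g η m ω δ X : ℝ} (hr : K8cRel c s g η m ω δ) (hX1 : 1 ≤ X) (hsm : 4 * X * δ ≤ 1) :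
    K7bS5 c X s (c.a s) η := by
  obtain ⟨ha, ha1, ha', haa, hh, hh1, hω, hm, hη⟩ := k8c_rel_basic hr
  have hδ0 := hr.δ0
  have hδ1 := hr.δ1
  have hω0 := hr.ω0
  have hm0 := hr.m0
  have hη0 := hr.η0
  have p1 : ω * c.a s ^ 2 ≤ c.a s := by
    have : c.a s ^ 2 ≤ c.a s := by nlinarith
    nlinarith
  have p10 : 0 ≤ ω * c.a s ^ 2 := by positivity
  have p2 : δ * (ω * c.a s ^ 2) ≤ c.a s := by nlinarith
  have p3 : m * ω * c.a s ^ 2 ≤ c.a s := by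
    have : m * ω * c.a s ^ 2 = m * (ω * c.a s ^ 2) := by ring
    rw [this]
    nlinarith
  have p30 : 0 ≤ m * ω * c.a s ^ 2 := by positivity
  have p4 : m * ω * c.a s ^ 2 ≤ m := by
    have h1 : ω * c.a s ^ 2 ≤ 1 := p1.trans ha1
    have : m * ω * c.a s ^ 2 = m * (ω * c.a s ^ 2) := by ring
    rw [this]
    nlinarith
  refine ⟨hr.wf, hX1, hr.sG, by rw [hr.khalf], ha, le_rfl, hr.r_χ.trans p2, hr.r_e.trans p2, ?_, ?_, hη0, ?_, ?_⟩
  · -- 4 X ξ ≤ a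
    have h1 := hr.r_ξ
    calc 4 * X * c.ξ ≤ 4 * X * (δ * (m * ω * c.a s ^ 2)) := mul_le_mul_of_nonneg_left h1 (by positivity)
      _ = (4 * X * δ) * (m * ω * c.a s ^ 2) := by ring
      _ ≤ 1 * (m * ω * c.a s ^ 2) := mul_le_mul_of_nonneg_right hsm p30
      _ ≤ c.a s := by linarith
  · have h1 := hr.r_ϱ
    nlinarith
  · have h1 := hr.r_η
    calc X * η ≤ X * (δ * c.a s) := mul_le_mul_of_nonneg_left h1 (by positivity)
      _ = (X * δ) * c.a s := by ring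
      _ ≤ 1 * c.a s := mul_le_mul_of_nonneg_right (by nlinarith) ha.le
      _ = c.a s := one_mul _
  · have h1 := hr.r_ξ
    have h2 := hr.r_m
    nlinarith

theorem k8c_big (A e : ℝ) (he : 0 < e) : ∃ N1 : ℝ, 1 ≤ N1 ∧ ∀ N : ℝ, N1 ≤ N → A ≤ N ^ e := by
  refine ⟨max 1 (|A| ^ (1 / e)), le_max_left _ _, fun N hN => ?_⟩
  have h1 : |A| ^ (1 / e) ≤ N := (le_max_right _ _).trans hN
  have h0 : 0 ≤ |A| ^ (1 / e) := Real.rpow_nonneg (abs_nonneg _) _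
  calc A ≤ |A| := le_abs_self A
    _ = (|A| ^ (1 / e)) ^ e := by
        rw [← Real.rpow_mul (abs_nonneg _), one_div, inv_mul_cancel₀ he.ne', Real.rpow_one]
    _ ≤ N ^ e := Real.rpow_le_rpow h0 h1 he.le

/-- the instance of the row fit -/
theorem k8c_fithyp_of_fit {S τf' τf ξ₀ : ℝ}
    (hfit : ∀ ξ E K : ℝ, 0 < ξ → ξ < ξ₀ → ξ ≤ E → 1 ≤ K → K ≤ ξ ^ (-τf) →
      ∀ (Λ : Type) [MeasurableSpace Λ] (P : Measure Λ) (Z0 vel cst : Λ → ℝ) (T : Λ × ℝ → ℝ × ℝ) (W : Set (Λ × ℝ)) (μ : Measure (Λ × ℝ))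
        (pal : Measure ℝ), Re6Fit ξ E K S P Z0 vel cst T W μ pal →
        ∃ B₁ B₂ lam : ℝ, |B₁| ≤ ξ ^ (-τf') ∧ |B₂| ≤ ξ ^ (-τf') ∧ |lam| ≤ ξ ^ (-τf') ∧
          ENNReal.ofReal (ξ ^ τf') ≤ μ {ω | ω ∈ W ∧ |(T ω).1 - B₁ + lam * (Z0 ω.1 + vel ω.1 * ω.2)| ≤ ξ ^ (-τf') * E ∧
            |(T ω).2 - B₂ - lam * ω.2| ≤ ξ ^ (-τf') * E})
    {m E K : ℝ} (hm0 : 0 < m) (hm : m < ξ₀) (hmE : m ≤ E) (hK1 : 1 ≤ K) (hK : K ≤ m ^ (-τf)) : K8cFitHyp S m E K (m ^ (-τf')) := by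
  intro Λ _ P Z0 vel cst T W μ pal hd
  obtain ⟨B₁, B₂, lam, h1, h2, h3, h4⟩ := hfit m E K hm0 hm hmE hK1 hK Λ P Z0 vel cst T W μ pal hd
  refine ⟨B₁, B₂, lam, h1, h2, h3, ?_⟩
  rw [Real.rpow_neg hm0.le, one_div, inv_inv]
  rw [Real.rpow_neg hm0.le] at h4
  exact h4

end Claimed.Agent.R252

end PkS8cH9Aux
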