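-- KEEP
import Claimed.Agent.R252.S8c.PkA
import Claimed.Agent.R252.S8c.PkB
import Claimed.Agent.R252.S8c.PkC
import Claimed.Agent.R252.S8c.PkD
import Claimed.Agent.R252.S7b.P4Main
import Claimed.Agent.R252.S7b.P5Main
import Claimed.Agent.R252.Re6.Fit

/-!
# Row 252, S8c: **P8.2 `prop:critical-rate`**: one-scale form `k8c_one` and hub form `k8c_exit`      CONTRACT: sorries = leaves L-252-S8c-H9a..H9e.      (architect helper54)

`k8c_pick`  (H9a): a label with dense success relative to `m_Q` (`budget`, `labmem`, `mlab`): otherwise `X lam E = ∑_{q ∈ Qat s} X lam (E ∩ k8cOn q) < ∑ mQ q ≤ 1`.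
`k8c_cand`  (H9b): the heavy intercept bin is a candidate.   `P = C (F.1 + C0 a') + C F.2.1 X₀ + C F.2.2.1 X₁ + C F.2.2.2 X₂`, `k8Ev P u = k7bAff F u + C0 a'`, degree `≤ 1`;
            `|x - F - c_l| ≤ K² a h ≤ a'` (`k8c_int_fit`, `r_ah`), `0 ≤ c_l - C0 a' < a'`;   `(a'/a)^d = N^(-d g)`.
`k8c_one`   (H9c, PROVED): ASSEMBLY.   `X = K N^gap`.   (1) `k7b_nested_slopes`, `ε = 1/(8K)` : `E₁`, `Pairs .. E E₁`, `Slopes`.   (2) `k7b_coeff_count d`, `D = a_s`, `ε = 1/(8K)` : `E₂`, `Cnt` (`K7bS5` from `K8cRel` + smallness).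
            (3) `k8c_dlist`, `k8c_row` on `E₂`.   (4) `k8c_rowbins`, `ε = 1/(8K)` : `E₃`, `lam E₃ ≥ 1/(2K)`.   (5) `k8c_fit_all` : `Fq`, `E₄`.   (6) `k8c_switch`, `ε = lam`-floor`/2` : `E₅`.   (7) `k8c_upper` (`E₀ = E`).
            (8) `k8c_pick`.   (9) `k8c_apply`.   (10) `k8c_cand`.      Between the steps raise the slack by `k8c_ok_mono` and the (trivial) monotonicity of `Slopes`, `Pairs`, `Cnt`, `K8cDList`, `K8cRowOk`, `K8cRBins`, `K8cPrim`, `K8cCond`, `K8cUpper` in the slack and in `E`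
            (`K8cCond` is NOT monotone in `E`: it is produced last).   Every slack is `≤ C (K Kf N^gap)^C`.
`k8c_rel`   (H9d): the relations `K8cRel` for `s ≤ e₀/100`, `g = s/8`, `η = N^(-2s)`, `m = ⌈N^(-3s)/χ⌉₊ χ ∈ [N^(-3s), 2 N^(-3s)]`, `ω = N^(-5s)`, `δ = N^(-s/8)`, meshes `≤ N^(-20 s)`, `N ≥ N₁(s)`.
`k8c_exit`  (H9e, PROVED): hub form.   `s = min (e₀/100) (R/3)`, `g = s/8`, `M0 = 21 s`, `G0 = {s, s + g, 3s}`; gaps of the grid from `K8Inp.grid`;  `re6_row_fit S τ_f'` at `ξ = m`, `E = a_s`, `Kf = m^(-τ_f')`;  `gap = τ' = t`, `C (2t + 3 s τ_f') ≤ min τ (s/8) / 2`.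
-/

set_option autoImplicit false

namespace Claimed.Agent.R252

open MeasureTheory
open scoped ENNReal BigOperators

theorem k8c_pick (c : K7bPar) (H : K7bHor) {K s : ℝ} (h : H.Ok c K) (hs : s ∈ c.G) {E : Set (H.Lam × ℝ)} (hE : E ⊆ H.Sp)
    (hm : MeasurableSet E) {X : ℝ} (hmass : 1 ≤ ENNReal.ofReal X * H.lam E) :
    ∃ q ∈ H.Qat s, H.mQ q ≤ ENNReal.ofReal X * H.lam (E ∩ k8cOn H s q) := by
  by_contra hcon
  push Not at hcon
  have hsub : E ⊆ ⋃ q ∈ H.Qat s, E ∩ k8cOn H s q := by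
    intro z hz
    simp only [Set.mem_iUnion]
    exact ⟨H.lab s z, (h.labmem s hs z (hE hz)).1, hz, rfl⟩
  have h1 : H.lam E ≤ ∑ q ∈ H.Qat s, H.lam (E ∩ k8cOn H s q) :=
    (measure_mono hsub).trans (measure_biUnion_finset_le _ _)
  have h2 : ENNReal.ofReal X * H.lam E ≤ ∑ q ∈ H.Qat s, ENNReal.ofReal X * H.lam (E ∩ k8cOn H s q) := by
    rw [← Finset.mul_sum]
    exact mul_le_mul' le_rfl h1
  rcases (H.Qat s).eq_empty_or_nonempty with he | hne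
  · rw [he] at h2
    simp only [Finset.sum_empty] at h2
    have := hmass.trans h2
    simp at this
  · have h3 := ENNReal.sum_lt_sum_of_nonempty hne hcon
    have h4 := h.budget s hs
    exact absurd (hmass.trans (h2.trans (h3.le.trans h4))) (by
      intro h5
      exact absurd (lt_of_le_of_lt (hmass.trans h2) (lt_of_lt_of_le h3 h4)) (lt_irrefl _))

theorem k8c_cand_ev (F : ℝ × ℝ × ℝ × ℝ) (b : ℝ) (u : ℝ × ℝ × ℝ) :
    k8Ev (MvPolynomial.C (F.1 + b) + MvPolynomial.C F.2.1 * MvPolynomial.X 0 + MvPolynomial.C F.2.2.1 * MvPolynomial.X 1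
      + MvPolynomial.C F.2.2.2 * MvPolynomial.X 2) u = k7bAff F u + b := by
  simp only [k8Ev, k7bAff, map_add, map_mul, MvPolynomial.eval_C, MvPolynomial.eval_X]
  simp
  ring

theorem k8c_cand_deg (F : ℝ × ℝ × ℝ × ℝ) (b : ℝ) :
    (MvPolynomial.C (F.1 + b) + MvPolynomial.C F.2.1 * MvPolynomial.X 0 + MvPolynomial.C F.2.2.1 * MvPolynomial.X 1
      + MvPolynomial.C F.2.2.2 * MvPolynomial.X 2 : MvPolynomial (Fin 3) ℝ).totalDegree ≤ 2 := by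
  have hX : ∀ (a : ℝ) (i : Fin 3), (MvPolynomial.C a * MvPolynomial.X i : MvPolynomial (Fin 3) ℝ).totalDegree ≤ 2 := by
    intro a i
    refine (MvPolynomial.totalDegree_mul _ _).trans ?_
    rw [MvPolynomial.totalDegree_C, MvPolynomial.totalDegree_X]
    norm_num
  refine (MvPolynomial.totalDegree_add _ _).trans (max_le ?_ (hX _ _))
  refine (MvPolynomial.totalDegree_add _ _).trans (max_le ?_ (hX _ _))
  refine (MvPolynomial.totalDegree_add _ _).trans (max_le ?_ (hX _ _))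
  rw [MvPolynomial.totalDegree_C]
  norm_num

theorem k8c_cand_meas (c : K7bPar) (H : K7bHor) {K s a' : ℝ} (h : H.Ok c K) (hs : s ∈ c.G)
    (Fq : H.Q → ℝ × ℝ × ℝ × ℝ) {E : Set (H.Lam × ℝ)} (hm : MeasurableSet E) (q : H.Q) (C0 : ℤ) :
    MeasurableSet (E ∩ k8cOn H s q ∩ {z | k8cC H s a' Fq z = C0}) := by
  have e : E ∩ k8cOn H s q ∩ {z | k8cC H s a' Fq z = C0}
      = E ∩ k8cOn H s q ∩ {z | k7bBin a' (k8cInt H (Fq q) q z.1) = C0} := by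
    ext z
    simp only [Set.mem_inter_iff, Set.mem_ofPred_eq, k8cOn, k8cC]
    constructor
    · rintro ⟨⟨h1, h2⟩, h3⟩
      rw [h2] at h3
      exact ⟨⟨h1, h2⟩, h3⟩
    · rintro ⟨⟨h1, h2⟩, h3⟩
      refine ⟨⟨h1, h2⟩, ?_⟩
      rw [h2]
      exact h3
  rw [e]
  refine (hm.inter (h.mlab s hs q)).inter ?_
  have hmeas : Measurable (fun z : H.Lam × ℝ => k7bBin a' (k8cInt H (Fq q) q z.1)) := by
    unfold k7bBin
    refine Int.measurable_floor.comp (Measurable.div_const ?_ _)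
    simp only [k8cInt, k7bAff, K7bHor.bs, K7bHor.Xt, K7bHor.Zt, K7bHor.Yt]
    have m1 : Measurable (fun z : H.Lam × ℝ => H.p z.1) := h.mp.comp measurable_fst
    have m2 : Measurable (fun z : H.Lam × ℝ => H.v z.1) := h.mv.comp measurable_fst
    have m3 : Measurable (fun z : H.Lam × ℝ => H.q0 z.1) := h.mq0.comp measurable_fst
    have m4 : Measurable (fun z : H.Lam × ℝ => H.y1 z.1) := h.my1.comp measurable_fst
    have m5 : Measurable (fun z : H.Lam × ℝ => H.x0 z.1) := h.mx0.comp measurable_fst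
    have m6 : Measurable (fun z : H.Lam × ℝ => H.x1 z.1) := h.mx1.comp measurable_fst
    fun_prop
  exact hmeas (MeasurableSet.singleton C0)

theorem k8c_cand (c : K7bPar) (H : K7bHor) {K X s g η m ω δ : ℝ} (hr : K8cRel c s g η m ω δ) (hK : 1 ≤ K) (hsm : K ^ 2 * δ ≤ 1) (h : H.Ok c K)
    (Fq : H.Q → ℝ × ℝ × ℝ × ℝ) {E₀ E : Set (H.Lam × ℝ)} (hE0 : E ⊆ E₀) (hE : E ⊆ H.Sp) (hm : MeasurableSet E) (hP : K8cPrim H c s K Fq E)
    {q : H.Q} (hq : q ∈ H.Qat s) (C0 : ℤ) (hX : 2 ≤ X)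
    (hmass : H.mQ q ≤ ENNReal.ofReal (X * (c.a s / c.a (s + g)) ^ c.d) * H.lam (E ∩ k8cOn H s q ∩ {z | k8cC H s (c.a (s + g)) Fq z = C0})) :
    ∃ P, K8Cand H c X s g E₀ q P (E ∩ k8cOn H s q ∩ {z | k8cC H s (c.a (s + g)) Fq z = C0}) := by
  have hc := hr.wf
  have hN0 : 0 < c.N := by linarith [hc.N1]
  have ha' : 0 < c.a (s + g) := by
    unfold K7bPar.a
    exact Real.rpow_pos_of_pos hN0 _
  refine ⟨MvPolynomial.C ((Fq q).1 + C0 * c.a (s + g)) + MvPolynomial.C (Fq q).2.1 * MvPolynomial.X 0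
    + MvPolynomial.C (Fq q).2.2.1 * MvPolynomial.X 1 + MvPolynomial.C (Fq q).2.2.2 * MvPolynomial.X 2, ?_⟩
  refine ⟨hr.sG, hq, k8c_cand_deg _ _, k8c_cand_meas c H h hr.sG Fq hm q C0, fun z hz => hE0 hz.1.1, fun z hz => hz.1.2, ?_, ?_⟩
  · rintro z ⟨⟨hzE, hzq⟩, hzC⟩ t ht
    have hzq' : H.lab s z = q := hzq
    rw [k8c_cand_ev]
    have f1 := k8c_int_fit c H hc hK h hr.sG Fq hE hP hzE (t := t) (by rw [hzq']; exact ht)
    rw [hzq'] at f1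
    have f2 : k7bBin (c.a (s + g)) (k8cInt H (Fq q) q z.1) = C0 := by
      have : k8cC H s (c.a (s + g)) Fq z = C0 := hzC
      unfold k8cC at this
      rw [hzq'] at this
      exact this
    unfold k7bBin at f2
    rw [Int.floor_eq_iff] at f2
    have f3 : (C0 : ℝ) * c.a (s + g) ≤ k8cInt H (Fq q) q z.1 := (le_div_iff₀ ha').1 f2.1
    have f4 : k8cInt H (Fq q) q z.1 < ((C0 : ℝ) + 1) * c.a (s + g) := (div_lt_iff₀ ha').1 f2.2
    have f5 : K ^ 2 * (c.a s * c.h s) ≤ c.a (s + g) := by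
      calc K ^ 2 * (c.a s * c.h s) ≤ K ^ 2 * (δ * c.a (s + g)) := by
            have := hr.r_ah
            gcongr
        _ = (K ^ 2 * δ) * c.a (s + g) := by ring
        _ ≤ 1 * c.a (s + g) := by gcongr
        _ = c.a (s + g) := one_mul _
    have f6 := abs_le.1 (f1.trans f5)
    have f7 : 2 * c.a (s + g) ≤ X * c.a (s + g) := by gcongr
    rw [abs_le]
    constructor <;> linarith [f6.1, f6.2]
  · have e1 : (c.a s / c.a (s + g)) ^ c.d = c.N ^ (c.d * g) := by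
      unfold K7bPar.a
      rw [← Real.rpow_sub hN0, ← Real.rpow_mul hN0.le]
      congr 1
      ring
    rw [e1] at hmass
    have hp : 0 < c.N ^ (-(c.d * g)) := Real.rpow_pos_of_pos hN0 _
    calc H.mQ q * ENNReal.ofReal (c.N ^ (-(c.d * g)))
        ≤ (ENNReal.ofReal (X * c.N ^ (c.d * g)) * H.lam (E ∩ k8cOn H s q ∩ {z | k8cC H s (c.a (s + g)) Fq z = C0}))
          * ENNReal.ofReal (c.N ^ (-(c.d * g))) := mul_le_mul' hmass le_rfl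
      _ = ENNReal.ofReal X * H.lam (E ∩ k8cOn H s q ∩ {z | k8cC H s (c.a (s + g)) Fq z = C0}) := by
          rw [mul_right_comm, ← ENNReal.ofReal_mul (by positivity)]
          congr 2
          rw [mul_assoc, ← Real.rpow_add hN0]
          simp

/-- **P8.2 at one scale** -/
theorem k8c_one (S d : ℝ) (hS : 0 < S) (hd0 : 0 ≤ d) (hd1 : d < 1) : ∃ C₁ C : ℕ, 1 ≤ C₁ ∧ ∀ (c : K7bPar) (H : K7bHor) (K Kf gap s g η m ω δ : ℝ)
    (E : Set (H.Lam × ℝ)), c.S = S → c.d = d → K8cRel c s g η m ω δ → 1 ≤ Kf → 0 ≤ gap →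
    (∀ s' ∈ c.G, 0 < s' → ∃ s'' ∈ c.G, s'' < s' ∧ s' - s'' ≤ gap) → (C : ℝ) * (K * Kf * c.N ^ gap) ^ C * δ ≤ 1 → K8Inp H c K E →
    K8cFitHyp S m (c.a s) ((C₁ : ℝ) * (K * c.N ^ gap) ^ C₁) Kf →
    ∃ q P Cn, K8Cand H c ((C : ℝ) * (K * Kf * c.N ^ gap) ^ C) s g E q P Cn := by
  obtain ⟨C5, h5⟩ := k7b_coeff_count d hd0 hd1
  obtain ⟨Cd, hdl⟩ := k8c_dlist
  obtain ⟨Cr, hrw⟩ := k8c_row
  obtain ⟨Cb, hrb⟩ := k8c_rowbins S hS
  obtain ⟨Cf1, Cf, hCf1, hfit⟩ := k8c_fit_all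
  obtain ⟨Cs, hsw⟩ := k8c_switch
  obtain ⟨Cu, hup⟩ := k8c_upper
  obtain ⟨Ca, hap⟩ := k8c_apply S hS
  -- the exponents
  obtain ⟨D1, hD1⟩ : ∃ D1 : ℕ, D1 = 6591000 := ⟨_, rfl⟩
  obtain ⟨D2, hD12, hD2⟩ := k8c_pw_compsq C5 D1
  obtain ⟨D3a, hD23a, hD3a⟩ := k8c_pw_comp' Cd D2
  obtain ⟨D3b, hD23b, hD3b⟩ := k8c_pw_comp' Cr D2
  obtain ⟨D3, hD3⟩ : ∃ D3 : ℕ, D3 = D3a + D3b := ⟨_, rfl⟩
  obtain ⟨D4, hD34, hD4⟩ := k8c_pw_compsq Cb D3
  obtain ⟨C₁, hD4C, hC₁⟩ := k8c_pw_comp' Cf1 D4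
  obtain ⟨D5, hD45, hD5⟩ := k8c_pw_comp' Cf (D4 * 1 + D4 + 1)
  obtain ⟨D6a, hD56a, hD6a⟩ := k8c_pw_compsq Cs D5
  obtain ⟨Ds5, _, hDs5⟩ := k8c_pw_comp' Cs D5
  obtain ⟨D6, hD6⟩ : ∃ D6 : ℕ, D6 = D6a + 2 * D5 := ⟨_, rfl⟩
  obtain ⟨Du, _, hDu⟩ := k8c_pw_comp' Cu D6
  obtain ⟨Da, _, hDa⟩ := k8c_pw_comp' Ca D6
  obtain ⟨C, hC⟩ : ∃ C : ℕ, C = 4 * D1 + D3 + D4 + D5 + Ds5 + Du + Da + (D6 * D6 + D6 + D6) + (Da * Du + Da + Du) + 2 := ⟨_, rfl⟩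
  have hD1pos : 1 ≤ D1 := by omega
  refine ⟨C₁, C, by omega, ?_⟩
  intro c H K Kf gap s g η m ω δ E hcS hcd hr hKf hgap hgrid hsmall hin hfh
  have hc := hr.wf
  have hK := hin.K1
  have hN1 := hc.N1
  have hN0 : 0 < c.N := lt_of_lt_of_le one_pos hN1
  have hG1 : 1 ≤ c.N ^ gap := Real.one_le_rpow hN1 hgap
  obtain ⟨Y0, hY0⟩ : ∃ Y0 : ℝ, Y0 = K * c.N ^ gap := ⟨_, rfl⟩
  obtain ⟨Y, hY⟩ : ∃ Y : ℝ, Y = K * Kf * c.N ^ gap := ⟨_, rfl⟩
  rw [← hY] at hsmall ⊢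
  rw [← hY0] at hfh
  have hKY0 : K ≤ Y0 := by rw [hY0]; nlinarith
  have hY01 : 1 ≤ Y0 := hK.trans hKY0
  have hY0Y : Y0 ≤ Y := by
    rw [hY0, hY]
    have : 0 ≤ K * c.N ^ gap := by positivity
    nlinarith
  have hY1 : 1 ≤ Y := hY01.trans hY0Y
  have hKfY : Kf ≤ Y := by
    rw [hY]
    have : 1 ≤ K * c.N ^ gap := by nlinarith
    nlinarith
  have hδ0 := hr.δ0
  -- smallness
  have sm : ∀ Dn : ℕ, Dn ≤ C → ∀ x : ℝ, x ≤ (Dn : ℝ) * Y ^ Dn → x * δ ≤ 1 := fun Dn hDn x hx =>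
    (mul_le_mul_of_nonneg_right (hx.trans (k8c_pw_mono hY1 hDn)) hδ0.le).trans hsmall
  have up0 : ∀ Dn : ℕ, (Dn : ℝ) * Y0 ^ Dn ≤ (Dn : ℝ) * Y ^ Dn := fun Dn => k8c_pw_base (by linarith) hY0Y Dn
  obtain ⟨ha, ha1, ha', haa, hh, hh1, hω1, hm1, hη1⟩ := k8c_rel_basic hr
  -- slacks
  obtain ⟨X1, hX1⟩ : ∃ X1 : ℝ, X1 = (D1 : ℝ) * Y0 ^ D1 := ⟨_, rfl⟩
  obtain ⟨X2, hX2⟩ : ∃ X2 : ℝ, X2 = (D2 : ℝ) * Y0 ^ D2 := ⟨_, rfl⟩
  obtain ⟨X3, hX3⟩ : ∃ X3 : ℝ, X3 = (D3 : ℝ) * Y0 ^ D3 := ⟨_, rfl⟩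
  obtain ⟨X4, hX4⟩ : ∃ X4 : ℝ, X4 = (D4 : ℝ) * Y0 ^ D4 := ⟨_, rfl⟩
  obtain ⟨X5, hX5⟩ : ∃ X5 : ℝ, X5 = (D5 : ℝ) * Y ^ D5 := ⟨_, rfl⟩
  obtain ⟨X6, hX6⟩ : ∃ X6 : ℝ, X6 = (D6 : ℝ) * Y ^ D6 := ⟨_, rfl⟩
  have h1X1 : 1 ≤ X1 := hX1 ▸ k8c_pw_one hY01 hD1pos
  have hX12 : X1 ≤ X2 := by rw [hX1, hX2]; exact k8c_pw_mono hY01 hD12
  have hX23 : X2 ≤ X3 := by rw [hX2, hX3]; exact k8c_pw_mono hY01 (by omega)
  have hX34 : X3 ≤ X4 := by rw [hX3, hX4]; exact k8c_pw_mono hY01 hD34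
  have hX45 : X4 ≤ X5 := by rw [hX4, hX5]; exact (up0 D4).trans (k8c_pw_mono hY1 (by omega))
  have hX56 : X5 ≤ X6 := by rw [hX5, hX6]; exact k8c_pw_mono hY1 (by omega)
  have hKX1 : K ≤ X1 := hKY0.trans (hX1 ▸ k8c_pw_self hY01 hD1pos)
  have h1X2 := h1X1.trans hX12
  have h1X3 := h1X2.trans hX23
  have h1X4 := h1X3.trans hX34
  have h1X5 := h1X4.trans hX45
  have h1X6 := h1X5.trans hX56
  have hK0 : 0 < K := by linarith
  have ok : ∀ X : ℝ, K ≤ X → H.Ok c X := fun X hX => k8c_ok_mono hc hin.ok hK0 hX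
  have hESp := hin.res.sub
  have hEm := hin.res.meas
  -- (1) S4
  obtain ⟨E1, hE1, hE1m, hl1, hP1, -, -, hS1⟩ := k7b_nested_slopes c H (ε := 1 / (8 * K)) hc hK (by positivity) hgap hin.ok hESp hEm hgrid
  obtain ⟨b1, b2⟩ := k8c_s4_bd (n := c.G.card) hK hin.card hG1
  rw [← hY0] at b1 b2
  have b3 : (6591000 : ℝ) * Y0 ^ 36 ≤ X1 := by
    rw [hX1]
    exact k8c_pw_le hY01 (by norm_num) (by rw [hD1]; norm_num) (by omega)
  have hP1' : H.Pairs c X1 E E1 := hP1.mono (b1.trans b3) subset_rfl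
  have hS1' : H.Slopes c X1 E1 := k8c_slopes_mono hc hS1 (b2.trans b3) subset_rfl
  have hE1Sp := hE1.trans hESp
  -- (2) S5
  have s5 : K7bS5 c X1 s (c.a s) η := k8c_s5_of_rel hr h1X1 (by
    have : 4 * X1 ≤ ((4 * D1 : ℕ) : ℝ) * Y ^ (4 * D1) := by
      rw [hX1]
      calc 4 * ((D1 : ℝ) * Y0 ^ D1) ≤ 4 * ((D1 : ℝ) * Y ^ D1) := by linarith [up0 D1]
        _ = ((4 * D1 : ℕ) : ℝ) * Y ^ D1 := by push_cast; ring
        _ ≤ _ := k8c_pw_le hY1 (Nat.cast_nonneg _) le_rfl (by omega)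
    exact sm (4 * D1) (by omega) _ this)
  have hε2 : 1 / (8 * X1) ≤ 1 / (8 * K) := one_div_le_one_div_of_le (by positivity) (by linarith)
  obtain ⟨E2, hE2, hE2m, hl2, hCnt⟩ := h5 c H X1 (1 / (8 * X1)) s (c.a s) η E E1 hcd s5 (by positivity)
    (by rw [div_le_one (by positivity)]; linarith) (ok X1 hKX1) hESp hEm hE1Sp hE1m hP1' hS1'
  have e2 : X1 / (1 / (8 * X1)) = 8 * X1 ^ 2 := by field_simp
  rw [e2] at hCnt
  have hCnt2 : H.Cnt c s (c.a s) η X2 E2 := k8c_cnt_mono hc hCnt (by rw [hX1, hX2]; exact hD2 Y0 hY01)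
  have hE2Sp := hE2.trans hE1Sp
  have hS2 : H.Slopes c X2 E2 := k8c_slopes_mono hc hS1' hX12 hE2
  -- (3) lists and rows
  have hDL := hdl c H X2 s g η m ω δ E2 hr h1X2 (sm D3 (by omega) _ (by
      rw [hX2]; exact (hD3a Y0 hY01).trans ((up0 D3a).trans (k8c_pw_mono hY1 (by omega))))) (ok X2 (hKX1.trans hX12)) hE2Sp hS2 hCnt2
  have hRW := hrw c H X2 s g η m ω δ E2 hr h1X2 (sm D3 (by omega) _ (by
      rw [hX2]; exact (hD3b Y0 hY01).trans ((up0 D3b).trans (k8c_pw_mono hY1 (by omega))))) (ok X2 (hKX1.trans hX12)) hE2Sp hS2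
  have hDL3 : K8cDList H c s m X3 E2 := k8c_dlist_mono hDL (by
    rw [hX2, hX3]; exact (hD3a Y0 hY01).trans (k8c_pw_mono hY01 (by omega))) subset_rfl
  have hRW3 : K8cRowOk H c s (3 * s) X3 E2 := k8c_rowok_mono hc hRW (by
    rw [hX2, hX3]; exact (hD3b Y0 hY01).trans (k8c_pw_mono hY01 (by omega))) subset_rfl
  -- (4) row bins
  have e3 : X3 / (1 / (8 * X3)) = 8 * X3 ^ 2 := by field_simp
  have hKX3 : K ≤ X3 := hKX1.trans (hX12.trans hX23)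
  have hε3 : 1 / (8 * X3) ≤ 1 / (8 * K) := one_div_le_one_div_of_le (by positivity) (by linarith)
  obtain ⟨E3, hE3, hE3m, hl3, hRB⟩ := hrb c H X3 (1 / (8 * X3)) s g η m ω δ E2 hcS hr h1X3 (by positivity)
    (by rw [div_le_one (by positivity)]; linarith)
    (by rw [e3]; exact sm D4 (by omega) _ (by rw [hX3]; exact (hD4 Y0 hY01).trans (up0 D4)))
    (ok X3 hKX3) hE2Sp hE2m (k8c_slopes_mono hc hS2 hX23 subset_rfl) hDL3 hRW3
  rw [e3] at hRB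
  have hRB4 : K8cRBins H c s (3 * s) m X4 E3 := k8c_rbins_mono hRB (by rw [hX3, hX4]; exact hD4 Y0 hY01) subset_rfl
  have hE3Sp := hE3.trans hE2Sp
  have hmass3 : ENNReal.ofReal (1 / (2 * K)) ≤ H.lam E3 := k8c_mass3 H.lam hK hin.res.mass hl1
    (hl2.trans (ENNReal.ofReal_le_ofReal hε2)) (hl3.trans (ENNReal.ofReal_le_ofReal hε3))
  -- (5) the fit
  have h2KX4 : 2 * K ≤ X4 := by
    have : 2 * Y0 ≤ X4 := by
      rw [hX4]
      have := k8c_pw_le hY01 (a := 2) (b := 1) (D := D4) (by norm_num) (by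
        have : 2 ≤ D4 := by omega
        exact_mod_cast this) (by omega)
      simpa using this
    linarith
  have hKX4 : K ≤ X4 := by linarith
  have hX4Kf : X4 * Kf ≤ ((D4 * 1 + D4 + 1 : ℕ) : ℝ) * Y ^ (D4 * 1 + D4 + 1) := by
    have h1 := k8c_pw_mul hY1 D4 1
    have h2 : X4 * Kf ≤ ((D4 : ℝ) * Y ^ D4) * (((1 : ℕ) : ℝ) * Y ^ 1) := by
      rw [hX4]
      have : Kf ≤ ((1 : ℕ) : ℝ) * Y ^ 1 := by simpa using hKfY
      exact mul_le_mul (up0 D4) this (by linarith) (by positivity)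
    exact h2.trans h1
  have hX4Kf0 : 0 ≤ X4 * Kf := by positivity
  have hfb : (Cf : ℝ) * (X4 * Kf) ^ Cf ≤ X5 := by
    rw [hX5]
    exact (mul_le_mul_of_nonneg_left (pow_le_pow_left₀ hX4Kf0 hX4Kf Cf) (Nat.cast_nonneg Cf)).trans (hD5 Y hY1)
  have hfh' : K8cFitHyp c.S m (c.a s) ((Cf1 : ℝ) * X4 ^ Cf1) Kf := by
    rw [hcS]
    refine k8c_fithyp_anti hfh ?_ (by rw [hX4]; exact hC₁ Y0 hY01) hr.m0.le ha.le
    have : (0 : ℝ) < Cf1 := by exact_mod_cast hCf1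
    positivity
  obtain ⟨Fq, E4, hE4, hE4m, hm4, hPr⟩ := hfit c H X4 Kf s g η m ω δ E3 hr h1X4 hKf (sm D5 (by omega) _ (hX5 ▸ hfb)) (ok X4 hKX4) hE3Sp hE3m
    (le_trans (ENNReal.ofReal_le_ofReal (one_div_le_one_div_of_le (by positivity) h2KX4)) hmass3)
    (k8c_slopes_mono hc hS2 (hX23.trans hX34) hE3) hRB4 (k8c_rowok_mono hc hRW3 hX34 hE3) hfh'
  have hE4Sp := hE4.trans hE3Sp
  have hm4' : 1 ≤ ENNReal.ofReal X5 * H.lam E4 := hm4.trans (mul_le_mul' (ENNReal.ofReal_le_ofReal hfb) le_rfl)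
  have hPr5 : K8cPrim H c s X5 Fq E4 := k8c_prim_mono hc hPr hfb subset_rfl
  have hKX5 : K ≤ X5 := hKX4.trans hX45
  -- (6) switching states
  have e5 : X5 / (1 / (8 * X5)) = 8 * X5 ^ 2 := by field_simp
  obtain ⟨E5, hE5, hE5m, hl5, hCo⟩ := hsw c H X5 (1 / (8 * X5)) s g η m ω δ Fq E4 hr h1X5 (by positivity)
    (by rw [div_le_one (by positivity)]; linarith) (sm Ds5 (by omega) _ (by rw [hX5]; exact hDs5 Y hY1)) (ok X5 hKX5) hE4Sp hE4m hPr5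
  rw [e5] at hCo
  have hCo6 : K8cCond H c (k8cSt H s (c.a (s + g)) c.ξ Fq) X6 E5 := k8c_cond_mono hCo (by
    rw [hX5, hX6]; exact (hD6a Y hY1).trans (k8c_pw_mono hY1 (by omega)))
  have hE5Sp := hE5.trans hE4Sp
  have h2X5 : 2 * X5 ≤ X6 := by
    rw [hX5, hX6]
    calc 2 * ((D5 : ℝ) * Y ^ D5) = ((2 * D5 : ℕ) : ℝ) * Y ^ D5 := by push_cast; ring
      _ ≤ _ := k8c_pw_le hY1 (Nat.cast_nonneg _) (by exact_mod_cast (by omega : 2 * D5 ≤ D6)) (by omega)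
  have hm5 : 1 ≤ ENNReal.ofReal X6 * H.lam E5 :=
    (k8c_mass_sw H.lam h1X5 hm4' hl5).trans (mul_le_mul' (ENNReal.ofReal_le_ofReal h2X5) le_rfl)
  have hKX6 : K ≤ X6 := hKX5.trans hX56
  have hE5E : E5 ⊆ E := hE5.trans (hE4.trans (hE3.trans (hE2.trans hE1)))
  have hE5E1 : E5 ⊆ E1 := hE5.trans (hE4.trans (hE3.trans hE2))
  have hE5E2 : E5 ⊆ E2 := hE5.trans (hE4.trans hE3)
  have hX16 : X1 ≤ X6 := hX12.trans (hX23.trans (hX34.trans (hX45.trans hX56)))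
  have hPr6 : K8cPrim H c s X6 Fq E5 := k8c_prim_mono hc hPr5 hX56 hE5
  have hS6 : H.Slopes c X6 E5 := k8c_slopes_mono hc hS1' hX16 hE5E1
  -- (7) upper count
  have hU := hup c H X6 s g η m ω δ Fq E E5 hr h1X6 (sm Du (by omega) _ (by rw [hX6]; exact hDu Y hY1)) (ok X6 hKX6) hESp hEm hE5Sp
    (hP1'.mono hX16 hE5E1) hS6 hPr6
  -- (8) the label
  obtain ⟨q, hq, hmq⟩ := k8c_pick c H (ok X6 hKX6) hr.sG hE5Sp hE5m hm5
  -- (9) the heavy bin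
  obtain ⟨C0, hC0⟩ := hap c H X6 _ s g η m ω δ Fq E5 q hcS hr h1X6 (sm Da (by omega) _ (by rw [hX6]; exact hDa Y hY1)) (ok X6 hKX6) hE5Sp hE5m
    hPr6 hCo6 hU hq hmq
  -- (10) the candidate
  have hfin : (Ca : ℝ) * X6 ^ Ca * ω ^ 3 * ((Cu : ℝ) * X6 ^ Cu * (c.a s / c.a (s + g)) ^ c.d / ω ^ 3)
      ≤ (C : ℝ) * Y ^ C * (c.a s / c.a (s + g)) ^ c.d := by
    have hω0 := hr.ω0
    have e : (Ca : ℝ) * X6 ^ Ca * ω ^ 3 * ((Cu : ℝ) * X6 ^ Cu * (c.a s / c.a (s + g)) ^ c.d / ω ^ 3)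
        = ((Ca : ℝ) * X6 ^ Ca) * ((Cu : ℝ) * X6 ^ Cu) * (c.a s / c.a (s + g)) ^ c.d := by
      field_simp
    rw [e]
    refine mul_le_mul_of_nonneg_right ?_ (Real.rpow_nonneg (by positivity) _)
    have i1 : (Ca : ℝ) * X6 ^ Ca ≤ (Da : ℝ) * Y ^ Da := by rw [hX6]; exact hDa Y hY1
    have i2 : (Cu : ℝ) * X6 ^ Cu ≤ (Du : ℝ) * Y ^ Du := by rw [hX6]; exact hDu Y hY1
    calc ((Ca : ℝ) * X6 ^ Ca) * ((Cu : ℝ) * X6 ^ Cu) ≤ ((Da : ℝ) * Y ^ Da) * ((Du : ℝ) * Y ^ Du) :=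
          mul_le_mul i1 i2 (by positivity) (by positivity)
      _ ≤ _ := (k8c_pw_mul hY1 Da Du).trans (k8c_pw_mono hY1 (by omega))
  have hsq : X6 ^ 2 * δ ≤ 1 := sm (D6 * D6 + D6 + D6) (by omega) _ (by
    rw [hX6, sq]; exact k8c_pw_mul hY1 D6 D6)
  have h2C : (2 : ℝ) ≤ (C : ℝ) * Y ^ C := by
    have := k8c_pw_le hY1 (a := 2) (b := 0) (D := C) (by norm_num) (by
      have : 2 ≤ C := by omega
      exact_mod_cast this) (Nat.zero_le _)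
    simpa using this
  obtain ⟨P, hP⟩ := k8c_cand c H hr h1X6 hsq (ok X6 hKX6) Fq hE5E hE5Sp hE5m hPr6 hq C0 h2C
    (hC0.trans (mul_le_mul' (ENNReal.ofReal_le_ofReal hfin) le_rfl))
  exact ⟨q, P, _, hP⟩

/-- the scales in the hub language -/
theorem k8c_rel (x : K8Exp) (hx : x.Ok) (hk : x.k = 1 / 2) (s : ℝ) (hs : 0 < s) (hse : 100 * s ≤ x.e0) : ∃ N₁ : ℝ, ∀ (c : K7bPar),
    c.WF → c.k = x.k → c.e0 = x.e0 → N₁ ≤ c.N → s ∈ c.G → s + s / 8 ∈ c.G → 3 * s ∈ c.G →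
    c.ξ ≤ c.N ^ (-(20 * s)) → c.χ ≤ c.N ^ (-(20 * s)) → c.ϱ ≤ c.N ^ (-(20 * s)) →
    K8cRel c s (s / 8) (c.N ^ (-(2 * s))) (⌈c.N ^ (-(3 * s)) / c.χ⌉₊ * c.χ) (c.N ^ (-(5 * s))) (c.N ^ (-(s / 8))) ∧
      c.N ^ (-(3 * s)) ≤ ⌈c.N ^ (-(3 * s)) / c.χ⌉₊ * c.χ ∧ ⌈c.N ^ (-(3 * s)) / c.χ⌉₊ * c.χ ≤ 2 * c.N ^ (-(3 * s)) := by
  refine ⟨(2 : ℝ) ^ (8 / (7 * s)), ?_⟩
  intro c hc hck hce hN hsG hsgG hs3G hξ hχ hϱ
  have hN1 := hc.N1
  have hN0 : 0 < c.N := by linarith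
  have hadd : ∀ a b : ℝ, c.N ^ a * c.N ^ b = c.N ^ (a + b) := fun a b => (Real.rpow_add hN0 a b).symm
  have hsq : ∀ a : ℝ, (c.N ^ a) ^ 2 = c.N ^ (2 * a) := by
    intro a
    rw [← Real.rpow_natCast, ← Real.rpow_mul hN0.le]
    congr 1
    push_cast
    ring
  have hmono : ∀ a b : ℝ, a ≤ b → c.N ^ a ≤ c.N ^ b := fun a b hab => Real.rpow_le_rpow_of_exponent_le hN1 hab
  have hpos : ∀ a : ℝ, 0 < c.N ^ a := fun a => Real.rpow_pos_of_pos hN0 a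
  have h2 : (2 : ℝ) ≤ c.N ^ (7 * s / 8) := by
    calc (2 : ℝ) = ((2 : ℝ) ^ (8 / (7 * s))) ^ (7 * s / 8) := by
          rw [← Real.rpow_mul (by norm_num)]
          have : 8 / (7 * s) * (7 * s / 8) = 1 := by field_simp
          rw [this, Real.rpow_one]
      _ ≤ c.N ^ (7 * s / 8) := Real.rpow_le_rpow (by positivity) hN (by positivity)
  obtain ⟨m, hm⟩ : ∃ m : ℝ, m = ⌈c.N ^ (-(3 * s)) / c.χ⌉₊ * c.χ := ⟨_, rfl⟩
  have hχ0 := hc.χ0
  have hm1 : c.N ^ (-(3 * s)) ≤ m := by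
    rw [hm]
    have := Nat.le_ceil (c.N ^ (-(3 * s)) / c.χ)
    rwa [div_le_iff₀ hχ0] at this
  have hm2 : m ≤ 2 * c.N ^ (-(3 * s)) := by
    rw [hm]
    have h1 := (Nat.ceil_lt_add_one (div_nonneg (hpos (-(3 * s))).le hχ0.le)).le
    have h3 : (⌈c.N ^ (-(3 * s)) / c.χ⌉₊ : ℝ) * c.χ ≤ (c.N ^ (-(3 * s)) / c.χ + 1) * c.χ :=
      mul_le_mul_of_nonneg_right h1 hχ0.le
    have h4 : (c.N ^ (-(3 * s)) / c.χ + 1) * c.χ = c.N ^ (-(3 * s)) + c.χ := by field_simp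
    have h5 : c.χ ≤ c.N ^ (-(3 * s)) := hχ.trans (hmono _ _ (by linarith))
    linarith
  have hm0 : 0 < m := lt_of_lt_of_le (hpos _) hm1
  rw [← hm]
  refine ⟨?_, hm1, hm2⟩
  have hkk : c.k = 1 / 2 := hck.trans hk
  refine
    { wf := hc
      khalf := hkk
      s0 := hs
      g0 := by positivity
      sG := hsG
      sgG := hsgG
      s3G := hs3G
      δ0 := hpos _
      δ1 := Real.rpow_le_one_of_one_le_of_nonpos hN1 (by linarith)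
      η0 := hpos _
      m0 := hm0
      ω0 := hpos _
      mχ := ⟨⌈c.N ^ (-(3 * s)) / c.χ⌉₊, Nat.ceil_pos.2 (div_pos (hpos _) hχ0), hm⟩
      r_h := ?_
      r_ah := ?_
      r_3 := ?_
      r_η := ?_
      r_m := ?_
      r_ω := ?_
      r_ξ := ?_
      r_χ := ?_
      r_ϱ := ?_
      r_e := ?_ }
  · unfold K7bPar.h
    rw [hkk]
    exact hmono _ _ (by linarith)
  · unfold K7bPar.h K7bPar.a
    rw [hkk, hadd, hadd]
    exact hmono _ _ (by linarith)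
  · unfold K7bPar.h K7bPar.a
    rw [hkk, hadd, hadd]
    exact hmono _ _ (by linarith)
  · unfold K7bPar.a
    rw [hadd]
    exact hmono _ _ (by linarith)
  · rw [hadd]
    have e1 : c.N ^ (7 * s / 8) * c.N ^ (-(3 * s)) = c.N ^ (-(s / 8) + -(2 * s)) := by
      rw [hadd]; congr 1; ring
    rw [← e1]
    exact hm2.trans (mul_le_mul_of_nonneg_right h2 (hpos _).le)
  · unfold K7bPar.a
    rw [hsq, hadd]
    exact hmono _ _ (by linarith)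
  · unfold K7bPar.a
    rw [hsq]
    have e1 : c.N ^ (-(s / 8)) * (c.N ^ (-(3 * s)) * c.N ^ (-(5 * s)) * c.N ^ (2 * -s))
        ≤ c.N ^ (-(s / 8)) * (m * c.N ^ (-(5 * s)) * c.N ^ (2 * -s)) := by
      have := hpos (-(s / 8))
      have := hpos (-(5 * s))
      have := hpos (2 * -s)
      gcongr
    refine le_trans ?_ e1
    rw [hadd, hadd, hadd]
    exact hξ.trans (hmono _ _ (by linarith))
  · unfold K7bPar.a
    rw [hsq, hadd, hadd]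
    exact hχ.trans (hmono _ _ (by linarith))
  · unfold K7bPar.a
    rw [hadd]
    exact hϱ.trans (hmono _ _ (by linarith))
  · unfold K7bPar.a
    rw [hsq, hadd, hadd, hce]
    exact hmono _ _ (by linarith)

set_option maxHeartbeats 1600000 in
/-- **P8.2, hub form**: the exit of Sec. 8 at the critical rate -/
theorem k8c_exit (x : K8Exp) (hx : x.Ok) (hk : x.k = 1 / 2) : K8Exit x := by
  obtain ⟨s, hsdef⟩ : ∃ s : ℝ, s = min (x.e0 / 100) (x.R / 3) := ⟨_, rfl⟩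
  have he0 := hx.e0
  have hR0 := hx.R0
  have hs : 0 < s := by rw [hsdef]; exact lt_min (by positivity) (by positivity)
  have hse : 100 * s ≤ x.e0 := by
    have : s ≤ x.e0 / 100 := by rw [hsdef]; exact min_le_left _ _
    linarith
  have hsR : 3 * s ≤ x.R := by
    have : s ≤ x.R / 3 := by rw [hsdef]; exact min_le_right _ _
    linarith
  obtain ⟨C₁, C, hC₁, hone⟩ := k8c_one x.S x.d hx.S0 hx.d0 hx.d1
  obtain ⟨Nr, hrel⟩ := k8c_rel x hx hk s hs hse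
  refine ⟨s, s / 8, 21 * s, hs, by positivity, ?_⟩
  unfold K8Hub0 K8HubAt
  intro M hM1 hM2 hM3 τ hτ
  -- exponents
  obtain ⟨θ, hθ⟩ : ∃ θ : ℝ, θ = min τ (s / 8) := ⟨_, rfl⟩
  have hθ0 : 0 < θ := by rw [hθ]; exact lt_min hτ (by positivity)
  have hθτ : θ ≤ τ := by rw [hθ]; exact min_le_left _ _
  have hθs : θ ≤ s / 8 := by rw [hθ]; exact min_le_right _ _
  have hC0 : (0 : ℝ) ≤ C := Nat.cast_nonneg C
  have hC₁0 : (0 : ℝ) < C₁ := by exact_mod_cast hC₁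
  obtain ⟨τf', hτf'⟩ : ∃ τf' : ℝ, τf' = θ / (12 * s * (C + 1)) := ⟨_, rfl⟩
  have hτf'0 : 0 < τf' := by rw [hτf']; positivity
  obtain ⟨τf, ξ₀, hτf0, hξ₀, hfit⟩ := re6_row_fit x.S τf' hx.S0 hτf'0
  obtain ⟨t, ht⟩ : ∃ t : ℝ, t = min (θ / (16 * (C + 1))) (s * τf / (2 * C₁)) := ⟨_, rfl⟩
  have ht0 : 0 < t := by rw [ht]; exact lt_min (by positivity) (by positivity)
  have ht1 : t ≤ θ / (16 * (C + 1)) := by rw [ht]; exact min_le_left _ _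
  have ht2 : t ≤ s * τf / (2 * C₁) := by rw [ht]; exact min_le_right _ _
  obtain ⟨Na, hNa1, hNa⟩ := k8c_big (2 / ξ₀ + 1) (3 * s) (by positivity)
  obtain ⟨Nb, hNb1, hNb⟩ := k8c_big (C₁ * 2 ^ τf) (2 * s * τf) (by positivity)
  obtain ⟨Nc, hNc1, hNc⟩ := k8c_big C (θ / 2) (by positivity)
  obtain ⟨Nd, hNd1, hNd⟩ := k8c_big 2 s hs
  -- the statement for a record whose grid is the good grid
  have core : ∀ (H : K7bHor) (c : K7bPar) (K : ℝ) (E : Set (H.Lam × ℝ)), c.WF → c.k = x.k → c.d = x.d → c.S = x.S → c.e0 = x.e0 →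
      Nr ≤ c.N → Na ≤ c.N → Nb ≤ c.N → Nc ≤ c.N → s ∈ c.G → s + s / 8 ∈ c.G → 3 * s ∈ c.G →
      (∀ u ∈ c.G, 0 < u → ∃ u' ∈ c.G, u' < u ∧ u - u' ≤ t) →
      c.ξ ≤ c.N ^ (-(20 * s)) → c.χ ≤ c.N ^ (-(20 * s)) → c.ϱ ≤ c.N ^ (-(20 * s)) → K8Inp H c K E → K ≤ c.N ^ t →
      ∃ q P Cn, K8Cand H c (c.N ^ τ) s (s / 8) E q P Cn := by
    intro H c K E hwf hck hcd hcS hce hNr hNa' hNb' hNc' g1 g2 g3 hgr hξ hχ hϱ hin hKt
    obtain ⟨N, hN⟩ : ∃ N : ℝ, N = c.N := ⟨_, rfl⟩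
    have hN1 : 1 ≤ N := hN ▸ hwf.N1
    have hN0 : 0 < N := by linarith
    obtain ⟨hr, hmlo, hmhi⟩ := hrel c hwf hck hce hNr g1 g2 g3 hξ hχ hϱ
    obtain ⟨m, hm⟩ : ∃ m : ℝ, m = ⌈c.N ^ (-(3 * s)) / c.χ⌉₊ * c.χ := ⟨_, rfl⟩
    rw [← hm] at hr hmlo hmhi
    rw [← hN] at hmlo hmhi hKt hNa' hNb' hNc'
    have hm0 := hr.m0
    obtain ⟨ha, ha1, ha', haa, hh, hh1, hω1, hm1, hη1⟩ := k8c_rel_basic hr
    have hK1 := hin.K1
    have hp3 : 0 < N ^ (-(3 * s)) := Real.rpow_pos_of_pos hN0 _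
    -- Kf
    have hKf1 : 1 ≤ m ^ (-τf') := Real.one_le_rpow_of_pos_of_le_one_of_nonpos hm0 hm1 (by linarith)
    have hKfu : m ^ (-τf') ≤ N ^ (3 * s * τf') := by
      calc m ^ (-τf') ≤ (N ^ (-(3 * s))) ^ (-τf') := Real.rpow_le_rpow_of_nonpos hp3 hmlo (by linarith)
        _ = N ^ (3 * s * τf') := by
            rw [← Real.rpow_mul hN0.le]
            congr 1
            ring
    -- the input slack of the fit
    have hY0 : K * N ^ t ≤ N ^ (2 * t) := by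
      calc K * N ^ t ≤ N ^ t * N ^ t := mul_le_mul_of_nonneg_right hKt (Real.rpow_nonneg hN0.le _)
        _ = N ^ (2 * t) := by rw [← Real.rpow_add hN0]; congr 1; ring
    have hNt1 : 1 ≤ N ^ t := Real.one_le_rpow hN1 ht0.le
    have hY01 : 1 ≤ K * N ^ t := by nlinarith
    have hKin1 : 1 ≤ (C₁ : ℝ) * (K * N ^ t) ^ C₁ := k8c_pw_one hY01 hC₁
    have hKin : (C₁ : ℝ) * (K * N ^ t) ^ C₁ ≤ m ^ (-τf) := by
      have a1 : (K * N ^ t) ^ C₁ ≤ N ^ (s * τf) := by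
        calc (K * N ^ t) ^ C₁ ≤ (N ^ (2 * t)) ^ C₁ := pow_le_pow_left₀ (by linarith) hY0 _
          _ = N ^ (2 * t * C₁) := by rw [← Real.rpow_natCast, ← Real.rpow_mul hN0.le]
          _ ≤ N ^ (s * τf) := by
              refine Real.rpow_le_rpow_of_exponent_le hN1 ?_
              rw [le_div_iff₀ (by positivity)] at ht2
              linarith
      have a2 : (2 * N ^ (-(3 * s))) ^ (-τf) ≤ m ^ (-τf) := Real.rpow_le_rpow_of_nonpos hm0 hmhi (by linarith)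
      have a3 : (2 * N ^ (-(3 * s))) ^ (-τf) = (2 ^ τf)⁻¹ * N ^ (3 * s * τf) := by
        rw [Real.mul_rpow (by norm_num) hp3.le, Real.rpow_neg (by norm_num), ← Real.rpow_mul hN0.le]
        congr 2
        ring
      have a4 := hNb N hNb'
      have p2 : (0 : ℝ) < 2 ^ τf := Real.rpow_pos_of_pos (by norm_num) _
      have a5 : N ^ (3 * s * τf) = N ^ (2 * s * τf) * N ^ (s * τf) := by
        rw [← Real.rpow_add hN0]; congr 1; ring
      have p3 : 0 < N ^ (s * τf) := Real.rpow_pos_of_pos hN0 _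
      calc (C₁ : ℝ) * (K * N ^ t) ^ C₁ ≤ (C₁ : ℝ) * N ^ (s * τf) := mul_le_mul_of_nonneg_left a1 hC₁0.le
        _ = (2 ^ τf)⁻¹ * ((C₁ * 2 ^ τf) * N ^ (s * τf)) := by field_simp
        _ ≤ (2 ^ τf)⁻¹ * (N ^ (2 * s * τf) * N ^ (s * τf)) := by gcongr
        _ = (2 * N ^ (-(3 * s))) ^ (-τf) := by rw [a3, a5]
        _ ≤ m ^ (-τf) := a2
    have hmξ : m < ξ₀ := by
      have b1 := hNa N hNa'
      have b2 : N ^ (-(3 * s)) = (N ^ (3 * s))⁻¹ := Real.rpow_neg hN0.le _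
      have b3 : 0 < N ^ (3 * s) := Real.rpow_pos_of_pos hN0 _
      have b4 : 2 / ξ₀ < N ^ (3 * s) := by linarith
      have b5 : 2 * (N ^ (3 * s))⁻¹ < ξ₀ := by
        rw [div_lt_iff₀ hξ₀] at b4
        rw [← div_eq_mul_inv, div_lt_iff₀ b3]
        linarith
      rw [b2] at hmhi
      linarith
    have hma : m ≤ c.a s := by
      have c1 := hr.r_m
      have c2 := hr.r_η
      have c3 := hr.δ0
      have c4 := hr.δ1
      have c5 := hr.η0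
      have c6 : c.N ^ (-(s / 8)) * c.N ^ (-(2 * s)) ≤ 1 * c.N ^ (-(2 * s)) := mul_le_mul_of_nonneg_right c4 c5.le
      have c7 : c.N ^ (-(s / 8)) * c.a s ≤ 1 * c.a s := mul_le_mul_of_nonneg_right c4 ha.le
      linarith
    have hfh : K8cFitHyp x.S m (c.a s) ((C₁ : ℝ) * (K * c.N ^ t) ^ C₁) (m ^ (-τf')) := by
      rw [← hN]
      exact k8c_fithyp_of_fit hfit hm0 hmξ hma hKin1 hKin
    -- the final slack
    have hY : K * m ^ (-τf') * N ^ t ≤ N ^ (2 * t + 3 * s * τf') := by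
      calc K * m ^ (-τf') * N ^ t ≤ N ^ t * N ^ (3 * s * τf') * N ^ t := by gcongr
        _ = N ^ (2 * t + 3 * s * τf') := by
            rw [← Real.rpow_add hN0, ← Real.rpow_add hN0]; congr 1; ring
    have hYpos : 0 ≤ K * m ^ (-τf') * N ^ t := by positivity
    have hexp : (2 * t + 3 * s * τf') * C ≤ θ / 2 := by
      have d1 : t * C ≤ θ / 16 := by
        have : t * (16 * (C + 1)) ≤ θ := by rwa [le_div_iff₀ (by positivity)] at ht1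
        nlinarith
      have d2 : 3 * s * τf' * C ≤ θ / 4 := by
        have e : 3 * s * τf' * C = θ / 4 * (C / (C + 1)) := by
          rw [hτf']
          field_simp
          ring
        rw [e]
        have : (C : ℝ) / (C + 1) ≤ 1 := by rw [div_le_one (by positivity)]; linarith
        nlinarith
      nlinarith
    have hfinal : (C : ℝ) * (K * m ^ (-τf') * N ^ t) ^ C ≤ N ^ θ := by
      calc (C : ℝ) * (K * m ^ (-τf') * N ^ t) ^ C ≤ N ^ (θ / 2) * (N ^ (2 * t + 3 * s * τf')) ^ C :=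
            mul_le_mul (hNc N hNc') (pow_le_pow_left₀ hYpos hY _) (by positivity) (Real.rpow_nonneg hN0.le _)
        _ = N ^ (θ / 2) * N ^ ((2 * t + 3 * s * τf') * C) := by rw [← Real.rpow_natCast, ← Real.rpow_mul hN0.le]
        _ ≤ N ^ (θ / 2) * N ^ (θ / 2) := by
            refine mul_le_mul_of_nonneg_left (Real.rpow_le_rpow_of_exponent_le hN1 hexp) (Real.rpow_nonneg hN0.le _)
        _ = N ^ θ := by rw [← Real.rpow_add hN0]; congr 1; ring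
    have hsmall : (C : ℝ) * (K * m ^ (-τf') * c.N ^ t) ^ C * c.N ^ (-(s / 8)) ≤ 1 := by
      rw [← hN]
      calc (C : ℝ) * (K * m ^ (-τf') * N ^ t) ^ C * N ^ (-(s / 8)) ≤ N ^ θ * N ^ (-(s / 8)) :=
            mul_le_mul_of_nonneg_right hfinal (Real.rpow_nonneg hN0.le _)
        _ = N ^ (θ - s / 8) := by rw [← Real.rpow_add hN0]; congr 1
        _ ≤ 1 := Real.rpow_le_one_of_one_le_of_nonpos hN1 (by linarith)
    obtain ⟨q, P, Cn, hc⟩ := hone c H K (m ^ (-τf')) t s (s / 8) _ m _ _ E hcS hcd hr hKf1 ht0.le hgr hsmall hin hfh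
    refine ⟨q, P, Cn, ?_⟩
    have hle : (C : ℝ) * (K * m ^ (-τf') * c.N ^ t) ^ C ≤ c.N ^ τ := by
      rw [← hN]
      exact hfinal.trans (Real.rpow_le_rpow_of_exponent_le hN1 hθτ)
    exact ⟨hc.s_mem, hc.q_mem, hc.deg, hc.meas, hc.sub, hc.lab,
      fun z hz u hu => (hc.fit z hz u hu).trans (mul_le_mul_of_nonneg_right hle (Real.rpow_pos_of_pos (hN ▸ hN0) _).le),
      hc.mass.trans (mul_le_mul' (ENNReal.ofReal_le_ofReal hle) le_rfl)⟩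
  refine ⟨{s, s + s / 8, 3 * s}, t, max Nr (max Na (max Nb (max Nc Nd))), ht0, ?_, ?_⟩
  · intro u hu
    simp only [Finset.mem_insert, Finset.mem_singleton] at hu
    rcases hu with rfl | rfl | rfl
    · constructor <;> linarith
    · constructor <;> linarith
    · constructor <;> linarith
  intro H _ c K E hadm hin hKt _
  have w := hadm.wf
  have hN1 := w.N1
  have hN0 : 0 < c.N := by linarith
  have n1 : Nr ≤ c.N := (le_max_left _ _).trans hadm.hN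
  have n2 : Na ≤ c.N := ((le_max_left _ _).trans (le_max_right _ _)).trans hadm.hN
  have n3 : Nb ≤ c.N := ((le_max_left _ _).trans ((le_max_right _ _).trans (le_max_right _ _))).trans hadm.hN
  have n4 : Nc ≤ c.N := ((le_max_left _ _).trans ((le_max_right _ _).trans ((le_max_right _ _).trans (le_max_right _ _)))).trans hadm.hN
  have n5 : Nd ≤ c.N := ((le_max_right _ _).trans ((le_max_right _ _).trans ((le_max_right _ _).trans (le_max_right _ _)))).trans hadm.hN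
  have h2 : 2 ≤ c.N ^ s := hNd c.N n5
  have hNgt : 1 < c.N := by
    by_contra hcon
    have : c.N = 1 := le_antisymm (not_lt.1 hcon) hN1
    rw [this, Real.one_rpow] at h2
    norm_num at h2
  have mesh : ∀ e y : ℝ, 21 * s ≤ e → y < 2 * c.N ^ (-e) → y ≤ c.N ^ (-(20 * s)) := by
    intro e y he hy
    have a1 : c.N ^ (-e) ≤ c.N ^ (-(21 * s)) := Real.rpow_le_rpow_of_exponent_le hN1 (by linarith)
    have a2 : c.N ^ (-(20 * s)) = c.N ^ s * c.N ^ (-(21 * s)) := by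
      rw [← Real.rpow_add hN0]; congr 1; ring
    have a3 : 0 < c.N ^ (-(21 * s)) := Real.rpow_pos_of_pos hN0 _
    rw [a2]
    nlinarith
  have hgrid : ∀ u ∈ c.G, 0 < u → ∃ u' ∈ c.G, u' < u ∧ u - u' ≤ t := by
    intro u hu hu0
    obtain ⟨u', hu', h1, h3⟩ := hin.grid u hu hu0
    exact ⟨u', hu', h1, (Real.rpow_le_rpow_left_iff hNgt).1 (h3.trans hKt)⟩
  exact core H c K E w hadm.hk hadm.hd hadm.hS hadm.he n1 n2 n3 n4
    (hadm.hG (by simp)) (hadm.hG (by simp)) (hadm.hG (by simp)) hgrid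
    (mesh _ _ hM1 hadm.hξ.2) (mesh _ _ hM2 hadm.hχ.2) (mesh _ _ hM3 hadm.hϱ.2) hin hKt

end Claimed.Agent.R252
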